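import Vale.Agent.P050.Cut.Main

set_option linter.all false

/-!
From the cut norm to the operator bound.
-/

open MeasureTheory Finset

namespace Vale.Agent.P050.Loc

open Vale.Agent.P050

variable {Ω : Type*} [MeasurableSpace Ω]
variable {U : Sym2 Ω → ℝ} {B σ δ : ℝ}
variable (μ : Measure Ω) [IsProbabilityMeasure μ]

/-- replacing a bounded factor by indicators -/
lemma one_fun {f F : Ω → ℝ} (hf : BM f) (hF : BM F) {a ε : ℝ} (ha : ∀ x, |f x| ≤ a)
    (h : ∀ S, MeasurableSet S → |∫ x in S, F x ∂μ| ≤ ε) :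
    |∫ x, f x * F x ∂μ| ≤ 2 * a * ε := by
  have ha0 : 0 ≤ a := by
    obtain ⟨x⟩ := μ.nonempty_of_neZero
    exact (abs_nonneg _).trans (ha x)
  set S : Set Ω := {x | 0 < F x} with hSdef
  have hS : MeasurableSet S := measurableSet_lt measurable_const hF.meas
  have h1 : |∫ x, f x * F x ∂μ| ≤ ∫ x, a * |F x| ∂μ := by
    refine abs_integral_le_integral_abs.trans ?_
    apply integral_mono ((hf.mul hF).abs.integrable _)
      (((BM.const a).mul hF.abs).integrable _)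
    intro x
    show |f x * F x| ≤ a * |F x|
    rw [abs_mul]
    exact mul_le_mul_of_nonneg_right (ha x) (abs_nonneg _)
  have h2 : ∫ x, |F x| ∂μ = ∫ x in S, F x ∂μ - ∫ x in Sᶜ, F x ∂μ := by
    rw [← integral_add_compl hS (hF.abs.integrable μ)]
    have e1 : ∫ x in S, |F x| ∂μ = ∫ x in S, F x ∂μ := by
      apply setIntegral_congr_fun hS
      intro x hx
      exact abs_of_pos hx
    have e2 : ∫ x in Sᶜ, |F x| ∂μ = - ∫ x in Sᶜ, F x ∂μ := by
      rw [← integral_neg]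
      apply setIntegral_congr_fun hS.compl
      intro x hx
      have hx' : ¬ 0 < F x := hx
      exact abs_of_nonpos (not_lt.mp hx')
    rw [e1, e2]; ring
  have h3 : ∫ x, |F x| ∂μ ≤ 2 * ε := by
    rw [h2]
    have e1 := (abs_le.mp (h S hS)).2
    have e2 := (abs_le.mp (h Sᶜ hS.compl)).1
    linarith only [e1, e2]
  rw [integral_const_mul] at h1
  have h4 := mul_le_mul_of_nonneg_left h3 ha0
  linarith only [h1, h4]

lemma cut_two {K : Ω → Ω → ℝ} (hK : BM (Function.uncurry K)) {f g : Ω → ℝ} (hf : BM f)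
    (hg : BM g) {a b : ℝ} (ha : ∀ x, |f x| ≤ a) (hb : ∀ x, |g x| ≤ b)
    (h : ∀ S T, MeasurableSet S → MeasurableSet T →
      |∫ s in S, ∫ t in T, K s t ∂μ ∂μ| ≤ δ) :
    |∫ s, f s * (∫ t, K s t * g t ∂μ) ∂μ| ≤ 4 * a * b * δ := by
  have hKg : BM (Function.uncurry (fun s t => K s t * g t)) :=
    hK.mul (hg.comp (g := fun q : Ω × Ω => q.2) measurable_snd)
  have h1 : ∀ S, MeasurableSet S → |∫ s in S, (∫ t, K s t * g t ∂μ) ∂μ| ≤ 2 * b * δ := by
    intro S hS
    have e1 : ∫ s in S, (∫ t, K s t * g t ∂μ) ∂μ =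
        ∫ t, g t * (∫ s in S, K s t ∂μ) ∂μ := by
      rw [integral_integral_swap (hKg.integrable _)]
      congr 1
      ext t
      rw [← integral_const_mul]
      congr 1
      ext s
      ring
    rw [e1]
    have hKS : BM (fun t => ∫ s in S, K s t ∂μ) := by
      have : BM (fun q : Ω × Ω => K q.2 q.1) := hK.comp (g := fun q : Ω × Ω => (q.2, q.1))
        (measurable_snd.prodMk measurable_fst)
      obtain ⟨C, hC⟩ := this.bdd
      refine ⟨?_, C * (μ.restrict S).real Set.univ, fun t => ?_⟩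
      · have h0 : StronglyMeasurable (fun t => ∫ s, K s t ∂(μ.restrict S)) :=
          (this.meas.stronglyMeasurable).integral_prod_right'
        exact h0.measurable
      · exact norm_integral_le_of_norm_le_const (μ := μ.restrict S) (f := fun s => K s t) (C := C)
          (Filter.Eventually.of_forall fun s => hC (t, s))
    apply one_fun μ hg hKS hb
    intro T hT
    have e2 : ∫ t in T, ∫ s in S, K s t ∂μ ∂μ = ∫ s in S, ∫ t in T, K s t ∂μ ∂μ := by
      rw [integral_integral_swap]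
      have : BM (Function.uncurry (fun t s => K s t)) :=
        hK.comp (g := fun q : Ω × Ω => (q.2, q.1)) (measurable_snd.prodMk measurable_fst)
      exact this.integrable _
    rw [e2]
    exact h S T hS hT
  have h2 := one_fun μ hf (hKg.integral_right μ) ha h1
  calc _ ≤ 2 * a * (2 * b * δ) := h2
    _ = 4 * a * b * δ := by ring

lemma ck_le_of_cut (hU : Good U B) 
    (h : ∀ S T, MeasurableSet S → MeasurableSet T →
      |∫ s in S, ∫ t in T, two U s t ∂μ ∂μ| ≤ δ) :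
    ck μ U 2 ≤ 4 * B ^ 3 * δ := by
  have hone : BM (fun _ : Ω => (1:ℝ)) := BM.const 1
  set N : Ω → Ω → ℝ := kern μ (two U) [fun _ => (1:ℝ)] with hN
  have hNbm : BM (Function.uncurry N) := bm_kern0 μ hU.bm_two _ (by
    intro F hF
    rw [List.mem_singleton] at hF
    subst hF
    exact hone)
  have hNle : ∀ s t, |N s t| ≤ B ^ 2 := by
    intro s t
    have := kern_abs_le μ hU.pos.le (U := two U) (fun x y => hU.bdd _) [fun _ => (1:ℝ)] (by
      intro F hF y
      rw [List.mem_singleton] at hF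
      subst hF
      simp) s t
    simpa using this
  have hck : ck μ U 2 = ∫ s, ∫ t, (N s t) ^ 2 ∂μ ∂μ := rfl
  rw [hck]
  have h1 : ∀ s, ∫ t, (N s t) ^ 2 ∂μ ≤ 4 * B ^ 3 * δ := by
    intro s
    have e1 : ∀ t, (N s t) ^ 2 = N s t * ∫ y, two U t y * two U s y ∂μ := by
      intro t
      rw [sq]
      congr 1
      show ∫ y, two U s y * (1:ℝ) * two U y t ∂μ = _
      congr 1
      ext y
      rw [two_symm U y t]; ring
    simp only [e1]
    have h2 := cut_two μ (K := two U) hU.bm_two (f := fun t => N s t) (g := fun y => two U s y)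
      (hNbm.comp (g := fun t : Ω => (s, t)) measurable_prodMk_left)
      (hU.bm_two.comp (g := fun t : Ω => (s, t)) measurable_prodMk_left)
      (fun t => hNle s t) (fun y => hU.bdd _) h
    calc _ ≤ _ := le_abs_self _
      _ ≤ 4 * B ^ 2 * B * δ := h2
      _ = 4 * B ^ 3 * δ := by ring
  calc ∫ s, ∫ t, (N s t) ^ 2 ∂μ ∂μ ≤ ∫ _s : Ω, (4 * B ^ 3 * δ) ∂μ :=
        integral_mono (((hNbm.pow 2).integral_right μ).integrable _) (integrable_const _) h1
    _ = 4 * B ^ 3 * δ := by simp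

lemma op_of_ck (hU : Good U B) (hσ : 0 ≤ σ) (hc : ck μ U 2 ≤ σ ^ 4) (h : Ω → ℝ) (hh : BM h) :
    ∫ s, (∫ t, two U s t * h t ∂μ) ^ 2 ∂μ ≤ σ ^ 2 * ∫ t, h t ^ 2 ∂μ := by
  have hone : BM (fun _ : Ω => (1:ℝ)) := BM.const 1
  set N : Ω → Ω → ℝ := kern μ (two U) [fun _ => (1:ℝ)] with hN
  have hNbm : BM (Function.uncurry N) := bm_kern0 μ hU.bm_two _ (by
    intro F hF
    rw [List.mem_singleton] at hF
    subst hF
    exact hone)
  have hid : ∫ s, (∫ t, two U s t * h t ∂μ) ^ 2 ∂μ =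
      ∫ q : Ω × Ω, (h q.1 * h q.2) * N q.1 q.2 ∂(μ.prod μ) := by
    have e1 : ∀ s, (∫ t, two U s t * h t ∂μ) ^ 2 =
        ∫ q : Ω × Ω, (two U s q.1 * h q.1) * (two U s q.2 * h q.2) ∂(μ.prod μ) := by
      intro s
      rw [integral_prod_mul (fun y => two U s y * h y) (fun y => two U s y * h y), sq]
    have e2 : ∀ q : Ω × Ω, (h q.1 * h q.2) * N q.1 q.2 =
        ∫ s, (two U s q.1 * h q.1) * (two U s q.2 * h q.2) ∂μ := by
      intro q
      show (h q.1 * h q.2) * (∫ y, two U q.1 y * (1:ℝ) * two U y q.2 ∂μ) = _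
      rw [← integral_const_mul]
      congr 1
      ext y
      rw [two_symm U q.1 y]; ring
    simp only [e1, e2]
    apply integral_integral_swap
    have k1 : BM (fun r : Ω × (Ω × Ω) => two U r.1 r.2.1) :=
      hU.bm_two.comp (g := fun r : Ω × (Ω × Ω) => (r.1, r.2.1)) (by fun_prop)
    have k2 : BM (fun r : Ω × (Ω × Ω) => two U r.1 r.2.2) :=
      hU.bm_two.comp (g := fun r : Ω × (Ω × Ω) => (r.1, r.2.2)) (by fun_prop)
    have k3 : BM (fun r : Ω × (Ω × Ω) => h r.2.1) :=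
      hh.comp (g := fun r : Ω × (Ω × Ω) => r.2.1) (by fun_prop)
    have k4 : BM (fun r : Ω × (Ω × Ω) => h r.2.2) :=
      hh.comp (g := fun r : Ω × (Ω × Ω) => r.2.2) (by fun_prop)
    exact ((k1.mul k3).mul (k2.mul k4)).integrable _
  have hH0 : 0 ≤ ∫ t, h t ^ 2 ∂μ := integral_nonneg fun _ => sq_nonneg _
  have hf : BM (fun q : Ω × Ω => h q.1 * h q.2) :=
    (hh.comp (g := fun q : Ω × Ω => q.1) measurable_fst).mul
      (hh.comp (g := fun q : Ω × Ω => q.2) measurable_snd)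
  have hcs := cauchy_schwarz_prod μ hf (g := fun q : Ω × Ω => N q.1 q.2) hNbm
  rw [← hid] at hcs
  have e3 : ∫ q : Ω × Ω, (h q.1 * h q.2) ^ 2 ∂(μ.prod μ) = (∫ t, h t ^ 2 ∂μ) ^ 2 := by
    have : ∀ q : Ω × Ω, (h q.1 * h q.2) ^ 2 = h q.1 ^ 2 * h q.2 ^ 2 := fun q => mul_pow _ _ _
    simp only [this]
    rw [integral_prod_mul (fun y => h y ^ 2) (fun y => h y ^ 2), sq]
  have e4 : ∫ q : Ω × Ω, (N q.1 q.2) ^ 2 ∂(μ.prod μ) = ck μ U 2 := by
    exact integral_prod (fun q : Ω × Ω => (N q.1 q.2) ^ 2) ((hNbm.pow 2).integrable _)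
  rw [e3, e4] at hcs
  have h0 : 0 ≤ ∫ s, (∫ t, two U s t * h t ∂μ) ^ 2 ∂μ := integral_nonneg fun _ => sq_nonneg _
  have h5 : (∫ s, (∫ t, two U s t * h t ∂μ) ^ 2 ∂μ) ^ 2 ≤ (σ ^ 2 * ∫ t, h t ^ 2 ∂μ) ^ 2 := by
    refine hcs.trans ?_
    calc (∫ t, h t ^ 2 ∂μ) ^ 2 * ck μ U 2 ≤ (∫ t, h t ^ 2 ∂μ) ^ 2 * σ ^ 4 :=
          mul_le_mul_of_nonneg_left hc (sq_nonneg _)
      _ = (σ ^ 2 * ∫ t, h t ^ 2 ∂μ) ^ 2 := by ring
  exact (pow_le_pow_iff_left₀ h0 (by positivity) two_ne_zero).mp h5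

end Vale.Agent.P050.Loc
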