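import Vale.Agent.P050.Cut.Param
import Vale.Agent.P050.H753.Comb

set_option linter.all false

/-!
The local inequality in the cut norm.
-/

open MeasureTheory Finset

namespace Vale.Agent.P050.Loc

open Vale.Agent.P050 Vale.Agent.P050.H753

section kernel

variable {V : Type*} [Fintype V] [DecidableEq V] {Ω : Type*} [MeasurableSpace Ω]
variable (μ : Measure Ω) [IsProbabilityMeasure μ]

lemma edgeFinset_empty (H : SimpleGraph V) [DecidableRel H.Adj] (h : ∀ v, H.degree v ≤ 0) :
    H.edgeFinset = ∅ := by
  rw [eq_empty_iff_forall_notMem]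
  intro e he
  induction e with
  | h u v =>
    rw [SimpleGraph.mem_edgeFinset, SimpleGraph.mem_edgeSet] at he
    have h1 := h u
    have h2 : 0 < H.degree u := (H.degree_pos_iff_exists_adj u).mpr ⟨v, he⟩
    omega

/-- everywhere version -/
theorem cut_local_aux (H : SimpleGraph V) [DecidableRel H.Adj] (hH : H.IsBipartite)
    (W : Ω → Ω → ℝ) (hsymm : ∀ s t, W s t = W t s) (hmeas : Measurable (Function.uncurry W))
    {p C : ℝ} (hp : 0 < p) (hC : 1 ≤ C) (hint : ∫ s, ∫ t, W s t ∂μ ∂μ = p)
    (h0 : ∀ s t, 0 ≤ W s t) (hWC : ∀ s t, W s t ≤ C * p)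
    {Δ : ℕ} (hΔ : 1 ≤ Δ) (hdeg : ∀ v, H.degree v ≤ Δ)
    (hcut : ∀ S T, MeasurableSet S → MeasurableSet T →
      |∫ s in S, ∫ t in T, (W s t - p) ∂μ ∂μ| ≤ (1 / (24 * Δ * C)) ^ (51 * Δ ^ 3) * p) :
    p ^ H.edgeFinset.card ≤ ∫ x, ∏ e ∈ H.edgeFinset, ev W hsymm x e ∂(piM V μ) := by
  obtain ⟨K⟩ := hH
  set c : V → Bool := fun v => decide (K v = 0) with hc
  have hcol : ∀ u v, s(u, v) ∈ H.edgeFinset → c u ≠ c v := by
    intro u v h
    rw [SimpleGraph.mem_edgeFinset, SimpleGraph.mem_edgeSet] at h
    have h1 := K.valid h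
    simp only [hc]
    intro h2
    apply h1
    have h3 := K u |>.is_lt
    have h4 := K v |>.is_lt
    rw [decide_eq_decide] at h2
    ext
    by_cases h5 : K u = 0
    · rw [h5, h2.mp h5]
    · have h6 : K v ≠ 0 := fun h => h5 (h2.mpr h)
      have h7 : (K u : ℕ) ≠ 0 := fun h => h5 (Fin.ext h)
      have h8 : (K v : ℕ) ≠ 0 := fun h => h6 (Fin.ext h)
      omega
  have hC0 : 0 < C := by linarith only [hC]
  set U : Sym2 Ω → ℝ := fun e =>
    Sym2.lift ⟨fun s t => W s t / p - 1, fun s t => by
      show W s t / p - 1 = W t s / p - 1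
      rw [hsymm s t]⟩ e with hU
  have htwo : ∀ s t, two U s t = W s t / p - 1 := fun s t => by
    unfold two; simp only [hU, Sym2.lift_mk]
  have hlo : ∀ e, -1 ≤ U e := by
    intro e
    induction e with
    | h s t =>
      show -1 ≤ two U s t
      rw [htwo]
      have := div_nonneg (h0 s t) hp.le
      linarith only [this]
  have hG : Good U C := by
    refine ⟨?_, hC0, ?_⟩
    · have : Function.uncurry (two U) = fun z => Function.uncurry W z / p - 1 := by
        ext z; simp only [Function.uncurry, htwo]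
      rw [this]
      exact (hmeas.div_const p).sub_const 1
    · intro e
      have h1 := hlo e
      induction e with
      | h s t =>
        show |two U s t| ≤ C
        rw [abs_le]
        refine ⟨?_, ?_⟩
        · have : -1 ≤ two U s t := h1
          linarith only [this, hC]
        · rw [htwo]
          have h2 : W s t / p ≤ C := by rw [div_le_iff₀ hp]; exact hWC s t
          linarith only [h2]
  have hbmW : BM (Function.uncurry W) := by
    refine ⟨hmeas, C * p, ?_⟩
    intro z
    have : Function.uncurry W z = W z.1 z.2 := rfl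
    rw [this, abs_of_nonneg (h0 _ _)]
    exact hWC _ _
  have hzero : ∫ s, degf μ U s ∂μ = 0 := by
    have h1 : ∀ s, degf μ U s = (∫ t, W s t ∂μ) / p - 1 := by
      intro s
      unfold degf
      simp only [htwo]
      have h2 : Integrable (fun t => W s t) μ :=
        (hbmW.comp (g := fun t : Ω => (s, t)) measurable_prodMk_left).integrable _
      rw [integral_sub (h2.div_const p) (integrable_const _), integral_div]
      simp
    simp only [h1]
    have h3 : Integrable (fun s => ∫ t, W s t ∂μ) μ := (hbmW.integral_right μ).integrable _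
    rw [integral_sub (h3.div_const p) (integrable_const _), integral_div, hint]
    simp [hp.ne']
  have hloop : ∀ e ∈ H.edgeFinset, ¬ e.IsDiag := by
    intro e he
    rw [SimpleGraph.mem_edgeFinset] at he
    exact H.not_isDiag_of_mem_edgeSet he
  -- smallness of the kernel
  have hcut' : ∀ S T, MeasurableSet S → MeasurableSet T →
      |∫ s in S, ∫ t in T, two U s t ∂μ ∂μ| ≤ (1 / (24 * Δ * C)) ^ (51 * Δ ^ 3) := by
    intro S T hS hT
    have h1 := hcut S T hS hT
    have h2 : ∀ s t, two U s t = (W s t - p) / p := by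
      intro s t; rw [htwo]; field_simp
    simp only [h2, integral_div]
    rw [abs_div, abs_of_pos hp, div_le_iff₀ hp]
    exact h1
  have hck := ck_le_of_cut μ hG hcut'
  have hΔ' : (1:ℝ) ≤ Δ := by exact_mod_cast hΔ
  have hσ0 : 0 < ((1:ℝ) / (24 * Δ * C)) ^ (12 * Δ ^ 3) := by
    have : (0:ℝ) < Δ := by linarith only [hΔ']
    positivity
  have hFine : Fine μ U C ((1 / (24 * Δ * C)) ^ (12 * Δ ^ 3)) :=
    ⟨hG, hC, hlo, hσ0, fun h hh => op_of_ck μ hG hσ0.le (hck.trans (ck_small hΔ hC)) h hh⟩
  have key := one_le_Z μ (num_of hΔ hC) hFine hzero (E := H.edgeFinset) hloop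
    (fun v => by rw [dg_edgeFinset]; exact hdeg v) c hcol
  rw [Zs_eq μ hG] at key
  have h5 : ∀ x : V → Ω, ∏ e ∈ H.edgeFinset, ev W hsymm x e =
      p ^ H.edgeFinset.card * ∏ e ∈ H.edgeFinset, (1 + U (e.map x)) := by
    intro x
    rw [← prod_const, ← prod_mul_distrib]
    refine prod_congr rfl fun e _ => ?_
    induction e with
    | h u v =>
      simp only [ev, hU, Sym2.map_mk, Sym2.lift_mk]
      field_simp
      ring
  simp only [h5]
  rw [integral_const_mul]
  exact le_mul_of_one_le_right (pow_nonneg hp.le _) key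

/-- almost everywhere version -/
theorem cut_local (H : SimpleGraph V) [DecidableRel H.Adj] (hH : H.IsBipartite)
    (W : Ω → Ω → ℝ) (hsymm : ∀ s t, W s t = W t s) (hmeas : Measurable (Function.uncurry W))
    {p C : ℝ} (hp : 0 < p) (hint : ∫ s, ∫ t, W s t ∂μ ∂μ = p)
    (hbd : ∀ᵐ z ∂(μ.prod μ), 0 ≤ W z.1 z.2 ∧ W z.1 z.2 ≤ C * p)
    {Δ : ℕ} (hdeg : ∀ v, H.degree v ≤ Δ)
    (hcut : ∀ S T, MeasurableSet S → MeasurableSet T →
      |∫ s in S, ∫ t in T, (W s t - p) ∂μ ∂μ| ≤ (1 / (24 * Δ * C)) ^ (51 * Δ ^ 3) * p) :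
    p ^ H.edgeFinset.card ≤ ∫ x, ∏ e ∈ H.edgeFinset, ev W hsymm x e ∂(piM V μ) := by
  classical
  rcases Nat.eq_zero_or_pos Δ with h0 | hΔ
  · rw [edgeFinset_empty H (fun v => by rw [← h0]; exact hdeg v)]
    simp
  have hN : MeasurableSet {z : Ω × Ω | 0 ≤ Function.uncurry W z ∧ Function.uncurry W z ≤ C * p} :=
    (measurableSet_le measurable_const hmeas).inter (measurableSet_le hmeas measurable_const)
  -- the constant is at least one
  have hC : 1 ≤ C := by
    by_contra hlt
    have hlt' : C * p < p := by nlinarith only [hp, not_le.mp hlt]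
    have hCp : 0 ≤ C * p := by
      obtain ⟨z, hz⟩ := hbd.exists
      exact hz.1.trans hz.2
    have hae : ∀ᵐ s ∂μ, ∀ᵐ t ∂μ, 0 ≤ W s t ∧ W s t ≤ C * p := Measure.ae_ae_of_ae_prod hbd
    have h1 : ∀ᵐ s ∂μ, ∫ t, W s t ∂μ ≤ C * p := by
      filter_upwards [hae] with s hs
      have h2 : ∫ t, W s t ∂μ ≤ ∫ _t : Ω, C * p ∂μ := by
        apply integral_mono_of_nonneg
        · filter_upwards [hs] with t ht using ht.1
        · exact integrable_const _
        · filter_upwards [hs] with t ht using ht.2
      simpa using h2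
    have h2 : ∫ s, ∫ t, W s t ∂μ ∂μ ≤ ∫ _s : Ω, C * p ∂μ := by
      apply integral_mono_of_nonneg
      · filter_upwards [hae] with s hs
        apply integral_nonneg_of_ae
        filter_upwards [hs] with t ht using ht.1
      · exact integrable_const _
      · exact h1
    rw [hint] at h2
    simp only [integral_const, probReal_univ, smul_eq_mul, one_mul] at h2
    linarith only [h2, hlt']
  set W' : Ω → Ω → ℝ := fun s t => if 0 ≤ W s t ∧ W s t ≤ C * p then W s t else p with hW'
  have hsymm' : ∀ s t, W' s t = W' t s := by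
    intro s t; simp only [hW', hsymm s t]
  have hmeas' : Measurable (Function.uncurry W') := by
    have : Function.uncurry W' = fun z =>
        if 0 ≤ Function.uncurry W z ∧ Function.uncurry W z ≤ C * p then
        Function.uncurry W z else p := by
      ext z
      rfl
    rw [this]
    exact Measurable.ite hN hmeas measurable_const
  set N : Set (Ω × Ω) :=
    {z : Ω × Ω | 0 ≤ Function.uncurry W z ∧ Function.uncurry W z ≤ C * p}ᶜ with hNdef
  have hNm : MeasurableSet N := hN.compl
  have hN0 : (μ.prod μ) N = 0 := by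
    rw [ae_iff] at hbd
    exact hbd
  have hWW : ∀ s t, (s, t) ∉ N → W' s t = W s t := by
    intro s t h
    have h' : 0 ≤ W s t ∧ W s t ≤ C * p := by
      by_contra hne
      exact h hne
    simp only [hW', if_pos h']
  have hae : ∀ᵐ s ∂μ, ∀ᵐ t ∂μ, (s, t) ∉ N := by
    have : ∀ᵐ z ∂(μ.prod μ), z ∉ N := by
      rw [ae_iff]; simpa only [Decidable.not_not, Set.ofPred_mem_eq] using hN0
    exact Measure.ae_ae_of_ae_prod this
  have hint' : ∫ s, ∫ t, W' s t ∂μ ∂μ = p := by
    rw [← hint]
    apply integral_congr_ae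
    filter_upwards [hae] with s hs
    apply integral_congr_ae
    filter_upwards [hs] with t ht
    exact hWW s t ht
  have h1p : p ≤ C * p := le_mul_of_one_le_left hp.le hC
  have key := cut_local_aux μ H hH W' hsymm' hmeas' hp hC hint' (by
      intro s t
      simp only [hW']
      split_ifs with h
      · exact h.1
      · exact hp.le) (by
      intro s t
      simp only [hW']
      split_ifs with h
      · exact h.2
      · exact h1p) hΔ hdeg (by
      intro S T hS hT
      have e1 : ∫ s in S, ∫ t in T, (W' s t - p) ∂μ ∂μ =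
          ∫ s in S, ∫ t in T, (W s t - p) ∂μ ∂μ := by
        apply integral_congr_ae
        filter_upwards [ae_restrict_of_ae hae] with s hs
        apply integral_congr_ae
        filter_upwards [ae_restrict_of_ae hs] with t ht
        show W' s t - p = W s t - p
        rw [hWW s t ht]
      rw [e1]
      exact hcut S T hS hT)
  refine key.trans (le_of_eq ?_)
  apply integral_congr_ae
  have h2 : ∀ᵐ x ∂(piM V μ), ∀ e ∈ H.edgeFinset, ev W' hsymm' x e = ev W hsymm x e := by
    rw [Finset.eventually_all]
    intro e he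
    induction e with
    | h u v =>
      have huv : u ≠ v := by
        rw [SimpleGraph.mem_edgeFinset, SimpleGraph.mem_edgeSet] at he
        exact he.ne
      filter_upwards [ae_eval2 μ huv hNm hN0] with x hx
      exact hWW _ _ hx
  filter_upwards [h2] with x hx
  exact prod_congr rfl hx

end kernel

section graph

/-- homomorphisms as a sum of products -/
lemma sum_hom {V X : Type*} [Fintype V] [DecidableEq V] [Fintype X] (H : SimpleGraph V)
    [DecidableRel H.Adj] (G : SimpleGraph X) [DecidableRel G.Adj] (W : X → X → ℝ)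
    (hW : ∀ s t, W s t = if G.Adj s t then 1 else 0) (hsymm : ∀ s t, W s t = W t s) :
    ∑ x : V → X, ∏ e ∈ H.edgeFinset, ev W hsymm x e = (Nat.card (H →g G) : ℝ) := by
  classical
  have h1 : ∀ x : V → X, ∏ e ∈ H.edgeFinset, ev W hsymm x e =
      if (∀ u v, H.Adj u v → G.Adj (x u) (x v)) then (1:ℝ) else 0 := by
    intro x
    have h2 : ∀ e ∈ H.edgeFinset, ev W hsymm x e = if e.map x ∈ G.edgeSet then (1:ℝ) else 0 := by
      intro e _
      induction e with
      | h u v => simp only [ev, hW, Sym2.lift_mk, Sym2.map_mk, SimpleGraph.mem_edgeSet]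
    rw [prod_congr rfl h2, prod_ite_zero]
    simp only [prod_const_one]
    congr 1
    apply propext
    constructor
    · intro h u v huv
      have := h s(u, v) (by rw [SimpleGraph.mem_edgeFinset]; exact huv)
      simpa using this
    · intro h e he
      induction e with
      | h u v =>
        rw [SimpleGraph.mem_edgeFinset, SimpleGraph.mem_edgeSet] at he
        simpa using h u v he
  simp only [h1]
  rw [Finset.sum_boole]
  congr 1
  rw [Nat.card_eq_fintype_card, ← Fintype.card_subtype]
  exact Fintype.card_congr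
    ⟨fun x => ⟨x.1, fun {u v} h => x.2 u v h⟩, fun f => ⟨f, fun u v h => f.map_rel h⟩,
      fun x => rfl, fun f => rfl⟩

/-- finite graphs -/
theorem cut_local_graph {V X : Type} [Finite V] [Finite X] [Nonempty X] (H : SimpleGraph V)
    (G : SimpleGraph X) (hH : H.IsBipartite) (Δ : ℕ) (hdeg : ∀ v, (H.neighborSet v).ncard ≤ Δ)
    (hcut : ∀ S T : Set X, |({q : X × X | q.1 ∈ S ∧ q.2 ∈ T ∧ G.Adj q.1 q.2}.ncard : ℝ) -
      edgeDensity G * S.ncard * T.ncard| ≤
        (edgeDensity G / (24 * Δ)) ^ (51 * Δ ^ 3) * (edgeDensity G * (Nat.card X : ℝ) ^ 2)) :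
    edgeDensity G ^ Nat.card H.edgeSet ≤ homDensity H G := by
  classical
  have := Fintype.ofFinite V
  have := Fintype.ofFinite X
  let _ : MeasurableSpace X := ⊤
  have _ : MeasurableSingletonClass X := ⟨fun _ => trivial⟩
  set n : ℝ := (Fintype.card X : ℝ) with hn
  have hn0 : 0 < n := by
    rw [hn]; exact_mod_cast Fintype.card_pos
  set A : X → X → ℝ := fun s t => if G.Adj s t then 1 else 0 with hA
  have hsymm : ∀ s t, A s t = A t s := by
    intro s t; simp only [hA, G.adj_comm]
  have hA01 : ∀ s t, 0 ≤ A s t ∧ A s t ≤ 1 := by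
    intro s t; simp only [hA]; split_ifs <;> norm_num
  have hmeas : Measurable (Function.uncurry A) := measurable_of_finite _
  set p : ℝ := edgeDensity G with hp
  have hsumA : ∑ s, ∑ t, A s t = 2 * G.edgeFinset.card := by
    have h1 : ∀ s, ∑ t, A s t = (G.degree s : ℝ) := by
      intro s
      simp only [hA]
      rw [sum_boole, ← SimpleGraph.card_neighborFinset_eq_degree]
      congr 2
      ext t
      simp only [mem_filter, mem_univ, true_and, SimpleGraph.mem_neighborFinset]
    simp only [h1]
    have := G.sum_degrees_eq_twice_card_edges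
    exact_mod_cast this
  have hpe : p = 2 * G.edgeFinset.card / n ^ 2 := by
    rw [hp]
    unfold edgeDensity
    rw [Nat.card_eq_fintype_card (α := X), Nat.card_eq_fintype_card, SimpleGraph.edgeFinset_card]
  have hm : Nat.card H.edgeSet = H.edgeFinset.card := by
    rw [Nat.card_eq_fintype_card, SimpleGraph.edgeFinset_card]
  have hhom : homDensity H G = ∫ x, ∏ e ∈ H.edgeFinset, ev A hsymm x e ∂(piM V (unif X)) := by
    rw [integral_pi_unif, sum_hom H G A (fun s t => rfl) hsymm]
    unfold homDensity
    rw [Nat.card_eq_fintype_card (α := X), Nat.card_eq_fintype_card (α := V)]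
  have hp0 : 0 ≤ p := by rw [hpe]; positivity
  rcases hp0.eq_or_lt with h0 | hpos
  · rw [hm, ← h0]
    rcases Nat.eq_zero_or_pos H.edgeFinset.card with he | he
    · rw [hhom, card_eq_zero.mp he]; simp
    · rw [zero_pow he.ne']
      unfold homDensity; positivity
  have hint : ∫ s, ∫ t, A s t ∂(unif X) ∂(unif X) = p := by
    simp only [integral_unif]
    rw [← sum_div, hsumA, hpe, ← hn, div_div, sq]
  rw [hm, hhom]
  apply cut_local (unif X) H hH A hsymm hmeas hpos (C := 1 / p) hint
    (Filter.Eventually.of_forall fun z => by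
      rw [one_div_mul_cancel hpos.ne']; exact hA01 _ _)
    (Δ := Δ)
  · intro v
    have := hdeg v
    rw [Set.ncard_eq_toFinset_card'] at this
    rwa [← SimpleGraph.card_neighborFinset_eq_degree]
  · intro S T _ _
    have h1 := hcut S T
    have hr : (1 / (24 * (Δ:ℝ) * (1 / p))) = p / (24 * Δ) := by
      rw [mul_one_div, one_div_div]
    have hX : (Nat.card X : ℝ) = n := by rw [Nat.card_eq_fintype_card]
    rw [hr]
    rw [hX] at h1
    have hI : ∀ (S : Set X) (f : X → ℝ), ∫ s in S, f s ∂(unif X) =
        (∑ s, if s ∈ S then f s else 0) / n := by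
      intro S f
      rw [← integral_indicator (MeasurableSet.of_discrete), integral_unif]
      simp only [Set.indicator_apply, hn]
    have e1 : ∫ s in S, ∫ t in T, (A s t - p) ∂(unif X) ∂(unif X) =
        (({q : X × X | q.1 ∈ S ∧ q.2 ∈ T ∧ G.Adj q.1 q.2}.ncard : ℝ) -
          p * S.ncard * T.ncard) / n ^ 2 := by
      rw [hI]
      simp only [hI]
      have hS : (∑ s, if s ∈ S then (1:ℝ) else 0) = S.ncard := by
        rw [sum_boole, Set.ncard_eq_toFinset_card']
        congr 2
        ext x; simp
      have hT : (∑ s, if s ∈ T then (1:ℝ) else 0) = T.ncard := by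
        rw [sum_boole, Set.ncard_eq_toFinset_card']
        congr 2
        ext x; simp
      have hQ : ({q : X × X | q.1 ∈ S ∧ q.2 ∈ T ∧ G.Adj q.1 q.2}.ncard : ℝ) =
          ∑ s, ∑ t, if s ∈ S ∧ t ∈ T ∧ G.Adj s t then (1:ℝ) else 0 := by
        rw [← Fintype.sum_prod_type' (f := fun s t => if s ∈ S ∧ t ∈ T ∧ G.Adj s t then (1:ℝ) else 0)]
        rw [sum_boole, Set.ncard_eq_toFinset_card']
        congr 2
        ext x; simp
      have h3 : ∀ s, (if s ∈ S then (∑ t, if t ∈ T then (A s t - p) else 0) / n else 0) =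
          ((∑ t, if s ∈ S ∧ t ∈ T ∧ G.Adj s t then (1:ℝ) else 0) -
            p * (if s ∈ S then (1:ℝ) else 0) * (∑ t, if t ∈ T then (1:ℝ) else 0)) / n := by
        intro s
        by_cases hs : s ∈ S
        · simp only [hs, if_true, true_and, mul_one]
          congr 1
          rw [mul_sum, ← sum_sub_distrib]
          refine sum_congr rfl fun t _ => ?_
          by_cases ht : t ∈ T
          · simp only [ht, if_true, true_and, hA, mul_one]
          · simp only [ht, if_false, false_and]; ring
        · simp only [hs, if_false, false_and, sum_const_zero]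
          ring
      simp only [h3]
      rw [← sum_div, sum_sub_distrib, ← sum_mul, ← mul_sum, hS, hT, hQ, div_div, ← sq]
    rw [e1, abs_div, abs_of_pos (by positivity : 0 < n ^ 2), div_le_iff₀ (by positivity)]
    calc _ ≤ _ := h1
      _ = _ := by ring

end graph

end Vale.Agent.P050.Loc
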