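import Vale.Agent.P050.Cut.Struct

set_option linter.all false

/-!
The contribution of the complete bipartite edge sets.
-/

open MeasureTheory Finset

namespace Vale.Agent.P050.Loc

open Vale.Agent.P050

variable {V : Type*} [Fintype V] [DecidableEq V]

lemma nb_kst' {S T : Finset V} (hd : Disjoint S T) {t : V} (ht : t ∈ T) : nb (kst S T) t = S := by
  ext s
  rw [mem_nb, mem_kst]
  constructor
  · rintro ⟨s', hs', t', ht', h⟩
    rw [Sym2.eq_iff] at h
    rcases h with ⟨h, _⟩ | ⟨_, h⟩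
    · exfalso
      exact disjoint_left.mp hd hs' (h ▸ ht)
    · rw [h]; exact hs'
  · intro hs
    exact ⟨s, hs, t, ht, Sym2.eq_swap⟩

variable {Ω : Type*} [MeasurableSpace Ω]
variable {U : Sym2 Ω → ℝ} {B σ : ℝ}
variable (μ : Measure Ω) [IsProbabilityMeasure μ]

/-- small gains on complete bipartite sets -/
lemma f13_le (hU : Fine μ U B σ) {E : Finset (Sym2 V)} {c : V → Bool}
    (hloop : ∀ e ∈ E, ¬ e.IsDiag) {S T : Finset V} (hS : S ∈ SS E c) (hT : T ∈ TT E S) :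
    f1 μ U (kst S T) + f3 μ U (kst S T) ≤ 6 * qS μ U S := by
  have hd := disj_of_mem hloop hT
  have hT2 := (mem_TT.mp hT).2
  have hSpos := SS_pos hS
  have hq := qS_nonneg (U := U) μ S
  have hA := one_le_Ac
  have hcard := card_kst hd
  have h1 : f1 μ U (kst S T) ≤ 2 * qS μ U S := by
    unfold f1
    split_ifs with h2
    · have h3 : S.card = 1 := by
        rw [hcard] at h2
        by_contra hne
        have h4 : 2 ≤ S.card := by omega
        have h5 : 2 * 2 ≤ S.card * T.card := Nat.mul_le_mul h4 hT2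
        omega
      obtain ⟨v, rfl⟩ := card_eq_one.mp h3
      rw [qS_singleton μ hU.good]
      apply mul_le_mul_of_nonneg_right _ (dd_nonneg μ)
      rw [div_le_iff₀ (by positivity)]
      have := one_le_pow₀ hA (n := 3)
      linarith only [this]
    · linarith only [hq]
  have h2 : f3 μ U (kst S T) ≤ 4 * qS μ U S := by
    unfold f3
    split_ifs with h3
    · obtain ⟨k, a, b, p, q, hpres, ht⟩ := h3
      have hk := hpres.hk
      have hck : (kst S T).card = 2 * k := by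
        conv_lhs => rw [ht]
        exact hpres.card_cycEdges
      have hsub : cv a b p q ⊆ supp (kst S T) := by
        intro v hv
        have h4 := hpres.two_le_dg (cv_mem hv)
        by_contra h5
        rw [dg_eq_zero h5] at h4
        omega
      have hsub' : supp (kst S T) ⊆ cv a b p q := by
        conv_lhs => rw [ht]
        exact supp_cyc_sub hpres
      have h4 := card_le_card hsub
      rw [card_cv hpres, supp_kst hSpos (by omega), card_union_of_disjoint hd] at h4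
      obtain ⟨t0, ht0⟩ := card_pos.mp (show 0 < T.card by omega)
      have h5 : 2 ≤ S.card := by
        have h6 : t0 ∈ cv a b p q := hsub' (by
          rw [supp_kst hSpos (by omega), mem_union]; exact Or.inr ht0)
        have h7 := hpres.two_le_dg (cv_mem h6)
        rwa [← card_nb, nb_kst' hd ht0] at h7
      rw [hcard] at hck
      have h8 : S.card = 2 ∧ T.card = 2 := by
        have h9 : S.card * T.card ≤ S.card + T.card := by omega
        constructor
        · by_contra hne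
          have h10 : 3 ≤ S.card := by omega
          nlinarith only [h9, h10, hT2]
        · by_contra hne
          have h10 : 3 ≤ T.card := by omega
          nlinarith only [h9, h10, h5]
      have hk2 : k = 2 := by
        rw [h8.1, h8.2] at hck
        omega
      obtain ⟨x, y, hxy, hSeq⟩ := card_eq_two.mp h8.1
      have hq2 : qS μ U S = ck μ U 2 := by rw [hSeq]; exact qS_pair μ hU.good hxy
      rw [hcard, h8.1, h8.2, hq2]
      have hck0 := ck_nonneg (U := U) μ 2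
      have h11 : (1:ℝ) ≤ Ac ^ (2 * 2) := one_le_pow₀ hA
      show ((2 * 2 : ℕ) : ℝ) / Ac ^ (2 * 2) * ck μ U (2 * 2 / 2) ≤ 4 * ck μ U 2
      norm_num
      apply mul_le_mul_of_nonneg_right _ hck0
      norm_num at h11
      rw [div_le_iff₀ (by linarith only [h11])]
      linarith only [h11]
    · linarith only [hq]
  linarith only [h1, h2]

/-- the contribution of the sets with a given centre -/
lemma str_S (hU : Fine μ U B σ) {E : Finset (Sym2 V)} {c : V → Bool}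
    (hloop : ∀ e ∈ E, ¬ e.IsDiag) {Δ : ℕ} (hΔ : ∀ v, dg E v ≤ Δ)
    {ρ κ₁ : ℝ} (hρ0 : 0 ≤ ρ)
    (hZ : 0 < Zs μ U E)
    (hρ : ∀ T : Finset V, T.card ≤ 2 * Δ → |Zs μ U (avoid E T) - Zs μ U E| ≤ ρ * Zs μ U E)
    (hρ4 : ρ * (Δ * (1 + B ^ Δ) ^ Δ) ≤ 1 / 4)
    (hκ : (Δ:ℝ) ^ 2 * (((B ^ Δ) ^ Δ + 2) * 2 ^ Δ) * (σ ^ 2 * (B ^ Δ) ^ 2) ≤ κ₁)
    {S : Finset V} (hS : S ∈ SS E c) :
    Zs μ U E * (3 / 4 * qS μ U S - κ₁ * ∑ R ∈ (SS E c).filter (fun R => R ⊂ S), qS μ U R) ≤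
      ∑ T ∈ TT E S, ((kst S T).card : ℝ) *
        (w μ U (kst S T) * Zs μ U (avoid E (supp (kst S T)))) := by
  have hB1 := hU.one_le
  set L := B ^ Δ with hLdef
  have hL : 1 ≤ L := one_le_pow₀ hB1
  have hL0 : 0 ≤ L := by linarith only [hL]
  have hSpos := SS_pos hS
  have hSΔ := card_S_le hΔ hS
  have hcΔ := card_CN_le (E := E) hΔ hSpos
  have hc2 := (mem_SS.mp hS).1
  have hBL : B ^ S.card ≤ L := pow_le_pow_right₀ hB1 hSΔ
  have hq := qS_nonneg (U := U) μ S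
  set Z := Zs μ U E with hZdef
  -- first replace the ratios
  have h1 : ∀ T ∈ TT E S, (S.card : ℝ) * Z * ((T.card : ℝ) * w μ U (kst S T) -
      ρ * ((T.card : ℝ) * |w μ U (kst S T)|)) ≤ ((kst S T).card : ℝ) *
        (w μ U (kst S T) * Zs μ U (avoid E (supp (kst S T)))) := by
    intro T hT
    have hd := disj_of_mem hloop hT
    have hT2 := (mem_TT.mp hT).2
    have hTΔ : T.card ≤ Δ := (card_le_card (mem_TT.mp hT).1).trans hcΔ
    have h2 := hρ (supp (kst S T)) (by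
      rw [supp_kst hSpos (by omega), card_union_of_disjoint hd]
      omega)
    rw [card_kst hd]
    push_cast
    have h3 : w μ U (kst S T) * Z - |w μ U (kst S T)| * (ρ * Z) ≤
        w μ U (kst S T) * Zs μ U (avoid E (supp (kst S T))) := by
      have h4 : |w μ U (kst S T) * (Zs μ U (avoid E (supp (kst S T))) - Z)| ≤
          |w μ U (kst S T)| * (ρ * Z) := by
        rw [abs_mul]
        exact mul_le_mul_of_nonneg_left h2 (abs_nonneg _)
      have h5 := (abs_le.mp h4).1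
      linarith only [h5]
    have h6 : 0 ≤ (S.card : ℝ) * T.card := by positivity
    have h7 := mul_le_mul_of_nonneg_left h3 h6
    refine le_trans (le_of_eq ?_) h7
    ring
  refine le_trans ?_ (sum_le_sum h1)
  rw [← mul_sum, sum_sub_distrib, ← mul_sum]
  have h2 := str_lower μ hU hloop hSpos hc2 hL hBL
  have h3 := str_abs μ hU hloop hΔ hSpos hc2 hL hBL
  set W1 := ∑ T ∈ TT E S, (T.card : ℝ) * w μ U (kst S T) with hW1
  set W2 := ∑ T ∈ TT E S, (T.card : ℝ) * |w μ U (kst S T)| with hW2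
  set P := S.powerset.filter (fun R => R ≠ ∅ ∧ R ≠ S) with hP
  set Q := ∑ R ∈ (SS E c).filter (fun R => R ⊂ S), qS μ U R with hQ
  have hPQ : ∑ R ∈ P, qS μ U R ≤ Q := by
    rw [hQ]
    apply sum_le_sum_of_subset_of_nonneg
    · intro R hR
      rw [hP, mem_filter, mem_powerset] at hR
      obtain ⟨hRS, hRne, hRneS⟩ := hR
      have hss : R ⊂ S := (Finset.ssubset_iff_subset_ne).mpr ⟨hRS, hRneS⟩
      rw [mem_filter]
      refine ⟨?_, hss⟩
      rw [mem_SS]
      refine ⟨hc2.trans (card_le_card (CN_anti hRS)), ?_⟩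
      have hRpos : 0 < R.card := card_pos.mpr (nonempty_iff_ne_empty.mpr hRne)
      have hlt := card_lt_card hss
      have hcS : ∀ s ∈ S, c s = true := by
        rcases (mem_SS.mp hS).2 with h4 | h4
        · omega
        · exact h4.2
      by_cases h5 : R.card = 1
      · exact Or.inl h5
      · exact Or.inr ⟨by omega, fun s hs => hcS s (hRS hs)⟩
    · intro R _ _
      exact qS_nonneg μ R
  have hQ0 : 0 ≤ Q := sum_nonneg fun R _ => qS_nonneg μ R
  set cn : ℝ := ((CN E S).card : ℝ) with hcn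
  set sc : ℝ := (S.card : ℝ) with hsc
  have hcn2 : 2 ≤ cn := by rw [hcn]; exact_mod_cast hc2
  have hcnΔ : cn ≤ Δ := by rw [hcn]; exact_mod_cast hcΔ
  have hsc1 : 1 ≤ sc := by rw [hsc]; exact_mod_cast hSpos
  have hscΔ : sc ≤ Δ := by rw [hsc]; exact_mod_cast hSΔ
  have hΔ0 : (0:ℝ) ≤ Δ := Nat.cast_nonneg _
  -- bound of the negative part
  set K : ℝ := (L ^ ((CN E S).card - 1) + 2) * 2 ^ S.card with hK
  have hKle : K ≤ (L ^ Δ + 2) * 2 ^ Δ := by
    rw [hK]
    apply mul_le_mul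
    · have := pow_le_pow_right₀ hL (show (CN E S).card - 1 ≤ Δ by omega)
      linarith only [this]
    · exact pow_le_pow_right₀ (by norm_num) hSΔ
    · positivity
    · positivity
  have hK0 : 0 ≤ K := by rw [hK]; positivity
  have hneg : sc * (cn * (K * (σ ^ 2 * L ^ 2 * ∑ R ∈ P, qS μ U R))) ≤ κ₁ * Q := by
    have hPs : 0 ≤ ∑ R ∈ P, qS μ U R := sum_nonneg fun R _ => qS_nonneg μ R
    calc sc * (cn * (K * (σ ^ 2 * L ^ 2 * ∑ R ∈ P, qS μ U R)))
        = sc * cn * K * (σ ^ 2 * L ^ 2) * ∑ R ∈ P, qS μ U R := by ring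
      _ ≤ (Δ * Δ * ((L ^ Δ + 2) * 2 ^ Δ)) * (σ ^ 2 * L ^ 2) * Q := by
          apply mul_le_mul _ hPQ hPs (by positivity)
          apply mul_le_mul_of_nonneg_right _ (by positivity)
          apply mul_le_mul _ hKle hK0 (by positivity)
          exact mul_le_mul hscΔ hcnΔ (by linarith only [hcn2]) hΔ0
      _ = ((Δ:ℝ) ^ 2 * ((L ^ Δ + 2) * 2 ^ Δ) * (σ ^ 2 * L ^ 2)) * Q := by ring
      _ ≤ κ₁ * Q := mul_le_mul_of_nonneg_right hκ hQ0
  have hρW : ρ * W2 ≤ 1 / 4 * qS μ U S := by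
    calc ρ * W2 ≤ ρ * (Δ * (1 + L) ^ Δ * qS μ U S) := mul_le_mul_of_nonneg_left h3 hρ0
      _ = ρ * (Δ * (1 + L) ^ Δ) * qS μ U S := by ring
      _ ≤ 1 / 4 * qS μ U S := mul_le_mul_of_nonneg_right hρ4 hq
  have h4 : cn * (1 / 2 * qS μ U S - K * (σ ^ 2 * L ^ 2 * ∑ R ∈ P, qS μ U R)) - 
      1 / 4 * qS μ U S ≤ W1 - ρ * W2 := by linarith only [h2, hρW]
  have h5 : 3 / 4 * qS μ U S - κ₁ * Q ≤ sc * (W1 - ρ * W2) := by
    have h6 := mul_le_mul_of_nonneg_left h4 (by linarith only [hsc1] : 0 ≤ sc)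
    have h7 : 3 / 4 * qS μ U S ≤ sc * ((cn * (1 / 2) - 1 / 4) * qS μ U S) := by
      have h8 : 3 / 4 ≤ sc * (cn * (1 / 2) - 1 / 4) := by nlinarith only [hsc1, hcn2]
      have h9 := mul_le_mul_of_nonneg_right h8 hq
      linarith only [h9]
    nlinarith only [h6, h7, hneg]
  have h6 := mul_le_mul_of_nonneg_left h5 hZ.le
  refine h6.trans (le_of_eq ?_)
  ring

/-- the total contribution of the complete bipartite sets -/
lemma str_total (hU : Fine μ U B σ) {E : Finset (Sym2 V)} {c : V → Bool}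
    (hloop : ∀ e ∈ E, ¬ e.IsDiag) {Δ : ℕ} (hΔ : ∀ v, dg E v ≤ Δ)
    {ρ κ₁ : ℝ} (hρ0 : 0 ≤ ρ)
    (hZ : 0 < Zs μ U E)
    (hρ : ∀ T : Finset V, T.card ≤ 2 * Δ → |Zs μ U (avoid E T) - Zs μ U E| ≤ ρ * Zs μ U E)
    (hρ4 : ρ * (Δ * (1 + B ^ Δ) ^ Δ) ≤ 1 / 4)
    (hκ : (Δ:ℝ) ^ 2 * (((B ^ Δ) ^ Δ + 2) * 2 ^ Δ) * (σ ^ 2 * (B ^ Δ) ^ 2) ≤ κ₁)
    (hκ4 : κ₁ * (Δ * 2 ^ Δ) ≤ 1 / 4) :
    Zs μ U E * (1 / 2 * ∑ S ∈ SS E c, qS μ U S) ≤
      ∑ S ∈ SS E c, ∑ T ∈ TT E S, ((kst S T).card : ℝ) *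
        (w μ U (kst S T) * Zs μ U (avoid E (supp (kst S T)))) := by
  have hκ0 : 0 ≤ κ₁ := by
    refine le_trans ?_ hκ
    have hB1 := hU.one_le
    have : 0 ≤ B := by linarith only [hB1]
    positivity
  have h1 : ∑ S ∈ SS E c, Zs μ U E *
      (3 / 4 * qS μ U S - κ₁ * ∑ R ∈ (SS E c).filter (fun R => R ⊂ S), qS μ U R) ≤
      ∑ S ∈ SS E c, ∑ T ∈ TT E S, ((kst S T).card : ℝ) *
        (w μ U (kst S T) * Zs μ U (avoid E (supp (kst S T)))) :=
    sum_le_sum fun S hS => str_S μ hU hloop hΔ hρ0 hZ hρ hρ4 hκ hS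
  refine le_trans ?_ h1
  rw [← mul_sum]
  apply mul_le_mul_of_nonneg_left _ hZ.le
  rw [sum_sub_distrib, ← mul_sum, ← mul_sum]
  have h2 : ∑ S ∈ SS E c, ∑ R ∈ (SS E c).filter (fun R => R ⊂ S), qS μ U R ≤
      (Δ * 2 ^ Δ) * ∑ S ∈ SS E c, qS μ U S := by
    have h3 : ∑ S ∈ SS E c, ∑ R ∈ (SS E c).filter (fun R => R ⊂ S), qS μ U R =
        ∑ R ∈ SS E c, ∑ S ∈ (SS E c).filter (fun S => R ⊂ S), qS μ U R := by
      simp only [sum_filter]
      rw [sum_comm]
    rw [h3, mul_sum]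
    apply sum_le_sum
    intro R hR
    rw [sum_const, nsmul_eq_mul]
    apply mul_le_mul_of_nonneg_right _ (qS_nonneg μ R)
    have := card_super (E := E) (c := c) hΔ (SS_pos hR)
    exact_mod_cast this
  have h3 : 0 ≤ ∑ S ∈ SS E c, qS μ U S := sum_nonneg fun S _ => qS_nonneg μ S
  have h4 : κ₁ * ∑ S ∈ SS E c, ∑ R ∈ (SS E c).filter (fun R => R ⊂ S), qS μ U R ≤
      1 / 4 * ∑ S ∈ SS E c, qS μ U S := by
    calc κ₁ * ∑ S ∈ SS E c, ∑ R ∈ (SS E c).filter (fun R => R ⊂ S), qS μ U R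
        ≤ κ₁ * ((Δ * 2 ^ Δ) * ∑ S ∈ SS E c, qS μ U S) := mul_le_mul_of_nonneg_left h2 hκ0
      _ = κ₁ * (Δ * 2 ^ Δ) * ∑ S ∈ SS E c, qS μ U S := by ring
      _ ≤ 1 / 4 * ∑ S ∈ SS E c, qS μ U S := mul_le_mul_of_nonneg_right hκ4 h3
  linarith only [h3, h4]

end Vale.Agent.P050.Loc
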