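import Vale.Agent.P050.Cut.Match

set_option linter.all false

/-!
Ratios of partition functions.
-/

open MeasureTheory Finset

namespace Vale.Agent.P050.Loc

open Vale.Agent.P050

variable {V : Type*} [Fintype V] [DecidableEq V] {Ω : Type*} [MeasurableSpace Ω]

open scoped Classical in
/-- splitting off the component of a fixed vertex -/
theorem sum_vertex (E : Finset (Sym2 V)) (a : V) (f : Finset (Sym2 V) → ℝ) :
    ∑ F ∈ E.powerset.filter (fun F => a ∈ supp F), f F =
      ∑ γ ∈ E.powerset.filter (fun γ => a ∈ supp γ ∧ Conn γ),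
        ∑ F' ∈ (avoid E (supp γ)).powerset, f (γ ∪ F') := by
  rw [sum_sigma']
  refine sum_bij' (fun F _ => ⟨comp F a, F \ comp F a⟩) (fun p _ => p.1 ∪ p.2) ?_ ?_ ?_ ?_ ?_
  · intro F hF
    rw [mem_filter, mem_powerset] at hF
    simp only [mem_sigma, mem_filter, mem_powerset]
    obtain ⟨e₀, he₀, hae⟩ := mem_supp.mp hF.2
    have := conn_comp he₀ hae
    exact ⟨⟨(comp_subset F a).trans hF.1, mem_supp.mpr ⟨e₀, this.1, hae⟩, this.2⟩,
      sdiff_comp_subset hF.1 a⟩
  · rintro ⟨γ, F'⟩ hp
    simp only [mem_sigma, mem_filter, mem_powerset] at hp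
    rw [mem_filter, mem_powerset]
    exact ⟨union_subset hp.1.1 (hp.2.trans (filter_subset _ _)),
      supp_mono subset_union_left hp.1.2.1⟩
  · intro F hF
    exact union_sdiff_of_subset (comp_subset F a)
  · rintro ⟨γ, F'⟩ hp
    simp only [mem_sigma, mem_filter, mem_powerset] at hp
    obtain ⟨e₀, he₀, hae⟩ := mem_supp.mp hp.1.2.1
    have h1 : comp (γ ∪ F') a = γ := comp_union he₀ hae hp.1.2.2 hp.2
    simp only [h1]
    congr 1
    exact union_sdiff_cancel_left (disjoint_avoid hp.2)
  · intro F hF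
    simp only
    rw [union_sdiff_of_subset (comp_subset F a)]

variable {U : Sym2 Ω → ℝ} {ε : ℝ}
variable (μ : Measure Ω) [IsProbabilityMeasure μ]

open scoped Classical in
lemma Zs_vertex (hU : Good U ε) (E : Finset (Sym2 V)) (a : V) :
    Zs μ U E = Zs μ U (avoid E {a}) +
      ∑ γ ∈ E.powerset.filter (fun γ => a ∈ supp γ ∧ Conn γ),
        w μ U γ * Zs μ U (avoid E (supp γ)) := by
  have h1 : Zs μ U E = ∑ F ∈ E.powerset.filter (fun F => ¬ a ∈ supp F), w μ U F +
      ∑ F ∈ E.powerset.filter (fun F => a ∈ supp F), w μ U F := by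
    rw [add_comm]
    exact (sum_filter_add_sum_filter_not _ _ _).symm
  have h2 : E.powerset.filter (fun F => ¬ a ∈ supp F) = (avoid E {a}).powerset := by
    ext F
    rw [mem_filter, mem_powerset, mem_powerset, mem_supp]
    constructor
    · rintro ⟨h, h'⟩ e he
      rw [mem_avoid]
      refine ⟨h he, ?_⟩
      intro v hv hva
      rw [mem_singleton] at hva
      subst hva
      exact h' ⟨e, he, hv⟩
    · intro h
      refine ⟨h.trans (filter_subset _ _), ?_⟩
      rintro ⟨e, he, hae⟩
      exact (mem_avoid.mp (h he)).2 a hae (mem_singleton_self a)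
  rw [h1, h2, sum_vertex]
  congr 1
  exact sum_congr rfl fun γ _ => sum_union_avoid μ hU E γ

lemma avoid_avoid (E : Finset (Sym2 V)) (S T : Finset V) :
    avoid (avoid E S) T = avoid E (S ∪ T) := by
  ext e
  simp only [mem_avoid, mem_union, not_or]
  constructor
  · rintro ⟨⟨h1, h2⟩, h3⟩
    exact ⟨h1, fun v hv => ⟨h2 v hv, h3 v hv⟩⟩
  · rintro ⟨h1, h2⟩
    exact ⟨⟨h1, fun v hv => (h2 v hv).1⟩, fun v hv => (h2 v hv).2⟩

lemma Zs_empty : Zs μ U (∅ : Finset (Sym2 V)) = 1 := by
  unfold Zs
  simp [w_empty]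

open scoped Classical in
/-- ratios of partition functions, one vertex -/
theorem kp (hU : Good U ε) {E : Finset (Sym2 V)} {lam : ℝ} (h0 : 0 ≤ lam)
    (hkp : ∀ a, ∑ γ ∈ E.powerset.filter (fun γ => a ∈ supp γ ∧ Conn γ),
      |w μ U γ| * (1 + lam) ^ (supp γ).card ≤ lam) :
    ∀ n : ℕ, ∀ E' ⊆ E, E'.card ≤ n → 0 < Zs μ U E' ∧
      ∀ a, Zs μ U (avoid E' {a}) ≤ (1 + lam) * Zs μ U E' ∧
        Zs μ U E' ≤ (1 + lam) * Zs μ U (avoid E' {a}) := by
  have hl1 : 1 ≤ 1 + lam := by linarith only [h0]
  have hl0 : 0 < 1 + lam := by linarith only [h0]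
  intro n
  induction n with
  | zero =>
    intro E' _ hE'
    have : E' = ∅ := card_eq_zero.mp (by omega)
    subst this
    have h1 : ∀ a : V, avoid (∅ : Finset (Sym2 V)) {a} = ∅ := by
      intro a; simp [avoid]
    simp only [h1, Zs_empty]
    refine ⟨one_pos, fun a => ⟨by linarith only [h0], by linarith only [h0]⟩⟩
  | succ n ih =>
    intro E' hE'E hE'
    -- the estimate at a touched vertex
    have est : ∀ a ∈ supp E', 0 < Zs μ U (avoid E' {a}) ∧
        Zs μ U (avoid E' {a}) ≤ (1 + lam) * Zs μ U E' ∧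
        Zs μ U E' ≤ (1 + lam) * Zs μ U (avoid E' {a}) := by
      intro a ha
      set E'' := avoid E' {a} with hE''
      have hsub : E'' ⊆ E' := filter_subset _ _
      have hlt : E''.card ≤ n := by
        have : E''.card < E'.card := by
          apply card_lt_card
          rw [ssubset_iff_of_subset hsub]
          obtain ⟨e, he, hae⟩ := mem_supp.mp ha
          exact ⟨e, he, fun h => (mem_avoid.mp h).2 a hae (mem_singleton_self a)⟩
        omega
      have hpos : 0 < Zs μ U E'' := (ih E'' (hsub.trans hE'E) hlt).1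
      have hT : ∀ T : Finset V, Zs μ U (avoid E'' T) ≤ (1 + lam) ^ T.card * Zs μ U E'' ∧
          0 < Zs μ U (avoid E'' T) := by
        intro T
        induction T using Finset.induction_on with
        | empty =>
          have : avoid E'' ∅ = E'' := by
            ext e; simp [mem_avoid]
          rw [this]
          simp [hpos]
        | insert t T ht ihT =>
          have h1 : avoid E'' (insert t T) = avoid (avoid E'' T) {t} := by
            rw [avoid_avoid E'' T {t}, insert_eq, union_comm]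
          have hsub2 : avoid E'' T ⊆ E'' := filter_subset _ _
          have hc2 : (avoid E'' T).card ≤ n := (card_le_card hsub2).trans hlt
          have h2 := (ih (avoid E'' T) ((hsub2.trans hsub).trans hE'E) hc2).2 t
          have hsub3 : avoid (avoid E'' T) {t} ⊆ avoid E'' T := filter_subset _ _
          have h3 := (ih (avoid (avoid E'' T) {t})
            (((hsub3.trans hsub2).trans hsub).trans hE'E) ((card_le_card hsub3).trans hc2)).1
          rw [h1]
          refine ⟨h2.1.trans ?_, h3⟩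
          rw [card_insert_of_notMem ht, pow_succ]
          calc (1 + lam) * Zs μ U (avoid E'' T) ≤ (1 + lam) * ((1 + lam) ^ T.card * Zs μ U E'') :=
                mul_le_mul_of_nonneg_left ihT.1 hl0.le
            _ = _ := by ring
      have hsplit := Zs_vertex μ hU E' a
      rw [← hE''] at hsplit
      set R := ∑ γ ∈ E'.powerset.filter (fun γ => a ∈ supp γ ∧ Conn γ),
        w μ U γ * Zs μ U (avoid E' (supp γ)) with hR
      have hRle : (1 + lam) * |R| ≤ lam * Zs μ U E'' := by
        have h1 : |R| ≤ ∑ γ ∈ E'.powerset.filter (fun γ => a ∈ supp γ ∧ Conn γ),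
            |w μ U γ * Zs μ U (avoid E' (supp γ))| := abs_sum_le_sum_abs _ _
        have h2 : ∀ γ ∈ E'.powerset.filter (fun γ => a ∈ supp γ ∧ Conn γ),
            (1 + lam) * |w μ U γ * Zs μ U (avoid E' (supp γ))| ≤
              |w μ U γ| * (1 + lam) ^ (supp γ).card * Zs μ U E'' := by
          intro γ hγ
          rw [mem_filter] at hγ
          have haγ := hγ.2.1
          have h3 : avoid E' (supp γ) = avoid E'' ((supp γ).erase a) := by
            have h3' : supp γ = {a} ∪ (supp γ).erase a := by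
              rw [← insert_eq, insert_erase haγ]
            rw [hE'', avoid_avoid, ← h3']
          obtain ⟨h4, h5⟩ := hT ((supp γ).erase a)
          rw [h3, abs_mul, abs_of_pos h5]
          have h6 : (supp γ).card = ((supp γ).erase a).card + 1 := by
            rw [card_erase_of_mem haγ]
            have := card_pos.mpr ⟨a, haγ⟩
            omega
          rw [h6, pow_succ]
          calc (1 + lam) * (|w μ U γ| * Zs μ U (avoid E'' ((supp γ).erase a)))
              = (1 + lam) * |w μ U γ| * Zs μ U (avoid E'' ((supp γ).erase a)) := by ring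
            _ ≤ (1 + lam) * |w μ U γ| * ((1 + lam) ^ ((supp γ).erase a).card * Zs μ U E'') :=
                mul_le_mul_of_nonneg_left h4 (mul_nonneg hl0.le (abs_nonneg _))
            _ = _ := by ring
        have h3 : (1 + lam) * |R| ≤ ∑ γ ∈ E'.powerset.filter (fun γ => a ∈ supp γ ∧ Conn γ),
            |w μ U γ| * (1 + lam) ^ (supp γ).card * Zs μ U E'' := by
          refine (mul_le_mul_of_nonneg_left h1 hl0.le).trans ?_
          rw [mul_sum]
          exact sum_le_sum h2
        refine h3.trans ?_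
        rw [← sum_mul]
        apply mul_le_mul_of_nonneg_right _ hpos.le
        refine le_trans ?_ (hkp a)
        apply sum_le_sum_of_subset_of_nonneg
        · intro γ hγ
          rw [mem_filter, mem_powerset] at hγ ⊢
          exact ⟨hγ.1.trans hE'E, hγ.2⟩
        · intro γ _ _
          exact mul_nonneg (abs_nonneg _) (pow_nonneg hl0.le _)
      have hR1 := abs_le.mp (le_refl |R|)
      refine ⟨hpos, ?_, ?_⟩
      · rw [hsplit]
        have : (1 + lam) * -|R| ≤ (1 + lam) * R := mul_le_mul_of_nonneg_left hR1.1 hl0.le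
        nlinarith only [this, hRle]
      · have h7 : (1 + lam) * R ≤ (1 + lam) * |R| := mul_le_mul_of_nonneg_left hR1.2 hl0.le
        have h8 : (1 + lam) * Zs μ U E' ≤ (1 + lam) * ((1 + lam) * Zs μ U E'') := by
          rw [hsplit]
          nlinarith only [h7, hRle, hpos, h0, mul_nonneg (mul_nonneg h0 h0) hpos.le]
        exact le_of_mul_le_mul_left h8 hl0
    have hpos : 0 < Zs μ U E' := by
      by_cases hne : E' = ∅
      · rw [hne, Zs_empty]; exact one_pos
      · obtain ⟨e, he⟩ := nonempty_iff_ne_empty.mpr hne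
        obtain ⟨a, ha⟩ := exists_mem_sym2 e
        obtain ⟨h1, h2, _⟩ := est a (mem_supp.mpr ⟨e, he, ha⟩)
        have h3 : 0 < (1 + lam) * Zs μ U E' := lt_of_lt_of_le h1 h2
        exact pos_of_mul_pos_right h3 hl0.le
    refine ⟨hpos, fun a => ?_⟩
    by_cases ha : a ∈ supp E'
    · exact (est a ha).2
    · have : avoid E' {a} = E' := by
        ext e
        rw [mem_avoid]
        refine ⟨fun h => h.1, fun he => ⟨he, fun v hv hva => ha ?_⟩⟩
        rw [mem_singleton] at hva
        subst hva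
        exact mem_supp.mpr ⟨e, he, hv⟩
      rw [this]
      exact ⟨le_mul_of_one_le_left hpos.le hl1, le_mul_of_one_le_left hpos.le hl1⟩

open scoped Classical in
/-- ratios of partition functions -/
theorem kp_all (hU : Good U ε) {E : Finset (Sym2 V)} {lam : ℝ} (h0 : 0 ≤ lam)
    (hkp : ∀ a, ∑ γ ∈ E.powerset.filter (fun γ => a ∈ supp γ ∧ Conn γ),
      |w μ U γ| * (1 + lam) ^ (supp γ).card ≤ lam) (T : Finset V) :
    0 < Zs μ U (avoid E T) ∧ Zs μ U (avoid E T) ≤ (1 + lam) ^ T.card * Zs μ U E ∧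
      Zs μ U E ≤ (1 + lam) ^ T.card * Zs μ U (avoid E T) := by
  have hl0 : 0 < 1 + lam := by linarith only [h0]
  have key := fun E' (h : E' ⊆ E) => kp μ hU h0 hkp E'.card E' h le_rfl
  induction T using Finset.induction_on with
  | empty =>
    have : avoid E ∅ = E := by
      ext e; simp [mem_avoid]
    rw [this]
    simp [(key E (subset_refl _)).1]
  | insert t T ht ihT =>
    have h1 : avoid E (insert t T) = avoid (avoid E T) {t} := by
      rw [avoid_avoid E T {t}, insert_eq, union_comm]
    have hsub : avoid E T ⊆ E := filter_subset _ _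
    have hsub2 : avoid (avoid E T) {t} ⊆ avoid E T := filter_subset _ _
    obtain ⟨_, h2⟩ := key _ hsub
    obtain ⟨h3, _⟩ := key _ (hsub2.trans hsub)
    obtain ⟨h4, h5⟩ := h2 t
    rw [h1, card_insert_of_notMem ht, pow_succ]
    refine ⟨h3, h4.trans ?_, ihT.2.2.trans ?_⟩
    · calc (1 + lam) * Zs μ U (avoid E T) ≤ (1 + lam) * ((1 + lam) ^ T.card * Zs μ U E) :=
            mul_le_mul_of_nonneg_left ihT.2.1 hl0.le
        _ = _ := by ring
    · calc (1 + lam) ^ T.card * Zs μ U (avoid E T)
          ≤ (1 + lam) ^ T.card * ((1 + lam) * Zs μ U (avoid (avoid E T) {t})) :=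
            mul_le_mul_of_nonneg_left h5 (pow_nonneg hl0.le _)
        _ = _ := by ring

open scoped Classical in
/-- exponential decay implies the convergence condition -/
lemma kp_cond {E : Finset (Sym2 V)} (hloop : ∀ e ∈ E, ¬ e.IsDiag) {Δ : ℕ}
    (hΔ : ∀ v, dg E v ≤ Δ) {x y h η e lam : ℝ} (hx : 0 ≤ x) (hy : 0 ≤ y)
    (hxy : x * (1 + y) ^ Δ ≤ y) (hh : (1 + y) ^ Δ ≤ h) (hη : 0 ≤ η) (he : 0 ≤ e)
    (hlam : 0 ≤ lam) (hex : e * (1 + lam) ^ 2 ≤ x) (hηh : η * h ≤ lam)
    (hdec : ∀ γ ⊆ E, Conn γ → |w μ U γ| ≤ η * e ^ γ.card) (a : V) :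
    ∑ γ ∈ E.powerset.filter (fun γ => a ∈ supp γ ∧ Conn γ),
      |w μ U γ| * (1 + lam) ^ (supp γ).card ≤ lam := by
  have hl1 : 1 ≤ 1 + lam := by linarith only [hlam]
  have h1 : ∀ γ ∈ E.powerset.filter (fun γ => a ∈ supp γ ∧ Conn γ),
      |w μ U γ| * (1 + lam) ^ (supp γ).card ≤ η * x ^ γ.card := by
    intro γ hγ
    rw [mem_filter, mem_powerset] at hγ
    have h2 := hdec γ hγ.1 hγ.2.2
    calc |w μ U γ| * (1 + lam) ^ (supp γ).card
        ≤ (η * e ^ γ.card) * (1 + lam) ^ (2 * γ.card) := by
          apply mul_le_mul h2 _ (pow_nonneg (by linarith only [hlam]) _)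
            (mul_nonneg hη (pow_nonneg he _))
          exact pow_le_pow_right₀ hl1 (card_supp_le γ)
      _ = η * (e * (1 + lam) ^ 2) ^ γ.card := by
          rw [mul_pow, pow_mul]; ring
      _ ≤ η * x ^ γ.card := by
          apply mul_le_mul_of_nonneg_left _ hη
          exact pow_le_pow_left₀ (mul_nonneg he (by positivity)) hex _
  refine (sum_le_sum h1).trans ?_
  rw [← mul_sum]
  have h2 : ∑ γ ∈ E.powerset.filter (fun γ => a ∈ supp γ ∧ Conn γ), x ^ γ.card ≤
      ∑ F ∈ E.powerset, (if Rooted {a} F then x ^ F.card else 0) := by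
    rw [← sum_filter]
    apply sum_le_sum_of_subset_of_nonneg
    · intro γ hγ
      rw [mem_filter] at hγ ⊢
      refine ⟨hγ.1, ?_⟩
      intro v hv
      exact ⟨a, mem_singleton_self a, hγ.2.2.2 a hγ.2.1 v hv⟩
    · intro F _ _
      exact pow_nonneg hx _
  have h3 := rooted_count Δ x y hx hy hxy _ E rfl hloop hΔ {a}
  have h4 : (1 + y) ^ (∑ r ∈ ({a} : Finset V), dg E r) ≤ h := by
    rw [sum_singleton]
    exact (pow_le_pow_right₀ (by linarith only [hy]) (hΔ a)).trans hh
  calc η * ∑ γ ∈ E.powerset.filter (fun γ => a ∈ supp γ ∧ Conn γ), x ^ γ.card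
      ≤ η * h := mul_le_mul_of_nonneg_left (h2.trans (h3.trans h4)) hη
    _ ≤ lam := hηh

end Vale.Agent.P050.Loc
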