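import Vale.Agent.P050.Cut.Term

set_option linter.all false

/-!
Nonnegativity of the derivative and the density bound.
-/

open MeasureTheory Finset

namespace Vale.Agent.P050.Loc

open Vale.Agent.P050

variable {V : Type*} [Fintype V] [DecidableEq V]
variable {Ω : Type*} [MeasurableSpace Ω]
variable {U : Sym2 Ω → ℝ} {B σ e η : ℝ}
variable (μ : Measure Ω) [IsProbabilityMeasure μ]

/-- numerical requirements on the parameters -/
structure Num (Δ : ℕ) (B σ e η : ℝ) : Prop where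
  par : Par Δ B σ e η
  he : e = 1 / (24 * Δ)
  hη : η ≤ 1 / 46
  h6 : 6 * (η * 2 ^ Δ) ≤ 1 / 2
  hρ : ((1 + 2 * η) ^ (2 * Δ) - 1) * (Δ * (1 + B ^ Δ) ^ Δ) ≤ 1 / 4
  hκ : ((Δ:ℝ) ^ 2 * (((B ^ Δ) ^ Δ + 2) * 2 ^ Δ) * (σ ^ 2 * (B ^ Δ) ^ 2)) * (Δ * 2 ^ Δ) ≤ 1 / 4

open scoped Classical in
/-- nonnegativity of the derivative -/
theorem deriv_nonneg {Δ : ℕ} (hn : Num Δ B σ e η) (hU : Fine μ U B σ)
    (hzero : ∫ s, degf μ U s ∂μ = 0)
    {E : Finset (Sym2 V)} (hloop : ∀ e ∈ E, ¬ e.IsDiag) (hΔ : ∀ v, dg E v ≤ Δ)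
    (c : V → Bool) (hcol : ∀ u v, s(u, v) ∈ E → c u ≠ c v) :
    0 ≤ ∑ F ∈ E.powerset, (F.card : ℝ) * w μ U F := by
  have hp := hn.par
  have hA := one_le_Ac
  have hh := one_le_hc
  have hh2 := hc_le
  have hη0 := hp.η0
  have hη46 := hn.hη
  have hΔ1 := hp.hΔ
  have hΔ' : (1:ℝ) ≤ Δ := by exact_mod_cast hΔ1
  have hΔ0 : (0:ℝ) < Δ := by linarith only [hΔ']
  -- parameters of the counting lemma
  set y : ℝ := 1 / (4 * Δ) with hy
  set x : ℝ := y / hc with hx
  have hy0 : 0 < y := by rw [hy]; positivity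
  have hx0 : 0 < x := by rw [hx]; positivity
  have hyh : (1 + y) ^ Δ ≤ hc := by
    calc (1 + y) ^ Δ ≤ (Real.exp y) ^ Δ := by
          apply pow_le_pow_left₀ (by linarith only [hy0])
          linarith only [Real.add_one_le_exp y]
      _ = Real.exp (1 / 4) := by
          rw [← Real.exp_nat_mul]
          congr 1
          rw [hy]
          field_simp
      _ = hc := rfl
  have hxy : x * (1 + y) ^ Δ ≤ y := by
    calc x * (1 + y) ^ Δ ≤ x * hc := mul_le_mul_of_nonneg_left hyh hx0.le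
      _ = y := by rw [hx]; (clear * - hh hy0; field_simp)
  have hex : e ≤ x * (hc / 6) := by
    have h1 : x * (hc / 6) = 1 / (24 * Δ) := by
      rw [hx, hy]; field_simp; norm_num
    rw [h1, hn.he]
  -- ratios
  set lam : ℝ := 2 * η with hlam
  have hlam0 : 0 ≤ lam := by rw [hlam]; linarith only [hη0]
  have hlamA : 1 + lam ≤ Ac := by
    rw [hlam]; unfold Ac; linarith only [hη46]
  have hex2 : e * (1 + lam) ^ 2 ≤ x := by
    have h1 : (1 + lam) ^ 2 ≤ Ac ^ 2 := pow_le_pow_left₀ (by linarith only [hlam0]) hlamA 2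
    have h2 : hc / 6 * Ac ^ 2 ≤ 1 := by
      unfold Ac; linarith only [hh2]
    calc e * (1 + lam) ^ 2 ≤ (x * (hc / 6)) * Ac ^ 2 := by
          apply mul_le_mul hex h1 (sq_nonneg _)
          positivity
      _ = x * (hc / 6 * Ac ^ 2) := by ring
      _ ≤ x * 1 := mul_le_mul_of_nonneg_left h2 hx0.le
      _ = x := mul_one x
  have hkp := kp_cond μ (U := U) hloop hΔ hx0.le hy0.le hxy hyh hη0.le hp.e0.le hlam0 hex2
    (by rw [hlam]; nlinarith only [hh2, hη0]) (by
      intro γ hγ hconn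
      exact decay μ hp hU (fun e he => hloop e (hγ he))
        (fun v => (dg_mono hγ v).trans (hΔ v)) hconn.1)
  have hall := kp_all μ hU.good hlam0 hkp
  have hZ : 0 < Zs μ U E := (kp μ hU.good hlam0 hkp E.card E (subset_refl _) le_rfl).1
  have hratio : ∀ T : Finset V, 0 < Zs μ U (avoid E T) ∧
      Zs μ U (avoid E T) ≤ Ac ^ T.card * Zs μ U E ∧
      Zs μ U E ≤ Ac ^ T.card * Zs μ U (avoid E T) := by
    intro T
    obtain ⟨h1, h2, h3⟩ := hall T
    have h4 : (1 + lam) ^ T.card ≤ Ac ^ T.card :=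
      pow_le_pow_left₀ (by linarith only [hlam0]) hlamA _
    exact ⟨h1, h2.trans (mul_le_mul_of_nonneg_right h4 hZ.le),
      h3.trans (mul_le_mul_of_nonneg_right h4 h1.le)⟩
  set ρ : ℝ := (1 + lam) ^ (2 * Δ) - 1 with hρdef
  have hρ0 : 0 ≤ ρ := by
    rw [hρdef]
    have := one_le_pow₀ (show (1:ℝ) ≤ 1 + lam by linarith only [hlam0]) (n := 2 * Δ)
    linarith only [this]
  have hρ : ∀ T : Finset V, T.card ≤ 2 * Δ →
      |Zs μ U (avoid E T) - Zs μ U E| ≤ ρ * Zs μ U E := by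
    intro T hT
    obtain ⟨h1, h2, h3⟩ := hall T
    have h4 : (1 + lam) ^ T.card ≤ (1 + lam) ^ (2 * Δ) :=
      pow_le_pow_right₀ (by linarith only [hlam0]) hT
    have h5 : Zs μ U (avoid E T) ≤ (1 + ρ) * Zs μ U E := by
      refine h2.trans (mul_le_mul_of_nonneg_right ?_ hZ.le)
      rw [hρdef]; linarith only [h4]
    have h6 : Zs μ U E ≤ (1 + ρ) * Zs μ U (avoid E T) := by
      refine h3.trans (mul_le_mul_of_nonneg_right ?_ h1.le)
      rw [hρdef]; linarith only [h4]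
    rw [abs_le]
    constructor
    · -- `Z - Z_T ≤ ρ Z`
      rcases le_or_gt (Zs μ U (avoid E T)) (Zs μ U E) with h7 | h7
      · nlinarith only [h6, h7, hρ0]
      · nlinarith only [h7, hρ0, hZ]
    · linarith only [h5]
  -- split the sum
  rw [sum_card_component E (fun F => w μ U F)]
  simp only [sum_union_avoid μ hU.good]
  set S := E.powerset.filter Conn with hS
  have hSmem : ∀ γ, γ ∈ S ↔ γ ⊆ E ∧ Conn γ := by
    intro γ
    rw [hS, mem_filter, mem_powerset]
  rw [← sum_filter_add_sum_filter_not S (fun γ => IsStr E c γ)]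
  have hstr1 : ∑ γ ∈ S.filter (fun γ => IsStr E c γ),
      (γ.card : ℝ) * (w μ U γ * Zs μ U (avoid E (supp γ))) =
      ∑ S ∈ SS E c, ∑ T ∈ TT E S, ((kst S T).card : ℝ) *
        (w μ U (kst S T) * Zs μ U (avoid E (supp (kst S T)))) :=
    sum_str hloop hcol (fun γ => (γ.card : ℝ) * (w μ U γ * Zs μ U (avoid E (supp γ))))
  have hstr2 : ∑ γ ∈ S.filter (fun γ => IsStr E c γ), (f1 μ U γ + f3 μ U γ) =
      ∑ S ∈ SS E c, ∑ T ∈ TT E S, (f1 μ U (kst S T) + f3 μ U (kst S T)) :=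
    sum_str hloop hcol (fun γ => f1 μ U γ + f3 μ U γ)
  have htot := str_total μ (c := c) hU hloop hΔ hρ0 hZ hρ hn.hρ le_rfl hn.hκ
  set Q := ∑ S ∈ SS E c, qS μ U S with hQ
  have hQ0 : 0 ≤ Q := sum_nonneg fun S _ => qS_nonneg μ S
  have hf13 : ∑ S ∈ SS E c, ∑ T ∈ TT E S, (f1 μ U (kst S T) + f3 μ U (kst S T)) ≤
      2 ^ Δ * (6 * Q) := by
    rw [hQ, mul_sum, mul_sum]
    apply sum_le_sum
    intro S hS'
    have h1 : ∑ T ∈ TT E S, (f1 μ U (kst S T) + f3 μ U (kst S T)) ≤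
        ∑ _T ∈ TT E S, 6 * qS μ U S := sum_le_sum fun T hT => f13_le μ hU hloop hS' hT
    refine h1.trans ?_
    rw [sum_const, nsmul_eq_mul]
    apply mul_le_mul_of_nonneg_right _ (mul_nonneg (by norm_num) (qS_nonneg μ S))
    have h2 : (TT E S).card ≤ 2 ^ Δ := by
      have h3 : (TT E S).card ≤ (CN E S).powerset.card := card_le_card (filter_subset _ _)
      rw [card_powerset] at h3
      exact h3.trans (Nat.pow_le_pow_right (by norm_num) (card_CN_le hΔ (SS_pos hS')))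
    exact_mod_cast h2
  -- the other sets
  have hmix : ∑ γ ∈ S.filter (fun γ => ¬ IsStr E c γ),
      Zs μ U E * (f3 μ U γ - η * (f2 μ U x γ + fS μ U x γ)) ≤
      ∑ γ ∈ S.filter (fun γ => ¬ IsStr E c γ),
        (γ.card : ℝ) * (w μ U γ * Zs μ U (avoid E (supp γ))) := by
    apply sum_le_sum
    intro γ hγ
    rw [mem_filter, hSmem] at hγ
    exact term_bound' μ hp hU hzero hloop hΔ c hcol hZ hratio hx0.le hex hγ.1.1 hγ.1.2 hγ.2
  rw [← mul_sum, sum_sub_distrib, ← mul_sum] at hmix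
  have hc2 := sum_f2_le μ (U := U) hloop hΔ hx0.le hy0.le hxy hyh hSmem
  have hcS := sum_fS_le μ (U := U) hloop hΔ hx0.le hy0.le hxy hyh hSmem
  -- all cherries are complete bipartite
  have hf1zero : ∑ γ ∈ S.filter (fun γ => ¬ IsStr E c γ), f1 μ U γ = 0 := by
    apply sum_eq_zero
    intro γ hγ
    rw [mem_filter, hSmem] at hγ
    unfold f1
    rw [if_neg]
    intro hc2'
    have hloopγ : ∀ e ∈ γ, ¬ e.IsDiag := fun e he => hloop e (hγ.1.1 he)
    obtain ⟨a, b, u, hau, hbu, hab, hsub⟩ := exists_cherry hγ.1.2 hloopγ (by omega)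
    have hγ' : γ = {s(a, u), s(b, u)} := by
      symm
      apply eq_of_subset_of_card_le hsub
      rw [card_cherry hbu hab, hc2']
    apply hγ.2
    apply isStr_of_star hγ.1.1 (by omega) (v := u)
    intro e he
    rw [hγ', mem_insert, mem_singleton] at he
    rcases he with rfl | rfl <;> simp
  have hs1 := sum_filter_add_sum_filter_not S (fun γ => IsStr E c γ) (fun γ => f1 μ U γ)
  have hs3 := sum_filter_add_sum_filter_not S (fun γ => IsStr E c γ) (fun γ => f3 μ U γ)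
  have hsplit2 : ∑ γ ∈ S.filter (fun γ => ¬ IsStr E c γ), (f2 μ U x γ + fS μ U x γ) ≤
      ∑ γ ∈ S, f2 μ U x γ + ∑ γ ∈ S, fS μ U x γ := by
    rw [← sum_add_distrib]
    apply sum_le_sum_of_subset_of_nonneg (filter_subset _ _)
    intro γ _ _
    exact add_nonneg (f2_nonneg μ hx0.le γ) (fS_nonneg μ hx0.le γ)
  rw [sum_add_distrib] at hstr2
  rw [← hstr2] at hf13
  have hf3N : 0 ≤ ∑ γ ∈ S.filter (fun γ => ¬ IsStr E c γ), f3 μ U γ :=
    sum_nonneg fun γ _ => f3_nonneg μ γ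
  rw [hstr1]
  set A1 := ∑ γ ∈ S.filter (fun γ => IsStr E c γ), f1 μ U γ with hA1
  set A3 := ∑ γ ∈ S.filter (fun γ => IsStr E c γ), f3 μ U γ with hA3
  set N3 := ∑ γ ∈ S.filter (fun γ => ¬ IsStr E c γ), f3 μ U γ with hN3
  set C2 := ∑ γ ∈ S.filter (fun γ => ¬ IsStr E c γ), (f2 μ U x γ + fS μ U x γ) with hC2
  have hC : C2 ≤ A1 + (A3 + N3) := by
    rw [hf1zero] at hs1
    linarith only [hsplit2, hc2, hcS, hs1, hs3]
  have h1 : η * C2 ≤ η * (A1 + (A3 + N3)) := mul_le_mul_of_nonneg_left hC hη0.le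
  have h2 : η * N3 ≤ N3 := mul_le_of_le_one_left hf3N hp.η1
  have h3 : η * (A1 + A3) ≤ 1 / 2 * Q := by
    have h4 : η * (A1 + A3) ≤ η * (2 ^ Δ * (6 * Q)) := mul_le_mul_of_nonneg_left hf13 hη0.le
    have h5 : 6 * (η * 2 ^ Δ) * Q ≤ 1 / 2 * Q := mul_le_mul_of_nonneg_right hn.h6 hQ0
    linarith only [h4, h5]
  have h4 : 0 ≤ 1 / 2 * Q + (N3 - η * C2) := by linarith only [h1, h2, h3]
  have h5 := mul_nonneg hZ.le h4
  linarith only [h5, htot, hmix]

lemma Fine.scale (hU : Fine μ U B σ) {s : ℝ} (hs0 : 0 ≤ s) (hs1 : s ≤ 1) :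
    Fine μ (fun e => s * U e) B σ where
  good := hU.good.scale hs0 hs1
  one_le := hU.one_le
  lo := by
    intro e
    have := hU.lo e
    nlinarith only [this, hs0, hs1]
  pos := hU.pos
  op := by
    intro h hh
    have h1 : ∀ r, (∫ t, two (fun e => s * U e) r t * h t ∂μ) ^ 2 =
        s ^ 2 * (∫ t, two U r t * h t ∂μ) ^ 2 := by
      intro r
      have h2 : ∀ t, two (fun e => s * U e) r t * h t = s * (two U r t * h t) := by
        intro t; unfold two; ring
      simp only [h2]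
      rw [integral_const_mul, mul_pow]
    simp only [h1]
    rw [integral_const_mul]
    have h2 := hU.op h hh
    have h3 : s ^ 2 ≤ 1 := pow_le_one₀ hs0 hs1
    have h4 : 0 ≤ ∫ r, (∫ t, two U r t * h t ∂μ) ^ 2 ∂μ := integral_nonneg fun _ => sq_nonneg _
    exact (mul_le_of_le_one_left h4 h3).trans h2

/-- the density bound -/
theorem one_le_Z {Δ : ℕ} (hn : Num Δ B σ e η) (hU : Fine μ U B σ)
    (hzero : ∫ s, degf μ U s ∂μ = 0)
    {E : Finset (Sym2 V)} (hloop : ∀ e ∈ E, ¬ e.IsDiag) (hΔ : ∀ v, dg E v ≤ Δ)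
    (c : V → Bool) (hcol : ∀ u v, s(u, v) ∈ E → c u ≠ c v) : 1 ≤ Zs μ U E := by
  set q : ℝ → ℝ := fun s => ∑ F ∈ E.powerset, s ^ F.card * w μ U F with hq
  have hderiv : ∀ s, HasDerivAt q
      (∑ F ∈ E.powerset, ((F.card : ℝ) * s ^ (F.card - 1)) * w μ U F) s := by
    intro s
    apply HasDerivAt.fun_sum
    intro F _
    exact (hasDerivAt_pow F.card s).mul_const _
  have hmono : MonotoneOn q (Set.Icc 0 1) := by
    apply monotoneOn_of_deriv_nonneg (convex_Icc 0 1)
    · exact fun s _ => (hderiv s).continuousAt.continuousWithinAt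
    · exact fun s _ => (hderiv s).differentiableAt.differentiableWithinAt
    · intro s hs
      rw [interior_Icc] at hs
      rw [(hderiv s).deriv]
      have hU' := hU.scale μ hs.1.le hs.2.le
      have hz' : ∫ t, degf μ (fun e => s * U e) t ∂μ = 0 := by
        simp only [degf_scale]
        rw [integral_const_mul, hzero, mul_zero]
      have h1 := deriv_nonneg μ hn hU' hz' hloop hΔ c hcol
      simp only [w_scale] at h1
      have h2 : ∑ F ∈ E.powerset, (F.card : ℝ) * (s ^ F.card * w μ U F) =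
          s * ∑ F ∈ E.powerset, ((F.card : ℝ) * s ^ (F.card - 1)) * w μ U F := by
        rw [mul_sum]
        refine sum_congr rfl fun F _ => ?_
        rcases Nat.eq_zero_or_pos F.card with h | h
        · rw [h]; simp
        · have : s ^ F.card = s * s ^ (F.card - 1) := by
            rw [← pow_succ']; congr 1; omega
          rw [this]; ring
      rw [h2] at h1
      exact nonneg_of_mul_nonneg_right h1 hs.1
  have h01 : q 0 ≤ q 1 := hmono (by simp only [Set.mem_Icc, Std.le_refl, zero_le_one, and_self])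
    (by simp only [Set.mem_Icc, zero_le_one, Std.le_refl, and_self]) zero_le_one
  have hq1 : q 1 = Zs μ U E := by
    simp [hq, Zs]
  have hq0 : q 0 = 1 := by
    simp only [hq]
    rw [sum_eq_single (∅ : Finset (Sym2 V))]
    · rw [w_empty]; simp
    · intro F _ hF
      rw [zero_pow, zero_mul]
      rw [Ne, card_eq_zero]
      exact hF
    · intro h
      exact absurd (empty_mem_powerset E) h
  rw [hq1, hq0] at h01
  exact h01

end Vale.Agent.P050.Loc
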