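import Vale.Agent.P050.Cut.Op

set_option linter.all false

/-!
Large induced matchings and the resulting bound.
-/

open MeasureTheory Finset

namespace Vale.Agent.P050.Loc

open Vale.Agent.P050

variable {V : Type*} [Fintype V] [DecidableEq V] {Ω : Type*} [MeasurableSpace Ω]

lemma Far.anti {Γ Γ' : Finset (Sym2 V)} (h : Γ' ⊆ Γ) {m m' : V × V} (hf : Far Γ m m') :
    Far Γ' m m' := fun u hu v hv => ⟨(hf u hu v hv).1, fun hh => (hf u hu v hv).2 (h hh)⟩

lemma card_nbr_le (Γ : Finset (Sym2 V)) (p : V) :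
    (univ.filter (fun v => s(p, v) ∈ Γ)).card ≤ dg Γ p := by
  unfold dg
  apply card_le_card_of_injOn (fun v => s(p, v))
  · intro v hv
    simp only [coe_filter, mem_univ, true_and, Set.mem_setOf_eq] at hv
    simp only [coe_filter, Set.mem_setOf_eq]
    exact ⟨hv, by simp⟩
  · intro v _ v' _ h
    simp only at h
    rw [Sym2.eq_iff] at h
    rcases h with ⟨_, h⟩ | ⟨h1, h2⟩
    · exact h
    · rw [h2, ← h1]

/-- greedy choice of an induced matching -/
lemma greedy {Δ : ℕ} {Γ : Finset (Sym2 V)} (hloop : ∀ e ∈ Γ, ¬ e.IsDiag)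
    (hΔ : ∀ v, dg Γ v ≤ Δ) (adm : V → V → Prop) :
    ∀ (n : ℕ) (X : Finset (Sym2 V)), X.card ≤ n → X ⊆ Γ →
      (∀ e ∈ X, ∃ p q, e = s(p, q) ∧ adm p q) →
      ∃ M : List (V × V), (∀ m ∈ M, s(m.1, m.2) ∈ X ∧ adm m.1 m.2) ∧ M.Pairwise (Far Γ) ∧
        X.card ≤ 2 * Δ ^ 2 * M.length := by
  intro n
  induction n with
  | zero =>
    intro X hX _ _
    exact ⟨[], by simp, List.Pairwise.nil, by simpa using hX⟩
  | succ n ih =>
    intro X hX hsub hadm
    by_cases hne : X = ∅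
    · exact ⟨[], by simp, List.Pairwise.nil, by simp [hne]⟩
    obtain ⟨e, he⟩ := nonempty_iff_ne_empty.mpr hne
    obtain ⟨p, q, rfl, hpq⟩ := hadm e he
    set T : Finset V := univ.filter (fun v => s(p, v) ∈ Γ) ∪ univ.filter (fun v => s(q, v) ∈ Γ)
      with hT
    have hpT : p ∈ T := by
      simp only [hT, mem_union, mem_filter, mem_univ, true_and]
      right; rw [Sym2.eq_swap]; exact hsub he
    have hqT : q ∈ T := by
      simp only [hT, mem_union, mem_filter, mem_univ, true_and]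
      left; exact hsub he
    have hTc : T.card ≤ 2 * Δ := by
      calc T.card ≤ _ + _ := card_union_le _ _
        _ ≤ dg Γ p + dg Γ q := Nat.add_le_add (card_nbr_le Γ p) (card_nbr_le Γ q)
        _ ≤ 2 * Δ := by have := hΔ p; have := hΔ q; omega
    have hΔX : ∀ v, dg X v ≤ Δ := fun v => (dg_mono hsub v).trans (hΔ v)
    have hX' : (X \ avoid X T).card ≤ Δ * T.card := card_sdiff_avoid hΔX T
    have hsub' : avoid X T ⊆ X := filter_subset _ _
    have hlt : (avoid X T).card < X.card := by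
      apply card_lt_card
      rw [ssubset_iff_of_subset hsub']
      refine ⟨_, he, fun h => ?_⟩
      exact (mem_avoid.mp h).2 p (by simp) hpT
    obtain ⟨M, hM1, hM2, hM3⟩ := ih (avoid X T) (by omega) (hsub'.trans hsub)
      (fun e he => hadm e (hsub' he))
    refine ⟨(p, q) :: M, ?_, ?_, ?_⟩
    · intro m hm
      rcases List.mem_cons.mp hm with rfl | hm
      · exact ⟨he, hpq⟩
      · exact ⟨hsub' (hM1 m hm).1, (hM1 m hm).2⟩
    · rw [List.pairwise_cons]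
      refine ⟨?_, hM2⟩
      intro m hm u hu v hv
      have h1 := (mem_avoid.mp (hM1 m hm).1).2 v hv
      simp only [Sym2.mem_iff] at hu
      constructor
      · rintro rfl
        rcases hu with rfl | rfl
        · exact h1 hpT
        · exact h1 hqT
      · intro h
        apply h1
        simp only [hT, mem_union, mem_filter, mem_univ, true_and]
        rcases hu with rfl | rfl
        · exact Or.inl h
        · exact Or.inr h
    · have h1 : X.card = (X \ avoid X T).card + (avoid X T).card := by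
        rw [card_sdiff_add_card_eq_card hsub']
      have h2 : Δ * T.card ≤ Δ * (2 * Δ) := Nat.mul_le_mul_left _ hTc
      rw [List.length_cons, h1]
      have h3 : Δ * (2 * Δ) = 2 * Δ ^ 2 := by ring
      have h4 : 2 * Δ ^ 2 * (M.length + 1) = 2 * Δ ^ 2 * M.length + 2 * Δ ^ 2 := by ring
      omega

variable {U : Sym2 Ω → ℝ} {B σ : ℝ}
variable (μ : Measure Ω) [IsProbabilityMeasure μ]

/-- the bound coming from an induced matching -/
theorem gain2 (hU : Fine μ U B σ) {Γ : Finset (Sym2 V)} (hloop : ∀ e ∈ Γ, ¬ e.IsDiag)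
    {F0 G0 : (V → Ω) → ℝ} (hF : BM F0) (hG : BM G0) {M : List (V × V)}
    (hM : ∀ m ∈ M, s(m.1, m.2) ∈ Γ) (hfar : M.Pairwise (Far Γ))
    (hFi : ∀ m ∈ M, Ind m.2 F0) (hGi : ∀ m ∈ M, Ind m.1 G0) :
    (∫ x, F0 x * G0 x * wt U Γ x ∂(piM V μ)) ^ 2 ≤
      (σ ^ 2) ^ M.length * (B ^ Γ.card) ^ 2 *
        ((∫ x, F0 x ^ 2 ∂(piM V μ)) * ∫ x, G0 x ^ 2 ∂(piM V μ)) := by
  have hB1 := hU.one_le
  have hne : ∀ m ∈ M, m.1 ≠ m.2 := by
    intro m hm h
    exact hloop _ (hM m hm) (by rw [h]; simp)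
  set Me : Finset (Sym2 V) := (M.map (fun m => s(m.1, m.2))).toFinset with hMe
  set Γ1 := Γ \ Me with hΓ1
  set ΓQ := Γ1.filter (fun e => ∃ m ∈ M, m.2 ∈ e) with hΓQ
  set ΓP := Γ1.filter (fun e => ¬ ∃ m ∈ M, m.2 ∈ e) with hΓP
  have hMesub : Me ⊆ Γ := by
    intro e he
    rw [hMe, List.mem_toFinset, List.mem_map] at he
    obtain ⟨m, hm, rfl⟩ := he
    exact hM m hm
  have hnd : (M.map (fun m => s(m.1, m.2))).Nodup := by
    rw [List.Nodup, List.pairwise_map]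
    refine hfar.imp ?_
    intro m m' h heq
    have h1 := (h m.1 (by simp) m.1 (by rw [← heq]; simp)).1
    exact h1 rfl
  have hwMe : ∀ x : V → Ω, wt U Me x = (M.map (fun m => U s(x m.1, x m.2))).prod := by
    intro x
    unfold wt
    rw [hMe, List.prod_toFinset _ hnd, List.map_map]
    rfl
  have hw : ∀ x : V → Ω, wt U Γ x = wt U Me x * (wt U ΓP x * wt U ΓQ x) := by
    intro x
    have h1 : wt U Γ x = wt U Me x * wt U Γ1 x := by
      rw [← wt_union disjoint_sdiff, union_sdiff_of_subset hMesub]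
    have h2 : wt U Γ1 x = wt U ΓP x * wt U ΓQ x := by
      unfold wt
      rw [mul_comm]
      exact (prod_filter_mul_prod_filter_not Γ1 _ _).symm
    rw [h1, h2]
  have hfar' : ∀ m ∈ M, ∀ m' ∈ M, m ≠ m' → Far Γ m m' := by
    intro m hm m' hm' hmm
    have hsym : Std.Symm (Far (V := V) Γ) := ⟨fun _ _ h => h.symm⟩
    exact hfar.forall hm hm' hmm
  have hf : BM (fun x => F0 x * wt U ΓP x) := hF.mul (hU.good.bm_wt ΓP)
  have hg : BM (fun x => G0 x * wt U ΓQ x) := hG.mul (hU.good.bm_wt ΓQ)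
  have hfi : ∀ m ∈ M, Ind m.2 (fun x => F0 x * wt U ΓP x) := by
    intro m hm x y
    have h1 : wt U ΓP (Function.update x m.2 y) = wt U ΓP x := by
      apply wt_update
      rw [mem_supp]
      rintro ⟨e, he, hme⟩
      rw [hΓP, mem_filter] at he
      exact he.2 ⟨m, hm, hme⟩
    have h2 := hFi m hm x y
    simp only [h1, h2]
  have hgi : ∀ m ∈ M, Ind m.1 (fun x => G0 x * wt U ΓQ x) := by
    intro m hm x y
    have h1 : wt U ΓQ (Function.update x m.1 y) = wt U ΓQ x := by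
      apply wt_update
      rw [mem_supp]
      rintro ⟨e, he, hme⟩
      rw [hΓQ, mem_filter, hΓ1, mem_sdiff] at he
      obtain ⟨⟨heΓ, heM⟩, m', hm', hm'e⟩ := he
      by_cases hmm : m' = m
      · subst hmm
        apply heM
        have : e = s(m'.1, m'.2) := (Sym2.mem_and_mem_iff (hne m' hm')).mp ⟨hme, hm'e⟩
        rw [this, hMe, List.mem_toFinset, List.mem_map]
        exact ⟨m', hm', rfl⟩
      · have h2 := hfar' m hm m' hm' (Ne.symm hmm) m.1 (by simp) m'.2 (by simp)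
        have : e = s(m.1, m'.2) := (Sym2.mem_and_mem_iff h2.1).mp ⟨hme, hm'e⟩
        exact h2.2 (this ▸ heΓ)
    have h2 := hGi m hm x y
    simp only [h1, h2]
  have key := gain μ hU M _ _ hf hg hne hfi hgi (hfar.imp (fun h => h.anti (empty_subset _)))
  have e1 : ∀ x : V → Ω, F0 x * G0 x * wt U Γ x =
      (F0 x * wt U ΓP x) * (G0 x * wt U ΓQ x) * (M.map (fun m => U s(x m.1, x m.2))).prod := by
    intro x
    rw [hw, hwMe]; ring
  simp only [e1]
  refine key.trans ?_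
  have hbd : ∀ (H0 : (V → Ω) → ℝ) (G : Finset (Sym2 V)), BM H0 →
      ∫ x, (H0 x * wt U G x) ^ 2 ∂(piM V μ) ≤ (B ^ G.card) ^ 2 * ∫ x, H0 x ^ 2 ∂(piM V μ) := by
    intro H0 G hH
    rw [← integral_const_mul]
    apply integral_mono (((hH.mul (hU.good.bm_wt G)).pow 2).integrable _)
      (((BM.const _).mul (hH.pow 2)).integrable _)
    intro x
    show (H0 x * wt U G x) ^ 2 ≤ (B ^ G.card) ^ 2 * H0 x ^ 2
    rw [mul_pow, mul_comm]
    apply mul_le_mul_of_nonneg_right _ (sq_nonneg _)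
    rw [← sq_abs]
    exact pow_le_pow_left₀ (abs_nonneg _) (hU.good.abs_wt_le G x) 2
  have hcard : ΓP.card + ΓQ.card ≤ Γ.card := by
    have h1 : ΓQ.card + ΓP.card = Γ1.card := card_filter_add_card_filter_not _
    have h2 : Γ1.card ≤ Γ.card := card_le_card sdiff_subset
    omega
  have h1 := hbd F0 ΓP hF
  have h2 := hbd G0 ΓQ hG
  have h3 : 0 ≤ ∫ x, F0 x ^ 2 ∂(piM V μ) := integral_nonneg fun _ => sq_nonneg _
  have h4 : 0 ≤ ∫ x, G0 x ^ 2 ∂(piM V μ) := integral_nonneg fun _ => sq_nonneg _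
  have h5 : 0 ≤ ∫ x, (G0 x * wt U ΓQ x) ^ 2 ∂(piM V μ) := integral_nonneg fun _ => sq_nonneg _
  rw [mul_assoc]
  apply mul_le_mul_of_nonneg_left _ (pow_nonneg (sq_nonneg _) _)
  calc (∫ x, (F0 x * wt U ΓP x) ^ 2 ∂(piM V μ)) * ∫ x, (G0 x * wt U ΓQ x) ^ 2 ∂(piM V μ)
      ≤ ((B ^ ΓP.card) ^ 2 * ∫ x, F0 x ^ 2 ∂(piM V μ)) *
        ((B ^ ΓQ.card) ^ 2 * ∫ x, G0 x ^ 2 ∂(piM V μ)) :=
        mul_le_mul h1 h2 h5 (mul_nonneg (sq_nonneg _) h3)
    _ = (B ^ (ΓP.card + ΓQ.card)) ^ 2 *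
        ((∫ x, F0 x ^ 2 ∂(piM V μ)) * ∫ x, G0 x ^ 2 ∂(piM V μ)) := by
        rw [pow_add]; ring
    _ ≤ (B ^ Γ.card) ^ 2 *
        ((∫ x, F0 x ^ 2 ∂(piM V μ)) * ∫ x, G0 x ^ 2 ∂(piM V μ)) := by
        apply mul_le_mul_of_nonneg_right _ (mul_nonneg h3 h4)
        apply pow_le_pow_left₀ (by positivity)
        exact pow_le_pow_right₀ hB1 hcard

/-- the bound from a set of admissible edges -/
theorem gain3 (hU : Fine μ U B σ) {Δ : ℕ} {Γ : Finset (Sym2 V)}
    (hloop : ∀ e ∈ Γ, ¬ e.IsDiag) (hΔ : ∀ v, dg Γ v ≤ Δ) {F0 G0 : (V → Ω) → ℝ} (hF : BM F0)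
    (hG : BM G0) {X : Finset (Sym2 V)} (hX : X ⊆ Γ)
    (hadm : ∀ e ∈ X, ∃ p q, e = s(p, q) ∧ Ind q F0 ∧ Ind p G0) :
    ∃ n : ℕ, X.card ≤ 2 * Δ ^ 2 * n ∧
      (∫ x, F0 x * G0 x * wt U Γ x ∂(piM V μ)) ^ 2 ≤ (σ ^ 2) ^ n * (B ^ Γ.card) ^ 2 *
        ((∫ x, F0 x ^ 2 ∂(piM V μ)) * ∫ x, G0 x ^ 2 ∂(piM V μ)) := by
  obtain ⟨M, hM1, hM2, hM3⟩ := greedy hloop hΔ (fun p q => Ind q F0 ∧ Ind p G0) X.card X le_rfl hX
    hadm
  refine ⟨M.length, hM3, ?_⟩
  exact gain2 μ hU hloop hF hG (fun m hm => hX (hM1 m hm).1) hM2 (fun m hm => (hM1 m hm).2.1)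
    (fun m hm => (hM1 m hm).2.2)

end Vale.Agent.P050.Loc
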