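import Vale.Agent.P050.Cut.Short

set_option linter.all false

/-!
Bounds for the densities of connected edge sets that are not complete bipartite.
-/

open MeasureTheory Finset

namespace Vale.Agent.P050.Loc

open Vale.Agent.P050

/-- parameters -/
structure Par (Δ : ℕ) (B σ e η : ℝ) : Prop where
  hΔ : 1 ≤ Δ
  e0 : 0 < e
  e1 : e ≤ 1
  η0 : 0 < η
  η1 : η ≤ 1
  hσ : σ ≤ η * (e / B) ^ (6 * Δ ^ 3)

lemma Par.pow {Δ : ℕ} {B σ e η : ℝ} (h : Par Δ B σ e η) (hB : 1 ≤ B) (hσ0 : 0 ≤ σ) {n s : ℕ}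
    (hn : 1 ≤ n) (hs : s ≤ 6 * Δ ^ 3 * n) : (σ ^ 2) ^ n * (B ^ s) ^ 2 ≤ (η * e ^ s) ^ 2 := by
  have hB0 : 0 < B := by linarith only [hB]
  have hr0 : 0 < e / B := div_pos h.e0 hB0
  have hr1 : e / B ≤ 1 := by
    rw [div_le_one hB0]; linarith only [hB, h.e1]
  have h1 : σ ^ n ≤ η * (e / B) ^ s := by
    calc σ ^ n ≤ (η * (e / B) ^ (6 * Δ ^ 3)) ^ n := pow_le_pow_left₀ hσ0 h.hσ n
      _ = η ^ n * (e / B) ^ (6 * Δ ^ 3 * n) := by rw [mul_pow, ← pow_mul]
      _ ≤ η * (e / B) ^ s := by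
          apply mul_le_mul
          · exact pow_le_of_le_one h.η0.le h.η1 (by omega)
          · exact pow_le_pow_of_le_one hr0.le hr1 hs
          · exact pow_nonneg hr0.le _
          · exact h.η0.le
  have h2 : σ ^ n * B ^ s ≤ η * e ^ s := by
    calc σ ^ n * B ^ s ≤ η * (e / B) ^ s * B ^ s :=
          mul_le_mul_of_nonneg_right h1 (pow_nonneg hB0.le _)
      _ = η * e ^ s := by
          rw [mul_assoc, ← mul_pow, div_mul_cancel₀ _ hB0.ne']
  have h3 : (σ ^ 2) ^ n * (B ^ s) ^ 2 = (σ ^ n * B ^ s) ^ 2 := by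
    rw [mul_pow, ← pow_mul σ 2 n, ← pow_mul σ n 2, mul_comm 2 n]
  rw [h3]
  exact pow_le_pow_left₀ (mul_nonneg (pow_nonneg hσ0 _) (pow_nonneg hB0.le _)) h2 2

lemma Par.fin {Δ : ℕ} {B σ e η : ℝ} (h : Par Δ B σ e η) (hB : 1 ≤ B) (hσ0 : 0 ≤ σ)
    {n t g f₁ f₂ : ℕ} (hn : 1 ≤ n) (hs : t ≤ 6 * Δ ^ 3 * n) (ht : t = g + f₁ + f₂)
    {I F G Fc Gc : ℝ} (hI : I ^ 2 ≤ (σ ^ 2) ^ n * (B ^ g) ^ 2 * (F * G))
    (hF : F ≤ (B ^ f₁) ^ 2 * Fc) (hG : G ≤ (B ^ f₂) ^ 2 * Gc) (hF0 : 0 ≤ F) (hG0 : 0 ≤ G)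
    (hFc : 0 ≤ Fc) (hGc : 0 ≤ Gc) : I ^ 2 ≤ (η * e ^ t) ^ 2 * (Fc * Gc) := by
  have h1 := h.pow hB hσ0 hn hs
  calc I ^ 2 ≤ (σ ^ 2) ^ n * (B ^ g) ^ 2 * (F * G) := hI
    _ ≤ (σ ^ 2) ^ n * (B ^ g) ^ 2 * (((B ^ f₁) ^ 2 * Fc) * ((B ^ f₂) ^ 2 * Gc)) := by
        apply mul_le_mul_of_nonneg_left
        · exact mul_le_mul hF hG hG0 (mul_nonneg (sq_nonneg _) hFc)
        · exact mul_nonneg (pow_nonneg (sq_nonneg _) _) (sq_nonneg _)
    _ = ((σ ^ 2) ^ n * (B ^ t) ^ 2) * (Fc * Gc) := by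
        rw [ht, pow_add, pow_add]; ring
    _ ≤ (η * e ^ t) ^ 2 * (Fc * Gc) :=
        mul_le_mul_of_nonneg_right h1 (mul_nonneg hFc hGc)

variable {V : Type*} [Fintype V] [DecidableEq V] {Ω : Type*} [MeasurableSpace Ω]
variable {U : Sym2 Ω → ℝ} {B σ e η : ℝ} {Δ : ℕ}
variable (μ : Measure Ω) [IsProbabilityMeasure μ]

/-- exponential decay -/
theorem decay (hp : Par Δ B σ e η) (hU : Fine μ U B σ) {γ : Finset (Sym2 V)}
    (hloop : ∀ e ∈ γ, ¬ e.IsDiag) (hΔ : ∀ v, dg γ v ≤ Δ) (hne : γ.Nonempty) :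
    |w μ U γ| ≤ η * e ^ γ.card := by
  obtain ⟨n, hn1, hn2⟩ := gain3 μ hU hloop hΔ (F0 := fun _ => (1:ℝ)) (G0 := fun _ => (1:ℝ))
    (BM.const 1) (BM.const 1) (subset_refl γ) (by
      intro e _
      induction e with
      | h a b => exact ⟨a, b, rfl, fun _ _ => rfl, fun _ _ => rfl⟩)
  have hpos : 0 < γ.card := card_pos.mpr hne
  have hn : 1 ≤ n := by
    rcases Nat.eq_zero_or_pos n with h | h
    · rw [h, mul_zero] at hn1; omega
    · exact h
  have hs : γ.card ≤ 6 * Δ ^ 3 * n := by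
    have h1 := hp.hΔ
    have h2 : Δ ^ 2 ≤ Δ ^ 3 := Nat.pow_le_pow_right h1 (by norm_num)
    calc γ.card ≤ 2 * Δ ^ 2 * n := hn1
      _ ≤ 6 * Δ ^ 3 * n := Nat.mul_le_mul_right _ (by omega)
  have hw : w μ U γ = ∫ x, (1:ℝ) * 1 * wt U γ x ∂(piM V μ) := by
    unfold w; simp
  rw [← hw] at hn2
  have key := hp.fin hU.one_le hU.pos.le (f₁ := 0) (f₂ := 0) (Fc := 1) (Gc := 1) hn hs rfl hn2
    (by simp) (by simp) (by simp) (by simp) zero_le_one zero_le_one
  rw [mul_one, mul_one] at key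
  exact abs_le_of_sq_le_sq key (mul_nonneg hp.η0.le (pow_nonneg hp.e0.le _))

/-- two leaves -/
theorem two_leaf (hp : Par Δ B σ e η) (hU : Fine μ U B σ) {γ : Finset (Sym2 V)}
    (hloop : ∀ e ∈ γ, ¬ e.IsDiag) (hΔ : ∀ v, dg γ v ≤ Δ) (hc3 : 3 ≤ γ.card)
    {l₁ l₂ y₁ y₂ : V}
    (hl₁ : l₁ ≠ y₁) (hl₂ : l₂ ≠ y₂) (h₁ : s(l₁, y₁) ∈ γ) (h₂ : s(l₂, y₂) ∈ γ)
    (hu₁ : ∀ e ∈ γ, l₁ ∈ e → e = s(l₁, y₁)) (hu₂ : ∀ e ∈ γ, l₂ ∈ e → e = s(l₂, y₂))
    (hne : s(l₁, y₁) ≠ s(l₂, y₂)) (hstar : ∀ v, ∃ e ∈ γ, v ∉ e) :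
    |w μ U γ| ≤ η * e ^ (γ.card - 2) * dd μ U := by
  obtain ⟨hw, hcG⟩ := rep_two μ hU.good hl₁ hl₂ h₁ h₂ hu₁ hu₂ hne
  set G := (γ.erase s(l₁, y₁)).erase s(l₂, y₂) with hG
  have hGsub : G ⊆ γ := (erase_subset _ _).trans (erase_subset _ _)
  have hloopG : ∀ e ∈ G, ¬ e.IsDiag := fun e he => hloop e (hGsub he)
  have hΔG : ∀ v, dg G v ≤ Δ := fun v => (dg_mono hGsub v).trans (hΔ v)
  have hbd : ∀ v : V, BM (fun x : V → Ω => degf μ U (x v)) := fun v =>
    (hU.good.bm_degf μ).comp (measurable_pi_apply v)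
  have hI : ∀ v u : V, u ≠ v → Ind u (fun x : V → Ω => degf μ U (x v)) := by
    intro v u huv x z
    simp only [Function.update_of_ne (Ne.symm huv)]
  have hD := dd_nonneg (U := U) μ
  have hint : ∀ v : V, ∫ x : V → Ω, (degf μ U (x v)) ^ 2 ∂(piM V μ) = dd μ U := fun v =>
    integral_eval μ v (g := fun s => degf μ U s ^ 2) ((hU.good.bm_degf μ).pow 2)
  -- the set of admissible edges
  obtain ⟨X, hXG, hXne, hXadm, hXcard⟩ : ∃ X ⊆ G, X.Nonempty ∧
      (∀ e ∈ X, ∃ p q, e = s(p, q) ∧ Ind q (fun x : V → Ω => degf μ U (x y₁)) ∧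
        Ind p (fun x : V → Ω => degf μ U (x y₂))) ∧ G.card ≤ X.card + Δ := by
    by_cases hy : y₁ = y₂
    · subst hy
      refine ⟨avoid G {y₁}, filter_subset _ _, ?_, ?_, ?_⟩
      · obtain ⟨e, he, hye⟩ := hstar y₁
        refine ⟨e, ?_⟩
        rw [mem_avoid]
        refine ⟨?_, ?_⟩
        · rw [hG, mem_erase, mem_erase]
          refine ⟨?_, ?_, he⟩
          · rintro rfl; exact hye (by simp)
          · rintro rfl; exact hye (by simp)
        · intro v hv hvy
          rw [mem_singleton] at hvy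
          exact hye (hvy ▸ hv)
      · intro e he
        induction e with
        | h u v =>
          rw [mem_avoid] at he
          have h1 := he.2 u (by simp)
          have h2 := he.2 v (by simp)
          rw [mem_singleton] at h1 h2
          exact ⟨u, v, rfl, hI _ _ h2, hI _ _ h1⟩
      · have h1 := card_sdiff_avoid hΔG {y₁}
        rw [card_singleton, mul_one] at h1
        have h2 : G.card = (G \ avoid G {y₁}).card + (avoid G {y₁}).card :=
          (card_sdiff_add_card_eq_card (show avoid G {y₁} ⊆ G from filter_subset _ _)).symm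
        omega
    · refine ⟨G, subset_refl _, ?_, ?_, by omega⟩
      · rw [← card_pos]; omega
      · intro e he
        have hlp := hloopG e he
        induction e with
        | h u v =>
          have huv : u ≠ v := by
            intro hh; exact hlp (by simp [hh])
          by_cases hopt : v ≠ y₁ ∧ u ≠ y₂
          · exact ⟨u, v, rfl, hI _ _ hopt.1, hI _ _ hopt.2⟩
          · refine ⟨v, u, Sym2.eq_swap, ?_, ?_⟩
            · apply hI
              intro hh
              apply hopt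
              refine ⟨?_, ?_⟩
              · rw [← hh]; exact huv.symm
              · rw [hh]; exact hy
            · apply hI
              intro hh
              apply hopt
              refine ⟨?_, ?_⟩
              · rw [hh]; exact fun h => hy h.symm
              · rw [← hh]; exact huv
  obtain ⟨n, hn1, hn2⟩ := gain3 μ hU hloopG hΔG (hbd y₁) (hbd y₂) hXG hXadm
  have hXpos : 0 < X.card := card_pos.mpr hXne
  have hn : 1 ≤ n := by
    rcases Nat.eq_zero_or_pos n with h | h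
    · rw [h, mul_zero] at hn1; omega
    · exact h
  have hs : G.card ≤ 6 * Δ ^ 3 * n := by
    have h1 := hp.hΔ
    have h2 : Δ ^ 2 ≤ Δ ^ 3 := Nat.pow_le_pow_right h1 (by norm_num)
    have h3 : G.card ≤ (1 + Δ) * X.card := by nlinarith only [hXcard, hXpos, h1]
    calc G.card ≤ (1 + Δ) * X.card := h3
      _ ≤ (1 + Δ) * (2 * Δ ^ 2 * n) := Nat.mul_le_mul_left _ hn1
      _ = (2 * Δ ^ 2 + 2 * Δ ^ 3) * n := by ring
      _ ≤ 6 * Δ ^ 3 * n := Nat.mul_le_mul_right _ (by omega)
  rw [← hw, hint, hint] at hn2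
  have key := hp.fin hU.one_le hU.pos.le (f₁ := 0) (f₂ := 0) (Fc := dd μ U) (Gc := dd μ U) hn hs
    rfl hn2 (by simp) (by simp) hD hD hD hD
  rw [← hcG]
  have h5 : (η * e ^ G.card) ^ 2 * (dd μ U * dd μ U) = (η * e ^ G.card * dd μ U) ^ 2 := by ring
  rw [h5] at key
  exact abs_le_of_sq_le_sq key
    (mul_nonneg (mul_nonneg hp.η0.le (pow_nonneg hp.e0.le _)) hD)

section lists

lemma countP_first_le {p : List V} {a b : V} (hnd : (a :: p ++ [b]).Nodup) :
    (pathEdges a p b).countP (fun e => a ∈ e) ≤ 1 := by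
  cases p with
  | nil => simp [pathEdges]
  | cons x p =>
    have h1 : (a :: (x :: p ++ [b])).Nodup := hnd
    have h2 := (List.nodup_cons.mp h1).1
    simp only [pathEdges, List.countP_cons]
    have h3 : (pathEdges x p b).countP (fun e => a ∈ e) = 0 := by
      rw [List.countP_eq_zero]
      intro e he hae
      exact h2 (mem_pathEdges_vertices he a (by simpa using hae))
    rw [h3]
    split_ifs <;> omega

lemma countP_last_le {p : List V} {a b : V} (hnd : (a :: p ++ [b]).Nodup) :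
    (pathEdges a p b).countP (fun e => b ∈ e) ≤ 1 := by
  induction p generalizing a with
  | nil => simp [pathEdges]
  | cons x p ih =>
    have h1 : (a :: (x :: p ++ [b])).Nodup := hnd
    have h2 := List.nodup_cons.mp h1
    simp only [pathEdges, List.countP_cons]
    have h3 := ih h2.2
    have h4 : ¬ b ∈ s(a, x) := by
      rw [Sym2.mem_iff, not_or]
      constructor
      · rintro rfl
        exact h2.1 (by simp)
      · rintro rfl
        have := (List.nodup_cons.mp h2.2).1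
        exact this (by simp)
    simp only [h4, decide_false, Bool.false_eq_true, if_false]
    omega

lemma dg_path {p : List V} {a b : V} (hnd : (a :: p ++ [b]).Nodup) (y : V) :
    dg (pathEdges a p b).toFinset y = (pathEdges a p b).countP (fun e => y ∈ e) := by
  unfold dg
  rw [List.countP_eq_length_filter, ← List.toFinset_card_of_nodup
    ((pathEdges_nodup hnd).filter _)]
  congr 1
  ext e
  simp [List.mem_toFinset]

lemma card_path_avoid {p : List V} {a b y : V} (hnd : (a :: p ++ [b]).Nodup)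
    (hy : y = a ∨ y = b ∨ y ∉ a :: p ++ [b]) :
    p.length ≤ (avoid (pathEdges a p b).toFinset {y}).card := by
  have h1 := card_split (pathEdges a p b).toFinset y
  rw [List.toFinset_card_of_nodup (pathEdges_nodup hnd), pathEdges_length, dg_path hnd] at h1
  have h2 : (pathEdges a p b).countP (fun e => y ∈ e) ≤ 1 := by
    rcases hy with rfl | rfl | hy
    · exact countP_first_le hnd
    · exact countP_last_le hnd
    · have : (pathEdges a p b).countP (fun e => y ∈ e) = 0 := by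
        rw [List.countP_eq_zero]
        intro e he hae
        exact hy (mem_pathEdges_vertices he y (by simpa using hae))
      omega
  omega

end lists

/-- one leaf, attached outside of `p` -/
theorem one_leaf_aux (hp : Par Δ B σ e η) (hU : Fine μ U B σ) {γ : Finset (Sym2 V)}
    (hloop : ∀ e ∈ γ, ¬ e.IsDiag) (hΔ : ∀ v, dg γ v ≤ Δ)
    (c : V → Bool) (hc : ∀ u v, s(u, v) ∈ γ → c u ≠ c v)
    {k : ℕ} {a b : V} {p q : List V} (h : CycPres γ k a b p q) (hs : Shortest γ k)
    {l y : V} (hly : l ≠ y) (hF : s(l, y) ∈ γ)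
    (hu : ∀ e ∈ γ, l ∈ e → e = s(l, y))
    (hcyc : s(l, y) ∉ pathEdges a p b ++ pathEdges b q a) (hyp : y ∉ p) {lam : ℝ}
    (hlam : 0 < lam) :
    |w μ U γ| ≤ η * e ^ (γ.card - 1 - k) * (1 / 2 * (lam * dd μ U + lam⁻¹ * ck μ U k)) := by
  obtain ⟨K1, n1, hK1, hw, hK1b, hcard, hn1, hind⟩ := rep_leaf μ hU.good h hly hF hu hcyc hyp
  set F' := γ.erase s(l, y) with hF'
  have hF'sub : F' ⊆ γ := erase_subset _ _
  have h' : CycPres F' k a b p q := h.mono hF'sub (by
    intro e he
    rw [hF', mem_erase]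
    exact ⟨fun hh => hcyc (hh ▸ he), h.sub e he⟩)
  set F1 := avoid F' p.toFinset with hF1
  have hF1sub : F1 ⊆ γ := (filter_subset _ _).trans hF'sub
  have hloop1 : ∀ e ∈ F1, ¬ e.IsDiag := fun e he => hloop e (hF1sub he)
  have hΔ1 : ∀ v, dg F1 v ≤ Δ := fun v => (dg_mono hF1sub v).trans (hΔ v)
  have hk := h.hk
  have hpl := h.hp
  have hql := h.hq
  have hbd : BM (fun x : V → Ω => degf μ U (x y)) :=
    (hU.good.bm_degf μ).comp (measurable_pi_apply y)
  have hI : ∀ u : V, u ≠ y → Ind u (fun x : V → Ω => degf μ U (x y)) := by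
    intro u huv x z
    simp only [Function.update_of_ne (Ne.symm huv)]
  have hD := dd_nonneg (U := U) μ
  have hCk := ck_nonneg (U := U) μ k
  have hint : ∫ x : V → Ω, (degf μ U (x y)) ^ 2 ∂(piM V μ) = dd μ U :=
    integral_eval μ y (g := fun s => degf μ U s ^ 2) ((hU.good.bm_degf μ).pow 2)
  -- vertices on which `K1` may depend
  set D : V → Prop := fun u => u = a ∨ u = b ∨ ∃ v ∈ p, u ≠ v ∧ s(v, u) ∈ γ with hDdef
  have hindD : ∀ u, ¬ D u → Ind u K1 := by
    intro u hu'
    simp only [hDdef, not_or, not_exists, not_and] at hu'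
    exact hind u hu'.1 hu'.2.1 (fun v hv huv => hu'.2.2 v hv huv)
  have hpq : ∀ u v, u ∈ q → v ∈ p → s(v, u) ∉ γ := by
    intro u v huq hvp hmem
    have h1 := h.chordless v (by simp [hvp]) u (by simp [huq]) hmem
    rw [List.mem_append] at h1
    rcases h1 with h1 | h1
    · have h2 := mem_pathEdges_vertices h1 u (by simp)
      simp only [List.cons_append, List.mem_cons, List.mem_append,
        List.not_mem_nil, or_false] at h2
      rcases h2 with h2 | h2 | h2
      · subst h2; exact h.a_notMem.2.2 huq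
      · exact h.pq_disj h2 huq
      · subst h2; exact h.b_notMem.2 huq
    · have h2 := mem_pathEdges_vertices h1 v (by simp)
      simp only [List.cons_append, List.mem_cons, List.mem_append,
        List.not_mem_nil, or_false] at h2
      rcases h2 with h2 | h2 | h2
      · subst h2; exact h.b_notMem.1 hvp
      · exact h.pq_disj hvp h2
      · subst h2; exact h.a_notMem.1 hvp
  have hDout : ∀ u, u ∉ p → D u → u = a ∨ u = b ∨ (u ∉ cv a b p q ∧ ∃ v ∈ p, s(v, u) ∈ γ) := by
    intro u hup hu'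
    rcases hu' with hu' | hu' | ⟨v, hv, _, hvu⟩
    · exact Or.inl hu'
    · exact Or.inr (Or.inl hu')
    · by_cases h1 : u = a
      · exact Or.inl h1
      by_cases h2 : u = b
      · exact Or.inr (Or.inl h2)
      refine Or.inr (Or.inr ⟨?_, v, hv, hvu⟩)
      rw [mem_cv]
      rintro (h3 | h3 | h3 | h3)
      · exact h1 h3
      · exact hup h3
      · exact h2 h3
      · exact hpq u v h3 hv hvu
  have hDD : ∀ u u', s(u, u') ∈ F1 → ¬ (D u ∧ D u') := by
    rintro u u' he ⟨h1, h2⟩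
    have heγ := hF1sub he
    have huu : u ≠ u' := fun hh => hloop _ heγ (by simp [hh])
    have hup : u ∉ p := fun hh => (mem_avoid.mp he).2 u (by simp) (List.mem_toFinset.mpr hh)
    have hup' : u' ∉ p := fun hh => (mem_avoid.mp he).2 u' (by simp) (List.mem_toFinset.mpr hh)
    rcases hDout u hup h1 with h3 | h3 | ⟨h3, v, hv, hvu⟩
    · rcases hDout u' hup' h2 with h4 | h4 | ⟨h4, v', hv', hvu'⟩
      · exact huu (h3.trans h4.symm)
      · subst h3; subst h4; exact noAB h heγ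
      · exact noAN h hs hloop c hc (Or.inl h3) h4 hv' hvu' heγ
    · rcases hDout u' hup' h2 with h4 | h4 | ⟨h4, v', hv', hvu'⟩
      · subst h3; subst h4; rw [Sym2.eq_swap] at heγ; exact noAB h heγ
      · exact huu (h3.trans h4.symm)
      · exact noAN h hs hloop c hc (Or.inr h3) h4 hv' hvu' heγ
    · rcases hDout u' hup' h2 with h4 | h4 | ⟨h4, v', hv', hvu'⟩
      · rw [Sym2.eq_swap] at heγ
        exact noAN h hs hloop c hc (Or.inl h4) h3 hv hvu heγ
      · rw [Sym2.eq_swap] at heγ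
        exact noAN h hs hloop c hc (Or.inr h4) h3 hv hvu heγ
      · exact noNN h hs hloop c hc h3 h4 hv hv' hvu hvu' heγ
  have hpathF1 : (pathEdges b q a).toFinset ⊆ F1 := by
    intro e he
    exact h'.sub2 e (List.mem_toFinset.mp he)
  -- the set of admissible edges
  obtain ⟨X, hXG, hXadm, hXk, hXcard⟩ : ∃ X ⊆ F1, 
      (∀ e ∈ X, ∃ p q, e = s(p, q) ∧ Ind q K1 ∧
        Ind p (fun x : V → Ω => degf μ U (x y))) ∧ k - 1 ≤ X.card ∧ F1.card ≤ X.card + Δ := by
    have hadm : ∀ u u', s(u, u') ∈ F1 → (u = y ∨ u' = y → ¬ D y) →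
        ∃ p q, s(u, u') = s(p, q) ∧ Ind q K1 ∧ Ind p (fun x : V → Ω => degf μ U (x y)) := by
      intro u u' he hyD
      have huu : u ≠ u' := fun hh => hloop1 _ he (by simp [hh])
      by_cases h1 : D u'
      · have h2 : ¬ D u := fun hh => hDD u u' he ⟨hh, h1⟩
        by_cases h3 : u' = y
        · exact absurd (h3 ▸ h1) (hyD (Or.inr h3))
        · exact ⟨u', u, Sym2.eq_swap, hindD u h2, hI u' h3⟩
      · by_cases h3 : u = y
        · refine ⟨u', u, Sym2.eq_swap, hindD u ?_, hI u' ?_⟩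
          · rw [h3]; exact hyD (Or.inl h3)
          · rw [← h3]; exact huu.symm
        · exact ⟨u, u', rfl, hindD u' h1, hI u h3⟩
    by_cases hyD : D y
    · refine ⟨avoid F1 {y}, filter_subset _ _, ?_, ?_, ?_⟩
      · intro e he
        rw [mem_avoid] at he
        induction e with
        | h u v =>
          have h1 := he.2 u (by simp)
          have h2 := he.2 v (by simp)
          rw [mem_singleton] at h1 h2
          exact hadm u v he.1 (by
            rintro (h3 | h3)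
            · exact absurd h3 h1
            · exact absurd h3 h2)
      · have h1 : y = b ∨ y = a ∨ y ∉ b :: q ++ [a] := by
          rcases hDout y hyp hyD with h2 | h2 | ⟨h2, _⟩
          · exact Or.inr (Or.inl h2)
          · exact Or.inl h2
          · refine Or.inr (Or.inr ?_)
            intro h3
            apply h2
            rw [mem_cv]
            simp only [List.cons_append, List.mem_cons, List.mem_append, 
              List.not_mem_nil, or_false] at h3
            (clear * - h3; tauto)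
        have h2 := card_path_avoid h.nd2 h1
        have h3 : avoid (pathEdges b q a).toFinset {y} ⊆ avoid F1 {y} := by
          intro e he
          rw [mem_avoid] at he ⊢
          exact ⟨hpathF1 he.1, he.2⟩
        have h4 := card_le_card h3
        omega
      · have h1 := card_sdiff_avoid hΔ1 {y}
        rw [card_singleton, mul_one] at h1
        have h2 : F1.card = (F1 \ avoid F1 {y}).card + (avoid F1 {y}).card :=
          (card_sdiff_add_card_eq_card (show avoid F1 {y} ⊆ F1 from filter_subset _ _)).symm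
        omega
    · refine ⟨F1, subset_refl _, ?_, ?_, by omega⟩
      · intro e he
        induction e with
        | h u v => exact hadm u v he (fun _ => hyD)
      · have h1 := card_le_card hpathF1
        rw [List.toFinset_card_of_nodup (pathEdges_nodup h.nd2), pathEdges_length] at h1
        omega
  obtain ⟨n, hn1', hn2⟩ := gain3 μ hU hloop1 hΔ1 hK1 hbd hXG hXadm
  have hXpos : 0 < X.card := by omega
  have hn : 1 ≤ n := by
    rcases Nat.eq_zero_or_pos n with h | h
    · rw [h, mul_zero] at hn1'; omega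
    · exact h
  have hn1le : n1 ≤ (k - 1) * Δ := by
    rw [hn1]
    have h1 : (p.map (fun v => (gam F' a b p v).card)).sum ≤
        (p.map (fun v => (gam F' a b p v).card)).length • Δ := by
      apply List.sum_le_card_nsmul
      intro x hx
      rw [List.mem_map] at hx
      obtain ⟨v, _, rfl⟩ := hx
      have h2 : gam F' a b p v ⊆ F'.filter (fun e => v ∈ e) := by
        intro e he
        simp only [gam, mem_filter] at he ⊢
        exact ⟨he.1, he.2.1⟩
      exact (card_le_card h2).trans ((dg_mono hF'sub v).trans (hΔ v))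
    rw [List.length_map, smul_eq_mul] at h1
    have h2 : p.length = k - 1 := by omega
    rw [h2] at h1
    exact h1
  have ht : γ.card - 1 - k = F1.card + n1 + 0 := by omega
  have hsle : γ.card - 1 - k ≤ 6 * Δ ^ 3 * n := by
    have h1 := hp.hΔ
    have h3 : γ.card - 1 - k ≤ (2 * Δ + 1) * X.card := by
      have h4 : (k - 1) * Δ ≤ X.card * Δ := Nat.mul_le_mul_right _ hXk
      have h5 : Δ ≤ X.card * Δ := Nat.le_mul_of_pos_left _ hXpos
      have h6 : (2 * Δ + 1) * X.card = X.card * Δ + X.card * Δ + X.card := by ring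
      omega
    calc γ.card - 1 - k ≤ (2 * Δ + 1) * X.card := h3
      _ ≤ (3 * Δ) * X.card := Nat.mul_le_mul_right _ (by omega)
      _ ≤ (3 * Δ) * (2 * Δ ^ 2 * n) := Nat.mul_le_mul_left _ hn1'
      _ = 6 * Δ ^ 3 * n := by ring
  rw [← hw, hint] at hn2
  have key := hp.fin hU.one_le hU.pos.le (f₁ := n1) (f₂ := 0) (Fc := ck μ U k) (Gc := dd μ U)
    hn hsle ht hn2 hK1b (by simp) (integral_nonneg fun _ => sq_nonneg _) hD hCk hD
  have h5 : (η * e ^ (γ.card - 1 - k)) ^ 2 * (ck μ U k * dd μ U) ≤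
      (η * e ^ (γ.card - 1 - k) * (1 / 2 * (lam * dd μ U + lam⁻¹ * ck μ U k))) ^ 2 := by
    rw [mul_pow (η * e ^ (γ.card - 1 - k))]
    apply mul_le_mul_of_nonneg_left _ (sq_nonneg _)
    have h6 : 0 ≤ (lam * dd μ U - lam⁻¹ * ck μ U k) ^ 2 := sq_nonneg _
    have h7 : lam * dd μ U * (lam⁻¹ * ck μ U k) = ck μ U k * dd μ U := by
      field_simp
    nlinarith only [h6, h7]
  have hlam' : 0 ≤ lam⁻¹ := inv_nonneg.mpr hlam.le
  refine abs_le_of_sq_le_sq (key.trans h5) ?_
  apply mul_nonneg (mul_nonneg hp.η0.le (pow_nonneg hp.e0.le _))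
  have h8 := mul_nonneg hlam.le hD
  have h9 := mul_nonneg hlam' hCk
  linarith only [h8, h9]

lemma cv_symm {a b : V} {p q : List V} : cv a b p q = cv b a q p := by
  ext u
  rw [mem_cv, mem_cv]
  (clear * -; tauto)

/-- one leaf -/
theorem one_leaf (hp : Par Δ B σ e η) (hU : Fine μ U B σ) {γ : Finset (Sym2 V)}
    (hloop : ∀ e ∈ γ, ¬ e.IsDiag) (hΔ : ∀ v, dg γ v ≤ Δ)
    (c : V → Bool) (hc : ∀ u v, s(u, v) ∈ γ → c u ≠ c v)
    {k : ℕ} {a b : V} {p q : List V} (h : CycPres γ k a b p q) (hs : Shortest γ k)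
    {l y : V} (hly : l ≠ y) (hF : s(l, y) ∈ γ)
    (hu : ∀ e ∈ γ, l ∈ e → e = s(l, y))
    (hcyc : s(l, y) ∉ pathEdges a p b ++ pathEdges b q a) {lam : ℝ}
    (hlam : 0 < lam) :
    |w μ U γ| ≤ η * e ^ (γ.card - 1 - k) * (1 / 2 * (lam * dd μ U + lam⁻¹ * ck μ U k)) := by
  by_cases hyp : y ∈ p
  · refine one_leaf_aux μ hp hU hloop hΔ c hc h.symm hs hly hF hu ?_ (h.pq_disj hyp) hlam
    simp only [List.mem_append] at hcyc ⊢
    (clear * - hcyc; tauto)
  · exact one_leaf_aux μ hp hU hloop hΔ c hc h hs hly hF hu hcyc hyp hlam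

end Vale.Agent.P050.Loc
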