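import Vale.Agent.P050.Cut.Mixed

set_option linter.all false

/-!
Bounds for the densities of connected edge sets without leaves.
-/

open MeasureTheory Finset

namespace Vale.Agent.P050.Loc

open Vale.Agent.P050

variable {V : Type*} [Fintype V] [DecidableEq V] {Ω : Type*} [MeasurableSpace Ω]
variable {U : Sym2 Ω → ℝ} {B σ e η : ℝ} {Δ : ℕ}
variable (μ : Measure Ω) [IsProbabilityMeasure μ]

/-- most edges avoid a shortest cycle -/
lemma card_outside {γ : Finset (Sym2 V)} (hloop : ∀ e ∈ γ, ¬ e.IsDiag)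
    {k : ℕ} {a b : V} {p q : List V} (h : CycPres γ k a b p q) (hs : Shortest γ k) (hk : 3 ≤ k)
    (hnl : ∀ v, dg γ v ≠ 1) : γ.card ≤ 2 * k + 3 * (avoid γ (cv a b p q)).card := by
  set C := cv a b p q with hC
  set X := avoid γ C with hX
  set Y := (γ \ X) \ cycEdges a b p q with hY
  have hYm : ∀ e, e ∈ Y ↔ e ∈ γ ∧ e ∉ cycEdges a b p q ∧ ∃ z ∈ C, z ∈ e := by
    intro e
    rw [hY, mem_sdiff, mem_sdiff, hX, mem_avoid]
    constructor
    · rintro ⟨⟨h1, h2⟩, h3⟩
      refine ⟨h1, h3, ?_⟩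
      by_contra hcon
      push Not at hcon
      exact h2 ⟨h1, fun v hv hvC => hcon v hvC hv⟩
    · rintro ⟨h1, h2, z, hz, hze⟩
      exact ⟨⟨h1, fun hh => hh.2 z hze hz⟩, h2⟩
  have hsub1 : X ⊆ γ := filter_subset _ _
  have h1 : γ.card = (γ \ X).card + X.card := (card_sdiff_add_card_eq_card hsub1).symm
  have h2 : (γ \ X).card ≤ Y.card + (cycEdges a b p q).card := by
    rw [hY]
    have := le_card_sdiff (cycEdges a b p q) (γ \ X)
    omega
  have hcyc := h.card_cycEdges
  -- an edge of `Y` at an outer vertex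
  have hYu : ∀ u, u ∉ C → (Y.filter (fun e => u ∈ e)).card ≤ 1 := by
    intro u hu
    rw [card_le_one]
    intro e he e' he'
    rw [mem_filter, hYm] at he he'
    obtain ⟨⟨h3, _, z, hz, hze⟩, hue⟩ := he
    obtain ⟨⟨h3', _, z', hz', hze'⟩, hue'⟩ := he'
    have huz : u ≠ z := fun hh => hu (hh ▸ hz)
    have huz' : u ≠ z' := fun hh => hu (hh ▸ hz')
    have e1 : e = s(u, z) := (Sym2.mem_and_mem_iff huz).mp ⟨hue, hze⟩
    have e2 : e' = s(u, z') := (Sym2.mem_and_mem_iff huz').mp ⟨hue', hze'⟩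
    have := outside_one h hs hloop hk hu hz hz' (e1 ▸ h3) (e2 ▸ h3')
    rw [e1, e2, this]
  have hYO : Y.card ≤ (supp X).card := by
    have h3 : Y ⊆ (supp X).biUnion (fun u => (Y.filter (fun e => u ∈ e)).filter
        (fun _ => u ∉ C)) := by
      intro e he
      obtain ⟨h4, h5, z, hz, hze⟩ := (hYm e).mp he
      obtain ⟨u, rfl⟩ := Sym2.mem_iff_exists.mp hze
      have hu : u ∉ C := by
        intro huC
        have h6 := h.chordless z (cv_mem hz) u (cv_mem huC) h4
        exact h5 (List.mem_toFinset.mpr h6)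
      rw [mem_biUnion]
      refine ⟨u, ?_, ?_⟩
      · -- `u` has another edge
        have hus : u ∈ supp γ := mem_supp.mpr ⟨_, h4, by simp⟩
        have hd := dg_pos hus
        have hd1 := hnl u
        by_contra hcon
        have h7 : γ.filter (fun e => u ∈ e) ⊆ Y.filter (fun e => u ∈ e) := by
          intro e' he'
          rw [mem_filter] at he' ⊢
          refine ⟨?_, he'.2⟩
          rw [hYm]
          refine ⟨he'.1, notMem_cyc h hu he'.2, ?_⟩
          by_contra hcon2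
          push Not at hcon2
          apply hcon
          rw [mem_supp]
          refine ⟨e', ?_, he'.2⟩
          rw [hX, mem_avoid]
          exact ⟨he'.1, fun v hv hvC => hcon2 v hvC hv⟩
        have h8 := card_le_card h7
        have h9 := hYu u hu
        unfold dg at hd hd1
        omega
      · rw [mem_filter, mem_filter]
        exact ⟨⟨he, by simp⟩, hu⟩
    refine (card_le_card h3).trans (card_biUnion_le.trans ?_)
    calc ∑ u ∈ supp X, ((Y.filter (fun e => u ∈ e)).filter (fun _ => u ∉ C)).card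
        ≤ ∑ _u ∈ supp X, 1 := by
          apply sum_le_sum
          intro u _
          by_cases hu : u ∈ C
          · simp [hu]
          · exact (card_le_card (filter_subset _ _)).trans (hYu u hu)
      _ = (supp X).card := by simp
  have h3 := card_supp_le X
  omega

/-- no leaf, girth at least six, not a cycle -/
theorem no_leaf_big (hp : Par Δ B σ e η) (hU : Fine μ U B σ) {γ : Finset (Sym2 V)}
    (hloop : ∀ e ∈ γ, ¬ e.IsDiag) (hΔ : ∀ v, dg γ v ≤ Δ)
    (c : V → Bool) (hc : ∀ u v, s(u, v) ∈ γ → c u ≠ c v)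
    {k : ℕ} {a b : V} {p q : List V} (h : CycPres γ k a b p q) (hs : Shortest γ k) (hk : 3 ≤ k)
    (hnl : ∀ v, dg γ v ≠ 1) (h3k : 3 * k ≤ γ.card) :
    |w μ U γ| ≤ η * e ^ (γ.card - 2 * k) * ck μ U k := by
  obtain ⟨K1, K2, n1, n2, hK1, hK2, hw, hK1b, hK2b, hcard, hind1, hind2⟩ :=
    rep_cyc μ hU.good h
  set F2 := avoid (avoid γ p.toFinset) q.toFinset with hF2
  have hF2sub : F2 ⊆ γ := (filter_subset _ _).trans (filter_subset _ _)
  have hloop2 : ∀ e ∈ F2, ¬ e.IsDiag := fun e he => hloop e (hF2sub he)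
  have hΔ2 : ∀ v, dg F2 v ≤ Δ := fun v => (dg_mono hF2sub v).trans (hΔ v)
  have hCk := ck_nonneg (U := U) μ k
  have hout := card_outside hloop h hs hk hnl
  set X := avoid γ (cv a b p q) with hX
  have hXF : X ⊆ F2 := by
    intro e he
    rw [hX, mem_avoid] at he
    rw [hF2, mem_avoid, mem_avoid]
    refine ⟨⟨he.1, ?_⟩, ?_⟩
    · intro v hv hvp
      exact he.2 v hv (mem_cv.mpr (Or.inr (Or.inl (List.mem_toFinset.mp hvp))))
    · intro v hv hvp
      exact he.2 v hv (mem_cv.mpr (Or.inr (Or.inr (Or.inr (List.mem_toFinset.mp hvp)))))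
  have hcva : a ∈ cv a b p q := mem_cv.mpr (Or.inl rfl)
  have hcvb : b ∈ cv a b p q := mem_cv.mpr (Or.inr (Or.inr (Or.inl rfl)))
  have hadm : ∀ e ∈ X, ∃ p q, e = s(p, q) ∧ Ind q K1 ∧ Ind p K2 := by
    intro e he
    have heX := he
    rw [hX, mem_avoid] at he
    induction e with
    | h u u' =>
      have heγ := he.1
      have hu : u ∉ cv a b p q := he.2 u (by simp)
      have hu' : u' ∉ cv a b p q := he.2 u' (by simp)
      have heγ' : s(u', u) ∈ γ := by rw [Sym2.eq_swap]; exact heγ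
      have k1 : ∀ x, x ∉ cv a b p q → (¬ ∃ v ∈ p, s(v, x) ∈ γ) → Ind x K1 := by
        intro x hx hno
        push Not at hno
        exact hind1 x (fun hh => hx (hh ▸ hcva)) (fun hh => hx (hh ▸ hcvb))
          (fun v hv _ => hno v hv)
      have k2 : ∀ x, x ∉ cv a b p q → (¬ ∃ v ∈ q, s(v, x) ∈ γ) → Ind x K2 := by
        intro x hx hno
        push Not at hno
        exact hind2 x (fun hh => hx (hh ▸ hcva)) (fun hh => hx (hh ▸ hcvb))
          (fun v hv _ => hno v hv)
      have k3 : ∀ x, x ∉ cv a b p q → (∃ v ∈ p, s(v, x) ∈ γ) → (∃ v ∈ q, s(v, x) ∈ γ) →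
          False := by
        rintro x hx ⟨v, hv, hvx⟩ ⟨v', hv', hvx'⟩
        rw [Sym2.eq_swap] at hvx hvx'
        have h5 := outside_one h hs hloop hk hx (mem_cv.mpr (Or.inr (Or.inl hv)))
          (mem_cv.mpr (Or.inr (Or.inr (Or.inr hv')))) hvx hvx'
        subst h5
        exact h.pq_disj hv hv'
      have hcs : cv a b p q = cv b a q p := cv_symm
      by_cases hopt : (¬ ∃ v ∈ p, s(v, u') ∈ γ) ∧ (¬ ∃ v ∈ q, s(v, u) ∈ γ)
      · exact ⟨u, u', rfl, k1 u' hu' hopt.1, k2 u hu hopt.2⟩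
      · refine ⟨u', u, Sym2.eq_swap, k1 u hu ?_, k2 u' hu' ?_⟩
        · intro hpu
          apply hopt
          refine ⟨?_, fun hqu => k3 u hu hpu hqu⟩
          rintro ⟨v', hv', hvx'⟩
          obtain ⟨v, hv, hvx⟩ := hpu
          exact noNN h hs hloop c hc hu hu' hv hv' hvx hvx' heγ
        · intro hqu'
          apply hopt
          refine ⟨fun hpu' => k3 u' hu' hpu' hqu', ?_⟩
          rintro ⟨v, hv, hvx⟩
          obtain ⟨v', hv', hvx'⟩ := hqu'
          rw [hcs] at hu hu'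
          exact noNN h.symm hs hloop c hc hu hu' hv hv' hvx hvx' heγ
  obtain ⟨n, hn1, hn2⟩ := gain3 μ hU hloop2 hΔ2 hK1 hK2 hXF hadm
  have hXpos : 0 < X.card := by omega
  have hn : 1 ≤ n := by
    rcases Nat.eq_zero_or_pos n with h | h
    · rw [h, mul_zero] at hn1; omega
    · exact h
  have ht : γ.card - 2 * k = F2.card + n1 + n2 := by omega
  have hsle : γ.card - 2 * k ≤ 6 * Δ ^ 3 * n := by
    have h1 := hp.hΔ
    have h2 : Δ ^ 2 ≤ Δ ^ 3 := Nat.pow_le_pow_right h1 (by norm_num)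
    calc γ.card - 2 * k ≤ 3 * X.card := by omega
      _ ≤ 3 * (2 * Δ ^ 2 * n) := Nat.mul_le_mul_left _ hn1
      _ = 6 * Δ ^ 2 * n := by ring
      _ ≤ 6 * Δ ^ 3 * n := Nat.mul_le_mul_right _ (by omega)
  rw [← hw] at hn2
  have key := hp.fin hU.one_le hU.pos.le (f₁ := n1) (f₂ := n2) (Fc := ck μ U k)
    (Gc := ck μ U k) hn hsle ht hn2 hK1b hK2b (integral_nonneg fun _ => sq_nonneg _)
    (integral_nonneg fun _ => sq_nonneg _) hCk hCk
  have h5 : (η * e ^ (γ.card - 2 * k)) ^ 2 * (ck μ U k * ck μ U k) =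
      (η * e ^ (γ.card - 2 * k) * ck μ U k) ^ 2 := by ring
  rw [h5] at key
  exact abs_le_of_sq_le_sq key
    (mul_nonneg (mul_nonneg hp.η0.le (pow_nonneg hp.e0.le _)) hCk)

/-- no leaf, not complete bipartite -/
theorem no_leaf_small (hp : Par Δ B σ e η) (hU : Fine μ U B σ) {γ : Finset (Sym2 V)}
    (hloop : ∀ e ∈ γ, ¬ e.IsDiag) (hΔ : ∀ v, dg γ v ≤ Δ) (hconn : Conn γ)
    (c : V → Bool) (hc : ∀ u v, s(u, v) ∈ γ → c u ≠ c v) (hnl : ∀ v, dg γ v ≠ 1)
    {a b : V} (ha : a ∈ supp γ) (hb : b ∈ supp γ) (hab : c a ≠ c b) (hnadj : s(a, b) ∉ γ) :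
    |w μ U γ| ≤ η * e ^ (γ.card - 2 * 2) * ck μ U 2 := by
  have hne : a ≠ b := fun h => hab (by rw [h])
  obtain ⟨hw, hcard⟩ := rep_pair μ hU.good hloop hne hnadj
  set Γ := avoid γ {a, b} with hΓ
  have hΓsub : Γ ⊆ γ := filter_subset _ _
  have hloopΓ : ∀ e ∈ Γ, ¬ e.IsDiag := fun e he => hloop e (hΓsub he)
  have hΔΓ : ∀ v, dg Γ v ≤ Δ := fun v => (dg_mono hΓsub v).trans (hΔ v)
  have hCk := ck_nonneg (U := U) μ 2
  have hda : 2 ≤ dg γ a := by
    have h1 := dg_pos ha
    have h2 := hnl a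
    omega
  have hdb : 2 ≤ dg γ b := by
    have h1 := dg_pos hb
    have h2 := hnl b
    omega
  -- there is an edge avoiding both vertices
  have hΓne : Γ.Nonempty := by
    set Ca := γ.filter (fun e => a ∈ e) with hCa
    obtain ⟨ea, hea, hae⟩ := mem_supp.mp ha
    obtain ⟨eb, heb, hbe⟩ := mem_supp.mp hb
    have hCaγ : Ca ⊆ γ := filter_subset _ _
    obtain ⟨e, he, heC, u, hu, hue⟩ := exists_touch hconn hCaγ
      ⟨ea, mem_filter.mpr ⟨hea, hae⟩⟩ (by
        intro hh
        have h1 : eb ∈ Ca := by rw [hh]; exact heb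
        rw [hCa, mem_filter] at h1
        have h2 : eb = s(a, b) := (Sym2.mem_and_mem_iff hne).mp ⟨h1.2, hbe⟩
        exact hnadj (h2 ▸ heb))
    have hane : a ∉ e := fun hh => heC (mem_filter.mpr ⟨he, hh⟩)
    refine ⟨e, ?_⟩
    rw [hΓ, mem_avoid]
    refine ⟨he, ?_⟩
    intro v hv hvab
    rw [mem_insert, mem_singleton] at hvab
    rcases hvab with rfl | rfl
    · exact hane hv
    · -- `e` contains `v = b` and `u`
      obtain ⟨e', he', hue'⟩ := mem_supp.mp hu
      rw [hCa, mem_filter] at he'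
      have hua : a ≠ u := fun hh => hane (hh ▸ hue)
      have h1 : e' = s(a, u) := (Sym2.mem_and_mem_iff hua).mp ⟨he'.2, hue'⟩
      have h2 : s(a, u) ∈ γ := h1 ▸ he'.1
      have c1 := hc _ _ h2
      have huv : u ≠ v := by
        rintro rfl
        exact hnadj h2
      have h3 : e = s(u, v) := (Sym2.mem_and_mem_iff huv).mp ⟨hue, hv⟩
      have c2 := hc _ _ (h3 ▸ he)
      revert c1 c2 hab
      cases c a <;> cases c u <;> cases c v <;> simp
  have hadm : ∀ e ∈ Γ, ∃ p q, e = s(p, q) ∧ Ind q (uS μ U (nb γ b)) ∧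
      Ind p (uS μ U (nb γ a)) := by
    intro e he
    have heγ := hΓsub he
    induction e with
    | h u v =>
      have key : ∀ u v, s(u, v) ∈ γ → c u = c a → Ind v (uS μ U (nb γ b)) ∧
          Ind u (uS μ U (nb γ a)) := by
        intro u v huv hcu
        have c1 := hc _ _ huv
        constructor
        · apply uS_ind
          rw [mem_nb]
          intro hbv
          have c2 := hc _ _ hbv
          revert c1 c2 hab hcu
          cases c a <;> cases c u <;> cases c v <;> cases c b <;> simp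
        · apply uS_ind
          rw [mem_nb]
          intro hau
          have c2 := hc _ _ hau
          exact c2 hcu.symm
      by_cases hcu : c u = c a
      · obtain ⟨h1, h2⟩ := key u v heγ hcu
        exact ⟨u, v, rfl, h1, h2⟩
      · have hcv : c v = c a := by
          have c1 := hc _ _ heγ
          revert c1 hcu
          cases c a <;> cases c u <;> cases c v <;> simp
        obtain ⟨h1, h2⟩ := key v u (by rw [Sym2.eq_swap]; exact heγ) hcv
        exact ⟨v, u, Sym2.eq_swap, h1, h2⟩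
  obtain ⟨n, hn1, hn2⟩ := gain3 μ hU hloopΓ hΔΓ (bm_uS μ hU.good (nb γ b))
    (bm_uS μ hU.good (nb γ a)) (subset_refl Γ) hadm
  have hΓpos : 0 < Γ.card := card_pos.mpr hΓne
  have hn : 1 ≤ n := by
    rcases Nat.eq_zero_or_pos n with h | h
    · rw [h, mul_zero] at hn1; omega
    · exact h
  have ht : γ.card - 2 * 2 = Γ.card + (dg γ b - 2) + (dg γ a - 2) := by omega
  have hsle : γ.card - 2 * 2 ≤ 6 * Δ ^ 3 * n := by
    have h1 := hp.hΔ
    have h2 := hΔ a
    have h3 := hΔ b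
    have h4 : γ.card ≤ (3 * Δ) * Γ.card := by nlinarith only [hcard, h2, h3, h1, hΓpos]
    calc γ.card - 2 * 2 ≤ (3 * Δ) * Γ.card := by omega
      _ ≤ (3 * Δ) * (2 * Δ ^ 2 * n) := Nat.mul_le_mul_left _ hn1
      _ = 6 * Δ ^ 3 * n := by ring
  rw [← hw] at hn2
  have hq1 := qS_le μ hU.good (S := nb γ b) (by rw [card_nb]; exact hdb)
  have hq2 := qS_le μ hU.good (S := nb γ a) (by rw [card_nb]; exact hda)
  rw [card_nb] at hq1 hq2
  have key := hp.fin hU.one_le hU.pos.le (f₁ := dg γ b - 2) (f₂ := dg γ a - 2)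
    (Fc := ck μ U 2) (Gc := ck μ U 2) hn hsle ht hn2 hq1 hq2
    (integral_nonneg fun _ => sq_nonneg _) (integral_nonneg fun _ => sq_nonneg _) hCk hCk
  have h5 : (η * e ^ (γ.card - 2 * 2)) ^ 2 * (ck μ U 2 * ck μ U 2) =
      (η * e ^ (γ.card - 2 * 2) * ck μ U 2) ^ 2 := by ring
  rw [h5] at key
  exact abs_le_of_sq_le_sq key
    (mul_nonneg (mul_nonneg hp.η0.le (pow_nonneg hp.e0.le _)) hCk)

end Vale.Agent.P050.Loc
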