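import Vale.Agent.P050.Bdl.B1

set_option linter.all false

/-!
Gains from an induced matching.
-/

open MeasureTheory Finset

namespace Vale.Agent.P050.Loc

open Vale.Agent.P050

lemma cs {X : Type*} [MeasurableSpace X] (ν : Measure X) [IsProbabilityMeasure ν]
    {f g : X → ℝ} (hf : BM f) (hg : BM g) :
    (∫ p, f p * g p ∂ν) ^ 2 ≤ (∫ p, f p ^ 2 ∂ν) * ∫ p, g p ^ 2 ∂ν := by
  set A := ∫ p, f p ^ 2 ∂ν with hA
  set B := ∫ p, g p ^ 2 ∂ν with hB
  set C := ∫ p, f p * g p ∂ν with hC
  have hA0 : 0 ≤ A := integral_nonneg fun _ => sq_nonneg _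
  have hB0 : 0 ≤ B := integral_nonneg fun _ => sq_nonneg _
  have key : ∀ t : ℝ, 0 ≤ t ^ 2 * A + 2 * t * C + B := by
    intro t
    have h1 : 0 ≤ ∫ p, (t * f p + g p) ^ 2 ∂ν := integral_nonneg fun _ => sq_nonneg _
    have h2 : ∀ p, (t * f p + g p) ^ 2 = t ^ 2 * f p ^ 2 + (2 * t) * (f p * g p) + g p ^ 2 := by
      intro p; ring
    simp only [h2] at h1
    rw [integral_add, integral_add, integral_const_mul, integral_const_mul] at h1
    · exact h1
    · exact ((BM.const _).mul (hf.pow 2)).integrable _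
    · exact ((BM.const _).mul (hf.mul hg)).integrable _
    · exact (((BM.const _).mul (hf.pow 2)).add ((BM.const _).mul (hf.mul hg))).integrable _
    · exact (hg.pow 2).integrable _
  by_cases hA1 : A = 0
  · rw [hA1] at key ⊢
    have hC0 : C = 0 := by
      by_contra hne
      have h3 := key (-(B + 1) / (2 * C))
      have h4 : 2 * (-(B + 1) / (2 * C)) * C = -(B + 1) := by (clear * - hne hB0; field_simp)
      rw [h4] at h3
      linarith only [h3]
    rw [hC0]; simp
  · have hApos : 0 < A := lt_of_le_of_ne hA0 (Ne.symm hA1)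
    have h3 := key (-C / A)
    have h4 : (-C / A) ^ 2 * A + 2 * (-C / A) * C + B = B - C ^ 2 / A := by
      field_simp; ring
    rw [h4] at h3
    have h5 : C ^ 2 / A ≤ B := by linarith only [h3]
    rw [div_le_iff₀ hApos] at h5
    linarith only [h5]

variable {V : Type*} [Fintype V] [DecidableEq V] {Ω : Type*} [MeasurableSpace Ω]
variable {U : Sym2 Ω → ℝ} {B σ : ℝ}
variable (μ : Measure Ω) [IsProbabilityMeasure μ]

/-- standing assumptions: the perturbation is bounded by `B`, at least `-1`, and small as an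
operator -/
structure Fine (U : Sym2 Ω → ℝ) (B σ : ℝ) : Prop where
  good : Good U B
  one_le : 1 ≤ B
  lo : ∀ s, -1 ≤ U s
  pos : 0 < σ
  op : ∀ h : Ω → ℝ, BM h → ∫ s, (∫ t, two U s t * h t ∂μ) ^ 2 ∂μ ≤ σ ^ 2 * ∫ t, h t ^ 2 ∂μ

/-- `m` and `m'` are far apart in `Γ` -/
def Far (Γ : Finset (Sym2 V)) (m m' : V × V) : Prop :=
  ∀ u ∈ s(m.1, m.2), ∀ v ∈ s(m'.1, m'.2), u ≠ v ∧ s(u, v) ∉ Γ

lemma Far.symm {Γ : Finset (Sym2 V)} {m m' : V × V} (h : Far Γ m m') : Far Γ m' m := by
  intro u hu v hv
  have := h v hv u hu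
  exact ⟨this.1.symm, by rw [Sym2.eq_swap]; exact this.2⟩

section bm

lemma bm_upd (v : V) {f : (V → Ω) → ℝ} (hf : BM f) :
    BM (fun p : (V → Ω) × Ω => f (Function.update p.1 v p.2)) :=
  hf.comp (measurable_upd v)

end bm

/-- one step of the gain -/
lemma gain_step (hU : Fine μ U B σ) {p q : V} (hpq : p ≠ q) {f : (V → Ω) → ℝ} (hf : BM f)
    (hfq : Ind q f) :
    BM (fun x : V → Ω => ∫ y, U s(x q, y) * f (Function.update x p y) ∂μ) ∧
    ∫ x, (∫ y, U s(x q, y) * f (Function.update x p y) ∂μ) ^ 2 ∂(piM V μ) ≤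
      σ ^ 2 * ∫ x, f x ^ 2 ∂(piM V μ) := by
  have h1 : BM (fun r : (V → Ω) × Ω => U s(r.1 q, r.2) * f (Function.update r.1 p r.2)) := by
    have e1 : BM (fun r : (V → Ω) × Ω => two U (r.1 q) r.2) :=
      hU.good.bm_two.comp (g := fun r : (V → Ω) × Ω => (r.1 q, r.2))
        (((measurable_pi_apply q).comp measurable_fst).prodMk measurable_snd)
    exact e1.mul (bm_upd p hf)
  have h2 := h1.integral_right μ
  refine ⟨h2, ?_⟩
  rw [integral_update μ q (h2.pow 2)]
  have h3 : ∀ x : V → Ω, ∀ z y, f (Function.update (Function.update x q z) p y) =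
      f (Function.update x p y) := by
    intro x z y
    rw [Function.update_comm (Ne.symm hpq)]
    exact hfq _ _
  simp only [h3, Function.update_self]
  rw [integral_update μ p (hf.pow 2), ← integral_const_mul]
  have h4 : ∀ x : V → Ω, BM (fun y => f (Function.update x p y)) := fun x =>
    (bm_upd p hf).comp (g := fun y : Ω => (x, y)) measurable_prodMk_left
  apply integral_mono
  · have h5 : BM (fun r : ((V → Ω) × Ω) × Ω =>
        U s(r.1.2, r.2) * f (Function.update r.1.1 p r.2)) := by
      have e1 : BM (fun r : ((V → Ω) × Ω) × Ω => two U r.1.2 r.2) :=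
        hU.good.bm_two.comp (g := fun r : ((V → Ω) × Ω) × Ω => (r.1.2, r.2)) (by fun_prop)
      have e2 : BM (fun r : ((V → Ω) × Ω) × Ω => f (Function.update r.1.1 p r.2)) :=
        (bm_upd p hf).comp (g := fun r : ((V → Ω) × Ω) × Ω => (r.1.1, r.2)) (by fun_prop)
      exact e1.mul e2
    exact (((h5.integral_right μ).pow 2).integral_right μ).integrable _
  · exact (((BM.const _).mul (((bm_upd p hf).pow 2).integral_right μ))).integrable _
  · intro x
    exact hU.op _ (h4 x)

/-- gain from a matching -/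
theorem gain (hU : Fine μ U B σ) : ∀ (M : List (V × V)) (f g : (V → Ω) → ℝ), BM f → BM g →
    (∀ m ∈ M, m.1 ≠ m.2) → (∀ m ∈ M, Ind m.2 f) → (∀ m ∈ M, Ind m.1 g) →
    M.Pairwise (Far ∅) →
    (∫ x, f x * g x * (M.map (fun m => U s(x m.1, x m.2))).prod ∂(piM V μ)) ^ 2 ≤
      (σ ^ 2) ^ M.length * ((∫ x, f x ^ 2 ∂(piM V μ)) * ∫ x, g x ^ 2 ∂(piM V μ)) := by
  intro M
  induction M with
  | nil =>
    intro f g hf hg _ _ _ _
    simpa using cs (piM V μ) hf hg
  | cons m M ih =>
    obtain ⟨p, q⟩ := m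
    intro f g hf hg hne hfi hgi hfar
    rw [List.pairwise_cons] at hfar
    have hpq : p ≠ q := hne (p, q) List.mem_cons_self
    have hfq : Ind q f := hfi (p, q) List.mem_cons_self
    have hgp : Ind p g := hgi (p, q) List.mem_cons_self
    obtain ⟨hf1, hf1le⟩ := gain_step μ hU hpq hf hfq
    set f1 : (V → Ω) → ℝ := fun x => ∫ y, U s(x q, y) * f (Function.update x p y) ∂μ with hf1def
    have hd : ∀ m ∈ M, m.1 ≠ p ∧ m.2 ≠ p ∧ m.1 ≠ q ∧ m.2 ≠ q := by
      intro m hm
      have h := hfar.1 m hm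
      refine ⟨?_, ?_, ?_, ?_⟩
      · exact fun e => (h p (by simp) m.1 (by simp)).1 e.symm
      · exact fun e => (h p (by simp) m.2 (by simp)).1 e.symm
      · exact fun e => (h q (by simp) m.1 (by simp)).1 e.symm
      · exact fun e => (h q (by simp) m.2 (by simp)).1 e.symm
    set R : (V → Ω) → ℝ := fun x => (M.map (fun m => U s(x m.1, x m.2))).prod with hR
    have hRp : Ind p R := by
      intro x y
      simp only [hR]
      congr 1
      apply List.map_congr_left
      intro m hm
      obtain ⟨h1, h2, _, _⟩ := hd m hm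
      rw [Function.update_of_ne h1, Function.update_of_ne h2]
    have hRbm : BM R := by
      have : ∀ M : List (V × V), BM (fun x : V → Ω => (M.map (fun m => U s(x m.1, x m.2))).prod) := by
        intro M
        induction M with
        | nil => simpa using BM.const (X := V → Ω) 1
        | cons m M ih =>
          have h1 : BM (fun x : V → Ω => U s(x m.1, x m.2)) := by
            have := hU.good.bm_edge (V := V) s(m.1, m.2)
            simpa using this
          simpa [List.map_cons, List.prod_cons] using h1.mul ih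
      exact this M
    have e1 : ∫ x, f x * g x * (((p, q) :: M).map (fun m => U s(x m.1, x m.2))).prod ∂(piM V μ)
        = ∫ x, f1 x * g x * R x ∂(piM V μ) := by
      have hE : BM (fun x : V → Ω => U s(x p, x q)) := by
        have := hU.good.bm_edge (V := V) s(p, q)
        simpa using this
      have h1 : ∀ x : V → Ω, f x * g x * (((p, q) :: M).map (fun m => U s(x m.1, x m.2))).prod =
          U s(x p, x q) * f x * (g x * R x) := by
        intro x
        simp only [List.map_cons, List.prod_cons, hR]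
        ring
      simp only [h1]
      rw [integral_update μ p ((hE.mul hf).mul (hg.mul hRbm))]
      congr 1
      ext x
      have h2 : ∀ y, g (Function.update x p y) = g x := fun y => hgp x y
      have h3 : ∀ y, R (Function.update x p y) = R x := fun y => hRp x y
      simp only [h2, h3, Function.update_self, Function.update_of_ne (Ne.symm hpq)]
      rw [integral_mul_const, mul_assoc, hf1def]
      congr 1
      congr 1
      ext y
      rw [Sym2.eq_swap]
    rw [e1]
    have h5 := ih f1 g hf1 hg (fun m hm => hne m (List.mem_cons_of_mem _ hm)) (by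
        intro m hm x z
        obtain ⟨_, h2, _, h4⟩ := hd m hm
        simp only [hf1def, Function.update_of_ne (Ne.symm h4)]
        congr 1
        ext y
        congr 1
        rw [Function.update_comm h2]
        exact hfi m (List.mem_cons_of_mem _ hm) _ _)
      (fun m hm => hgi m (List.mem_cons_of_mem _ hm)) hfar.2
    refine h5.trans ?_
    have hg0 : 0 ≤ ∫ x, g x ^ 2 ∂(piM V μ) := integral_nonneg fun _ => sq_nonneg _
    have h6 : (∫ x, f1 x ^ 2 ∂(piM V μ)) * ∫ x, g x ^ 2 ∂(piM V μ) ≤
        (σ ^ 2 * ∫ x, f x ^ 2 ∂(piM V μ)) * ∫ x, g x ^ 2 ∂(piM V μ) :=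
      mul_le_mul_of_nonneg_right hf1le hg0
    calc (σ ^ 2) ^ M.length * ((∫ x, f1 x ^ 2 ∂(piM V μ)) * ∫ x, g x ^ 2 ∂(piM V μ))
        ≤ (σ ^ 2) ^ M.length * ((σ ^ 2 * ∫ x, f x ^ 2 ∂(piM V μ)) *
            ∫ x, g x ^ 2 ∂(piM V μ)) :=
          mul_le_mul_of_nonneg_left h6 (pow_nonneg (sq_nonneg _) _)
      _ = _ := by
          rw [List.length_cons, pow_succ]; ring

end Vale.Agent.P050.Loc
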