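import Vale.Agent.P050.Cut.CutOp

set_option linter.all false

/-!
Choice of the parameters.
-/

open MeasureTheory Finset

namespace Vale.Agent.P050.Loc

open Vale.Agent.P050

lemma num_of {Δ : ℕ} (hΔ : 1 ≤ Δ) {B : ℝ} (hB : 1 ≤ B) :
    Num Δ B ((1 / (24 * Δ * B)) ^ (12 * Δ ^ 3)) (1 / (24 * Δ))
      ((1 / (24 * Δ * B)) ^ (6 * Δ ^ 3)) := by
  have hΔ' : (1:ℝ) ≤ Δ := by exact_mod_cast hΔ
  have hΔ0 : (0:ℝ) < Δ := by linarith only [hΔ']
  have hB0 : 0 < B := by linarith only [hB]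
  set L : ℝ := 24 * Δ * B with hL
  have hΔB : (1:ℝ) ≤ Δ * B := one_le_mul_of_one_le_of_one_le hΔ' hB
  have hL24 : 24 ≤ L := by rw [hL, mul_assoc]; linarith only [hΔB]
  have hL1 : 1 ≤ L := by linarith only [hL24]
  have hL0 : 0 < L := by linarith only [hL24]
  set l : ℝ := 1 / L with hl
  have hl0 : 0 < l := by rw [hl]; positivity
  have hl24 : l ≤ 1 / 24 := one_div_le_one_div_of_le (by norm_num) hL24
  have hl1 : l ≤ 1 := by linarith only [hl24]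
  have hlL : ∀ a b : ℕ, b ≤ a → l ^ a * L ^ b = l ^ (a - b) := by
    intro a b hab
    have h1 : l ^ a = l ^ (a - b) * l ^ b := by rw [← pow_add]; congr 1; omega
    have h2 : l * L = 1 := by rw [hl]; field_simp
    rw [h1, mul_assoc, ← mul_pow, h2, one_pow, mul_one]
  set N : ℕ := Δ ^ 3 with hN
  have hN1 : 1 ≤ N := Nat.one_le_pow _ _ hΔ
  have hΔN : Δ ≤ N := by rw [hN]; nlinarith only [hΔ, Nat.one_le_pow 2 Δ hΔ, pow_succ Δ 2]
  have hΔ2N : Δ * Δ ≤ N := by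
    rw [hN, show Δ ^ 3 = Δ * Δ * Δ by ring]
    exact Nat.le_mul_of_pos_right _ hΔ
  have h2L : (2:ℝ) ≤ L := by linarith only [hL24]
  have hΔL : (Δ:ℝ) ≤ L := by
    rw [hL]; nlinarith only [hΔ', hB, mul_nonneg hΔ0.le (sub_nonneg.mpr hB)]
  have h8ΔL : 8 * (Δ:ℝ) ≤ L := by
    rw [hL]; nlinarith only [hΔ', hB, mul_nonneg hΔ0.le (sub_nonneg.mpr hB)]
  have hBL : B ≤ L := by
    rw [hL]; nlinarith only [hΔ', hB, mul_nonneg hB0.le (sub_nonneg.mpr hΔ')]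
  have h2pow : (2:ℝ) ^ Δ ≤ L ^ Δ := pow_le_pow_left₀ (by norm_num) h2L _
  have hsmall : ∀ k : ℕ, 1 ≤ k → l ^ k ≤ 1 / 24 := by
    intro k hk
    calc l ^ k ≤ l ^ 1 := pow_le_pow_of_le_one hl0.le hl1 hk
      _ ≤ 1 / 24 := by rw [pow_one]; exact hl24
  have hη0 : 0 < l ^ (6 * N) := by positivity
  have hsq : l ^ (6 * N) ≤ 1 / 576 := by
    calc l ^ (6 * N) ≤ l ^ 2 := pow_le_pow_of_le_one hl0.le hl1 (by omega)
      _ ≤ (1 / 24) ^ 2 := pow_le_pow_left₀ hl0.le hl24 _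
      _ = 1 / 576 := by norm_num
  refine ⟨⟨hΔ, by positivity, ?_, hη0, ?_, ?_⟩, rfl, ?_, ?_, ?_, ?_⟩
  · rw [div_le_one (by positivity)]; linarith only [hΔ']
  · exact pow_le_one₀ hl0.le hl1
  · have h1 : (1:ℝ) / (24 * Δ) / B = l := by
      rw [hl, hL, div_div]
    rw [h1, ← pow_add]
    apply le_of_eq
    congr 1; ring
  · exact hsq.trans (by norm_num)
  · have h1 : l ^ (6 * N) * 2 ^ Δ ≤ l ^ (6 * N) * L ^ N := by
      apply mul_le_mul_of_nonneg_left _ hη0.le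
      exact h2pow.trans (pow_le_pow_right₀ hL1 hΔN)
    rw [hlL _ _ (by omega)] at h1
    have h2 := hsmall (6 * N - N) (by omega)
    linarith only [h1, h2]
  · -- ρ
    have h1 : (1 + 2 * l ^ (6 * N)) ^ (2 * Δ) - 1 ≤ 8 * Δ * l ^ (6 * N) := by
      set x : ℝ := 2 * l ^ (6 * N) with hx
      have hx0 : 0 ≤ x := by rw [hx]; positivity
      have e1 : (1 + x) ^ (2 * Δ) ≤ Real.exp (((2 * Δ : ℕ) : ℝ) * x) := by
        rw [Real.exp_nat_mul]
        apply pow_le_pow_left₀ (by linarith only [hx0])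
        linarith only [Real.add_one_le_exp x]
      have e2 : ((2 * Δ : ℕ) : ℝ) * x ≤ 1 := by
        push_cast
        have : l ^ (6 * N) * L ^ 1 = l ^ (6 * N - 1) := hlL _ _ (by omega)
        have h3 := hsmall (6 * N - 1) (by omega)
        rw [pow_one] at this
        have h4 : l ^ (6 * N) * (8 * Δ) ≤ l ^ (6 * N) * L := mul_le_mul_of_nonneg_left h8ΔL hη0.le
        rw [hx]
        nlinarith only [h3, h4, this]
      have e3 : 0 ≤ ((2 * Δ : ℕ) : ℝ) * x := by positivity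
      have e4 := Real.abs_exp_sub_one_le (x := ((2 * Δ : ℕ) : ℝ) * x) (by
        rw [abs_of_nonneg e3]; exact e2)
      rw [abs_of_nonneg e3] at e4
      have e5 := (abs_le.mp e4).2
      have e6 : 2 * (((2 * Δ : ℕ) : ℝ) * x) = 8 * Δ * l ^ (6 * N) := by
        rw [hx]; push_cast; ring
      rw [e6] at e5
      linarith only [e1, e5]
    have h2 : (1 + B ^ Δ) ^ Δ ≤ L ^ Δ * L ^ (Δ * Δ) := by
      have hBp : 1 ≤ B ^ Δ := one_le_pow₀ hB
      calc (1 + B ^ Δ) ^ Δ ≤ (2 * B ^ Δ) ^ Δ :=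
            pow_le_pow_left₀ (by positivity) (by linarith only [hBp]) _
        _ = 2 ^ Δ * B ^ (Δ * Δ) := by rw [mul_pow, ← pow_mul]
        _ ≤ L ^ Δ * L ^ (Δ * Δ) :=
            mul_le_mul h2pow (pow_le_pow_left₀ hB0.le hBL _) (by positivity) (by positivity)
    calc ((1 + 2 * l ^ (6 * N)) ^ (2 * Δ) - 1) * (Δ * (1 + B ^ Δ) ^ Δ)
        ≤ (8 * Δ * l ^ (6 * N)) * (L * (L ^ Δ * L ^ (Δ * Δ))) := by
          apply mul_le_mul h1 _ (by positivity) (by positivity)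
          exact mul_le_mul hΔL h2 (by positivity) hL0.le
      _ ≤ (L * l ^ (6 * N)) * (L * (L ^ N * L ^ N)) := by
          apply mul_le_mul _ _ (by positivity) (by positivity)
          · exact mul_le_mul_of_nonneg_right h8ΔL hη0.le
          · apply mul_le_mul_of_nonneg_left _ hL0.le
            exact mul_le_mul (pow_le_pow_right₀ hL1 hΔN) (pow_le_pow_right₀ hL1 hΔ2N)
              (by positivity) (by positivity)
      _ = l ^ (6 * N) * L ^ (2 + 2 * N) := by ring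
      _ = l ^ (6 * N - (2 + 2 * N)) := hlL _ _ (by omega)
      _ ≤ 1 / 24 := hsmall _ (by omega)
      _ ≤ 1 / 4 := by norm_num
  · -- κ
    have hBp : 1 ≤ (B ^ Δ) ^ Δ := one_le_pow₀ (one_le_pow₀ hB)
    have h1 : (B ^ Δ) ^ Δ + 2 ≤ L * L ^ N := by
      calc (B ^ Δ) ^ Δ + 2 ≤ 3 * (B ^ Δ) ^ Δ := by linarith only [hBp]
        _ = 3 * B ^ (Δ * Δ) := by rw [← pow_mul]
        _ ≤ L * L ^ N := by
            apply mul_le_mul (by linarith only [hL24]) _ (by positivity) hL0.le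
            exact (pow_le_pow_left₀ hB0.le hBL _).trans (pow_le_pow_right₀ hL1 hΔ2N)
    have h2 : (2:ℝ) ^ Δ ≤ L ^ N := h2pow.trans (pow_le_pow_right₀ hL1 hΔN)
    have h3 : B ^ Δ ≤ L ^ N :=
      (pow_le_pow_left₀ hB0.le hBL _).trans (pow_le_pow_right₀ hL1 hΔN)
    have h4 : ((B ^ Δ) ^ 2) ≤ (L ^ N) ^ 2 := pow_le_pow_left₀ (by positivity) h3 _
    have h5 : (Δ:ℝ) ^ 2 ≤ L ^ 2 := pow_le_pow_left₀ hΔ0.le hΔL _
    have hs0 : 0 < (l ^ (12 * N)) ^ 2 := by positivity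
    calc ((Δ:ℝ) ^ 2 * (((B ^ Δ) ^ Δ + 2) * 2 ^ Δ) * ((l ^ (12 * N)) ^ 2 * (B ^ Δ) ^ 2)) *
          (Δ * 2 ^ Δ)
        ≤ (L ^ 2 * ((L * L ^ N) * L ^ N) * ((l ^ (12 * N)) ^ 2 * (L ^ N) ^ 2)) *
          (L * L ^ N) := by
          apply mul_le_mul _ _ (by positivity) (by positivity)
          · apply mul_le_mul _ _ (by positivity) (by positivity)
            · apply mul_le_mul h5 _ (by positivity) (by positivity)
              exact mul_le_mul h1 h2 (by positivity) (by positivity)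
            · exact mul_le_mul_of_nonneg_left h4 hs0.le
          · exact mul_le_mul hΔL h2 (by positivity) hL0.le
      _ = l ^ (24 * N) * L ^ (4 + 5 * N) := by ring
      _ = l ^ (24 * N - (4 + 5 * N)) := hlL _ _ (by omega)
      _ ≤ 1 / 24 := hsmall _ (by omega)
      _ ≤ 1 / 4 := by norm_num

lemma ck_small {Δ : ℕ} (hΔ : 1 ≤ Δ) {B : ℝ} (hB : 1 ≤ B) :
    4 * B ^ 3 * (1 / (24 * Δ * B)) ^ (51 * Δ ^ 3) ≤
      ((1 / (24 * Δ * B)) ^ (12 * Δ ^ 3)) ^ 4 := by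
  have hΔ' : (1:ℝ) ≤ Δ := by exact_mod_cast hΔ
  have hΔ0 : (0:ℝ) < Δ := by linarith only [hΔ']
  have hB0 : 0 < B := by linarith only [hB]
  set L : ℝ := 24 * Δ * B with hL
  have hΔB : (1:ℝ) ≤ Δ * B := one_le_mul_of_one_le_of_one_le hΔ' hB
  have hL24 : 24 ≤ L := by rw [hL, mul_assoc]; linarith only [hΔB]
  have hL0 : 0 < L := by linarith only [hL24]
  have h4B : 4 * B ≤ L := by
    rw [hL]; nlinarith only [hΔ', hB, mul_nonneg hB0.le (sub_nonneg.mpr hΔ')]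
  have hBL : B ≤ L := by linarith only [h4B, hB0]
  set l : ℝ := 1 / L with hl
  have hl0 : 0 < l := by rw [hl]; positivity
  have hl1 : l ≤ 1 := by rw [hl, div_le_one hL0]; linarith only [hL24]
  have hlL : l * L = 1 := by rw [hl]; field_simp
  set N : ℕ := Δ ^ 3 with hN
  have hN1 : 1 ≤ N := Nat.one_le_pow _ _ hΔ
  have h1 : 4 * B ^ 3 ≤ L ^ 3 := by
    calc 4 * B ^ 3 = (4 * B) * B ^ 2 := by ring
      _ ≤ L * L ^ 2 := mul_le_mul h4B (pow_le_pow_left₀ hB0.le hBL _) (by positivity) hL0.le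
      _ = L ^ 3 := by ring
  calc 4 * B ^ 3 * l ^ (51 * N) ≤ L ^ 3 * l ^ (51 * N) :=
        mul_le_mul_of_nonneg_right h1 (by positivity)
    _ ≤ L ^ 3 * l ^ (48 * N + 3) := by
        apply mul_le_mul_of_nonneg_left _ (by positivity)
        exact pow_le_pow_of_le_one hl0.le hl1 (by omega)
    _ = (l ^ (12 * N)) ^ 4 * (l * L) ^ 3 := by ring
    _ = (l ^ (12 * N)) ^ 4 := by rw [hlL]; ring

end Vale.Agent.P050.Loc
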