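import Vale.Agent.P050.Cut.Mixed2

set_option linter.all false

/-!
Polynomial identities and inequalities.
-/

open Finset

namespace Vale.Agent.P050.Loc

open Vale.Agent.P050

variable {V : Type*} [DecidableEq V]

lemma sum_powerset_pow (C : Finset V) (u : ℝ) :
    ∑ T ∈ C.powerset, u ^ T.card = (1 + u) ^ C.card := by
  have := Finset.prod_one_add (s := C) (f := fun _ => u)
  simp only [prod_const] at this
  exact this.symm

lemma sum_powerset_card_pow (C : Finset V) (u : ℝ) :
    ∑ T ∈ C.powerset, (T.card : ℝ) * u ^ T.card = C.card * (u * (1 + u) ^ (C.card - 1)) := by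
  induction C using Finset.induction_on with
  | empty => simp
  | insert a C ha ih =>
    rw [sum_powerset_insert ha, ih, card_insert_of_notMem ha]
    have h1 : ∑ T ∈ C.powerset, ((insert a T).card : ℝ) * u ^ (insert a T).card =
        ∑ T ∈ C.powerset, (u * ((T.card : ℝ) * u ^ T.card) + u * u ^ T.card) := by
      refine sum_congr rfl fun T hT => ?_
      rw [card_insert_of_notMem (fun h => ha (mem_powerset.mp hT h))]
      push_cast
      ring
    rw [h1, sum_add_distrib, ← mul_sum, ← mul_sum, ih, sum_powerset_pow]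
    rcases Nat.eq_zero_or_pos C.card with h0 | h0
    · rw [h0]; simp
    · obtain ⟨n, hn⟩ : ∃ n, C.card = n + 1 := ⟨C.card - 1, by omega⟩
      rw [hn]
      push_cast [Nat.add_sub_cancel]
      ring

/-- the sum over sets with at least two elements -/
lemma sum_ge_two (C : Finset V) (u : ℝ) :
    ∑ T ∈ C.powerset.filter (fun T => 2 ≤ T.card), (T.card : ℝ) * u ^ T.card =
      C.card * (u * ((1 + u) ^ (C.card - 1) - 1)) := by
  have h1 := sum_filter_add_sum_filter_not C.powerset (fun T => 2 ≤ T.card)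
    (fun T => (T.card : ℝ) * u ^ T.card)
  rw [sum_powerset_card_pow] at h1
  have h2 : ∑ T ∈ C.powerset.filter (fun T => ¬ 2 ≤ T.card), (T.card : ℝ) * u ^ T.card =
      C.card * u := by
    have h3 : ∑ T ∈ C.powerset.filter (fun T => ¬ 2 ≤ T.card), (T.card : ℝ) * u ^ T.card =
        ∑ T ∈ powersetCard 1 C, (T.card : ℝ) * u ^ T.card := by
      symm
      apply sum_subset
      · intro T hT
        rw [mem_powersetCard] at hT
        rw [mem_filter, mem_powerset]
        exact ⟨hT.1, by omega⟩
      · intro T hT hT'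
        rw [mem_filter, mem_powerset] at hT
        rw [mem_powersetCard, not_and] at hT'
        have h4 := hT' hT.1
        have h5 : T.card = 0 := by omega
        rw [h5]; simp
    rw [h3]
    have h4 : ∀ T ∈ powersetCard 1 C, (T.card : ℝ) * u ^ T.card = u := by
      intro T hT
      rw [mem_powersetCard] at hT
      rw [hT.2]; simp
    rw [sum_congr rfl h4, sum_const, card_powersetCard, Nat.choose_one_right, nsmul_eq_mul]
  rw [h2] at h1
  linarith only [h1]

/-- the crucial lower bound -/
lemma poly_bound {u L D m : ℝ} {n : ℕ} (hn : 1 ≤ n) (hL : 1 ≤ L) (hu : |u| ≤ L)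
    (hmD : 0 ≤ m * D) (h : u < -1 → (-1 - u) ^ 2 ≤ m * D) :
    1 / 2 * u ^ 2 - (L ^ n + 2) * (m * D) * u ^ 2 ≤ u * ((1 + u) ^ n - 1) := by
  have hLn : 1 ≤ L ^ n := one_le_pow₀ hL
  by_cases hu1 : u < -1
  · have h1 := h hu1
    set t := -1 - u with ht
    have ht0 : 0 < t := by rw [ht]; linarith only [hu1]
    have hut : u = -(1 + t) := by rw [ht]; ring
    have htL : t ≤ L := by
      have := (abs_le.mp hu).1
      rw [ht]; linarith only [this]
    have h2 : (1 + u) ^ n = (-t) ^ n := by rw [hut]; ring_nf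
    rw [h2]
    have h3 : (-t) ^ n ≤ t ^ n := by
      calc (-t) ^ n ≤ |(-t) ^ n| := le_abs_self _
        _ = t ^ n := by rw [abs_pow, abs_neg, abs_of_pos ht0]
    -- it suffices to treat `t ^ n`
    have h4 : u * (t ^ n - 1) ≤ u * ((-t) ^ n - 1) := by
      rw [hut]
      nlinarith only [h3, ht0]
    refine le_trans ?_ h4
    have h5 : (L ^ n + 2) * t ^ 2 * u ^ 2 ≤ (L ^ n + 2) * (m * D) * u ^ 2 := by
      apply mul_le_mul_of_nonneg_right _ (sq_nonneg _)
      apply mul_le_mul_of_nonneg_left h1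
      linarith only [hLn]
    refine le_trans (sub_le_sub_left h5 _) ?_
    rw [hut]
    -- `(1+t) (1 - t^n) ≥ (1+t)^2/2 - (L^n+2) t^2 (1+t)^2`
    have h6 : 0 ≤ (1 + t) * (1 / 2 - t / 2 - t ^ n + (L ^ n + 2) * t ^ 2 * (1 + t)) := by
      apply mul_nonneg (by linarith only [ht0])
      rcases Nat.lt_or_ge n 2 with hn2 | hn2
      · have : n = 1 := by omega
        subst this
        have h7 : (1 + 2) * t ^ 2 ≤ (L ^ 1 + 2) * t ^ 2 * (1 + t) := by
          have h8 : (1 + 2) * t ^ 2 ≤ (L ^ 1 + 2) * t ^ 2 := by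
            apply mul_le_mul_of_nonneg_right _ (sq_nonneg _)
            linarith only [hLn]
          have h9 : 0 ≤ (L ^ 1 + 2) * t ^ 2 := mul_nonneg (by linarith only [hLn]) (sq_nonneg _)
          nlinarith only [h8, h9, ht0]
        nlinarith only [h7, sq_nonneg (t - 1 / 4)]
      · obtain ⟨j, rfl⟩ : ∃ j, n = j + 2 := ⟨n - 2, by omega⟩
        have h7 : t ^ (j + 2) ≤ L ^ (j + 2) * t ^ 2 := by
          rw [pow_add]
          apply mul_le_mul_of_nonneg_right _ (sq_nonneg _)
          calc t ^ j ≤ L ^ j := pow_le_pow_left₀ ht0.le htL j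
            _ ≤ L ^ (j + 2) := pow_le_pow_right₀ hL (by omega)
        have h8 : (L ^ (j + 2) + 2) * t ^ 2 ≤ (L ^ (j + 2) + 2) * t ^ 2 * (1 + t) := by
          have h9 : 0 ≤ (L ^ (j + 2) + 2) * t ^ 2 :=
            mul_nonneg (by linarith only [hLn]) (sq_nonneg _)
          nlinarith only [h9, ht0]
        nlinarith only [h7, h8, sq_nonneg (t - 1 / 8)]
    nlinarith only [h6]
  · push Not at hu1
    have h1 : 0 ≤ (L ^ n + 2) * (m * D) * u ^ 2 :=
      mul_nonneg (mul_nonneg (by linarith only [hLn]) hmD) (sq_nonneg _)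
    have h2 : u ^ 2 ≤ u * ((1 + u) ^ n - 1) := by
      rcases le_or_gt 0 u with hu0 | hu0
      · have h3 : 1 + u ≤ (1 + u) ^ n := by
          calc 1 + u = (1 + u) ^ 1 := (pow_one _).symm
            _ ≤ (1 + u) ^ n := pow_le_pow_right₀ (by linarith only [hu0]) hn
        nlinarith only [h3, hu0]
      · have h3 : (1 + u) ^ n ≤ 1 + u := by
          calc (1 + u) ^ n ≤ (1 + u) ^ 1 :=
                pow_le_pow_of_le_one (by linarith only [hu1]) (by linarith only [hu0]) hn
            _ = 1 + u := pow_one _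
        nlinarith only [h3, hu0]
    nlinarith only [h1, h2, sq_nonneg u]

end Vale.Agent.P050.Loc
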