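import Vale.Agent.P050.Cut.US

set_option linter.all false

/-!
Integral representations of the densities of edge sets.
-/

open MeasureTheory Finset

namespace Vale.Agent.P050.Loc

open Vale.Agent.P050

variable {V : Type*} [Fintype V] [DecidableEq V] {Ω : Type*} [MeasurableSpace Ω]
variable {U : Sym2 Ω → ℝ} {B σ ε : ℝ}
variable (μ : Measure Ω) [IsProbabilityMeasure μ]

/-- neighbours of `a` in `F` -/
def nb (F : Finset (Sym2 V)) (a : V) : Finset V := univ.filter (fun v => s(a, v) ∈ F)

lemma mem_nb {F : Finset (Sym2 V)} {a v : V} : v ∈ nb F a ↔ s(a, v) ∈ F := by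
  simp only [nb, mem_filter, mem_univ, true_and]

lemma filter_eq_image_nb (F : Finset (Sym2 V)) (a : V) :
    F.filter (fun e => a ∈ e) = (nb F a).image (fun v => s(a, v)) := by
  ext e
  simp only [mem_filter, mem_image, mem_nb]
  constructor
  · rintro ⟨he, ha⟩
    obtain ⟨v, rfl⟩ := Sym2.mem_iff_exists.mp ha
    exact ⟨v, he, rfl⟩
  · rintro ⟨v, hv, rfl⟩
    exact ⟨hv, by simp⟩

lemma nb_inj (F : Finset (Sym2 V)) (a : V) :
    Set.InjOn (fun v => s(a, v)) (nb F a : Set V) := by
  intro v _ v' _ h
  simp only at h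
  rw [Sym2.eq_iff] at h
  rcases h with ⟨_, h⟩ | ⟨h1, h2⟩
  · exact h
  · rw [h2, ← h1]

lemma card_nb (F : Finset (Sym2 V)) (a : V) : (nb F a).card = dg F a := by
  unfold dg
  rw [filter_eq_image_nb, card_image_of_injOn (nb_inj F a)]

lemma avoid_singleton (F : Finset (Sym2 V)) (a : V) :
    avoid F {a} = F.filter (fun e => ¬ a ∈ e) := by
  ext e
  simp only [mem_avoid, mem_filter, mem_singleton]
  constructor
  · rintro ⟨h1, h2⟩
    exact ⟨h1, fun h => h2 a h rfl⟩
  · rintro ⟨h1, h2⟩
    exact ⟨h1, fun v hv hva => h2 (hva ▸ hv)⟩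

lemma wt_split (F : Finset (Sym2 V)) (a : V) (x : V → Ω) :
    wt U F x = (∏ v ∈ nb F a, U s(x v, x a)) * wt U (avoid F {a}) x := by
  unfold wt
  rw [avoid_singleton, ← prod_filter_mul_prod_filter_not F (fun e => a ∈ e),
    filter_eq_image_nb, prod_image (nb_inj F a)]
  congr 1
  refine prod_congr rfl fun v _ => ?_
  rw [Sym2.map_mk, Sym2.eq_swap]

lemma card_split (F : Finset (Sym2 V)) (a : V) : F.card = dg F a + (avoid F {a}).card := by
  unfold dg
  rw [avoid_singleton, card_filter_add_card_filter_not]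

/-- integrating out a vertex -/
lemma vertex_elim (hU : Good U ε) {F : Finset (Sym2 V)} (hloop : ∀ e ∈ F, ¬ e.IsDiag) (a : V)
    {R : (V → Ω) → ℝ} (hR : BM R) (hRi : Ind a R) :
    ∫ x, wt U F x * R x ∂(piM V μ) =
      ∫ x, wt U (avoid F {a}) x * (uS μ U (nb F a) x * R x) ∂(piM V μ) := by
  rw [integral_update μ a ((hU.bm_wt F).mul hR)]
  congr 1
  ext x
  have h1 : ∀ y, wt U F (Function.update x a y) =
      (∏ v ∈ nb F a, U s(x v, y)) * wt U (avoid F {a}) x := by
    intro y
    rw [wt_split F a]
    congr 1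
    · refine prod_congr rfl fun v hv => ?_
      have hva : v ≠ a := by
        rintro rfl
        exact hloop _ (mem_nb.mp hv) (by simp)
      rw [Function.update_self, Function.update_of_ne hva]
    · apply wt_update
      exact supp_avoid (mem_singleton_self a)
  have h2 : ∀ y, R (Function.update x a y) = R x := fun y => hRi x y
  simp only [h1, h2]
  rw [integral_mul_const, integral_mul_const]
  unfold uS
  ring

/-- the pair representation -/
lemma rep_pair (hU : Good U ε) {F : Finset (Sym2 V)} (hloop : ∀ e ∈ F, ¬ e.IsDiag) {a b : V}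
    (hne : a ≠ b) (hab : s(a, b) ∉ F) :
    w μ U F = ∫ x, uS μ U (nb F b) x * uS μ U (nb F a) x * wt U (avoid F {a, b}) x ∂(piM V μ) ∧
      F.card = dg F a + dg F b + (avoid F {a, b}).card := by
  have hloop' : ∀ e ∈ avoid F {a}, ¬ e.IsDiag := fun e he => hloop e (mem_avoid.mp he).1
  have h0 : avoid (avoid F {a}) {b} = avoid F {a, b} := by
    rw [avoid_avoid]; rfl
  have hnb : nb (avoid F {a}) b = nb F b := by
    ext v
    rw [mem_nb, mem_nb, mem_avoid]
    constructor
    · exact fun h => h.1
    · intro h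
      refine ⟨h, ?_⟩
      intro u hu hua
      rw [mem_singleton] at hua
      subst hua
      rw [Sym2.mem_iff] at hu
      rcases hu with hu | hu
      · exact hne hu
      · subst hu
        rw [Sym2.eq_swap] at h
        exact hab h
  have h1 := vertex_elim μ hU hloop a (R := fun _ => (1:ℝ)) (BM.const 1) (fun _ _ => rfl)
  have h2 := vertex_elim μ hU hloop' b (R := fun x => uS μ U (nb F a) x * 1)
    ((bm_uS μ hU _).mul (BM.const 1)) (by
      intro x y
      have : b ∉ nb F a := by rw [mem_nb]; exact hab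
      simp only [uS_ind μ this x y])
  constructor
  · unfold w
    simp only [mul_one] at h1 h2
    rw [h1, h2, h0, hnb]
    congr 1
    ext x
    ring
  · have h3 := card_split F a
    have h4 := card_split (avoid F {a}) b
    have h5 : dg (avoid F {a}) b = dg F b := by rw [← card_nb, hnb, card_nb]
    rw [h0, h5] at h4
    omega

/-- two leaves -/
lemma rep_two (hU : Good U ε) {F : Finset (Sym2 V)} {l₁ l₂ y₁ y₂ : V}
    (hl₁ : l₁ ≠ y₁) (hl₂ : l₂ ≠ y₂) (h₁ : s(l₁, y₁) ∈ F) (h₂ : s(l₂, y₂) ∈ F)
    (hu₁ : ∀ e ∈ F, l₁ ∈ e → e = s(l₁, y₁)) (hu₂ : ∀ e ∈ F, l₂ ∈ e → e = s(l₂, y₂))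
    (hne : s(l₁, y₁) ≠ s(l₂, y₂)) :
    w μ U F = ∫ x, degf μ U (x y₁) * degf μ U (x y₂) *
      wt U ((F.erase s(l₁, y₁)).erase s(l₂, y₂)) x ∂(piM V μ) ∧
      ((F.erase s(l₁, y₁)).erase s(l₂, y₂)).card = F.card - 2 := by
  have hbd : ∀ v : V, BM (fun x : V → Ω => degf μ U (x v)) := fun v =>
    (hU.bm_degf μ).comp (measurable_pi_apply v)
  have hl₂y₁ : y₁ ≠ l₂ := by
    intro h
    apply hne
    apply hu₂ _ h₁
    rw [← h]; simp
  have e1 : w μ U F = ∫ x, degf μ U (x y₁) * (wt U (F.erase s(l₁, y₁)) x) ∂(piM V μ) := by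
    have := w_leaf μ hU hl₁ h₁ hu₁ (R := fun _ => (1:ℝ)) (BM.const 1) (fun _ _ => rfl)
    simpa [w] using this
  constructor
  · rw [e1]
    have hcomm : ∀ x : V → Ω, degf μ U (x y₁) * (wt U (F.erase s(l₁, y₁)) x) =
        (wt U (F.erase s(l₁, y₁)) x) * degf μ U (x y₁) := fun x => mul_comm _ _
    simp only [hcomm]
    rw [w_leaf μ hU hl₂ (mem_erase.mpr ⟨hne.symm, h₂⟩)
      (fun e he hle => hu₂ e (mem_erase.mp he).2 hle) (hbd y₁)]
    · congr 1
      ext x
      ring
    · intro x z
      simp only [Function.update_of_ne hl₂y₁]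
  · rw [card_erase_of_mem (mem_erase.mpr ⟨hne.symm, h₂⟩), card_erase_of_mem h₁]
    omega

/-- one leaf -/
lemma rep_leaf (hU : Good U ε) {F : Finset (Sym2 V)} {k : ℕ} {a b : V} {p q : List V}
    (h : CycPres F k a b p q) {l y : V} (hly : l ≠ y) (hF : s(l, y) ∈ F)
    (hu : ∀ e ∈ F, l ∈ e → e = s(l, y))
    (hcyc : s(l, y) ∉ pathEdges a p b ++ pathEdges b q a) (hyp : y ∉ p) :
    ∃ (K1 : (V → Ω) → ℝ) (n1 : ℕ), BM K1 ∧
      w μ U F = ∫ x, K1 x * degf μ U (x y) * wt U (avoid (F.erase s(l, y)) p.toFinset) x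
        ∂(piM V μ) ∧
      ∫ x, K1 x ^ 2 ∂(piM V μ) ≤ (ε ^ n1) ^ 2 * ck μ U k ∧
      F.card = k + 1 + (n1 + (avoid (F.erase s(l, y)) p.toFinset).card) ∧
      n1 = (p.map (fun v => (gam (F.erase s(l, y)) a b p v).card)).sum ∧
      (∀ u, u ≠ a → u ≠ b → (∀ v ∈ p, u ≠ v → s(v, u) ∉ F) → Ind u K1) := by
  set F' := F.erase s(l, y) with hF'
  have h' : CycPres F' k a b p q := h.mono (erase_subset _ _) (by
    intro e he
    rw [hF', mem_erase]
    exact ⟨fun hh => hcyc (hh ▸ he), h.sub e he⟩)
  have hcF' : F'.card = F.card - 1 := card_erase_of_mem hF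
  have hFpos : 0 < F.card := card_pos.mpr ⟨_, hF⟩
  set F1 := avoid F' p.toFinset with hF1
  set D1 := dec U F' a b p with hD1
  have hD1bm : ∀ v, BM (fun q : (V → Ω) × Ω => D1 v q.1 q.2) := fun v => bm_dec hU F' a b p v
  have hc1 := card_decomp F' h'.p_ne h'.nd1 h'.sub1 h'.outer1
  set K1 : (V → Ω) → ℝ := fun x => kern μ (two U) (p.map (fun v => D1 v x)) (x a) (x b) with hK1
  have hK1bm : BM K1 := (bm_kern μ hU hD1bm p).comp
    (g := fun x : V → Ω => (x, (x a, x b))) (by fun_prop)
  have hind1 : ∀ v ∈ p, ∀ u ∈ a :: p ++ b :: q, Ind u (D1 v) := by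
    intro v hv u hu
    apply dec_ind
    by_cases huv : u = v
    · exact Or.inl huv
    · right
      intro e he hue
      exact huv (h'.gam1 hv he hue hu)
  have hbd : BM (fun x : V → Ω => degf μ U (x y)) :=
    (hU.bm_degf μ).comp (measurable_pi_apply y)
  have e1 : w μ U F = ∫ x, degf μ U (x y) * (wt U F' x) ∂(piM V μ) := by
    have := w_leaf μ hU hly hF hu (R := fun _ => (1:ℝ)) (BM.const 1) (fun _ _ => rfl)
    simpa [w] using this
  have hwt : ∀ x, degf μ U (x y) * (wt U F' x) =
      pathProd U D1 a p b x * (degf μ U (x y) * wt U F1 x) := by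
    intro x
    rw [wt_decomp F' h'.p_ne h'.nd1 h'.sub1 h'.outer1, ← hF1]
    ring
  have hw : w μ U F = ∫ x, K1 x * (degf μ U (x y) * wt U F1 x) ∂(piM V μ) := by
    rw [e1]
    simp only [hwt]
    apply path_elim μ hU hD1bm p a b (fun x => degf μ U (x y) * wt U F1 x)
      (hbd.mul (hU.bm_wt F1)) h'.nd1
    · intro u hu x z
      have hyu : y ≠ u := by
        intro hh; subst hh; exact hyp hu
      have e2 : wt U F1 (Function.update x u z) = wt U F1 x :=
        wt_update (supp_avoid (List.mem_toFinset.mpr hu)) x z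
      simp only [e2, Function.update_of_ne hyu]
    · intro v hv u hu
      exact hind1 v hv u (by simp [hu])
  set n1 := (p.map (fun v => (gam F' a b p v).card)).sum with hn1
  have hpow : ∀ n : ℕ, 0 < ε ^ n := fun n => pow_pos hU.pos n
  refine ⟨K1, n1, hK1bm, ?_, ?_, ?_, rfl, ?_⟩
  · rw [hw]
    congr 1
    ext x
    ring
  · have := int_kern_sq_le μ hU hD1bm p h'.a_notMem.2.1 (fun v hv => hind1 v hv a (by simp))
      (fun v hv => hind1 v hv b (by simp)) (fun v => ε ^ (gam F' a b p v).card)
      (fun v _ => hpow _) (fun v _ x y => abs_dec_le hU F' a b p v x y)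
    rw [prod_pow_map, h.hp] at this
    exact this
  · have e1 := h.hp
    rw [← hF1] at hc1
    omega
  · intro u hua hub hno x z
    have e1 : p.map (fun v => D1 v (Function.update x u z)) = p.map (fun v => D1 v x) := by
      apply List.map_congr_left
      intro v hv
      have : Ind u (D1 v) := by
        apply dec_ind
        by_cases huv : u = v
        · exact Or.inl huv
        · right
          intro e he hue
          simp only [gam, mem_filter] at he
          have h2 : e = s(v, u) := (Sym2.mem_and_mem_iff (Ne.symm huv)).mp ⟨he.2.1, hue⟩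
          apply hno v hv huv
          rw [← h2]
          exact (mem_erase.mp he.1).2
      exact this x z
    simp only [hK1, e1, Function.update_of_ne (Ne.symm hua), Function.update_of_ne (Ne.symm hub)]

/-- no leaf -/
lemma rep_cyc (hU : Good U ε) {F : Finset (Sym2 V)} {k : ℕ} {a b : V} {p q : List V}
    (h : CycPres F k a b p q) :
    ∃ (K1 K2 : (V → Ω) → ℝ) (n1 n2 : ℕ), BM K1 ∧ BM K2 ∧
      w μ U F = ∫ x, K1 x * K2 x * wt U (avoid (avoid F p.toFinset) q.toFinset) x
        ∂(piM V μ) ∧
      ∫ x, K1 x ^ 2 ∂(piM V μ) ≤ (ε ^ n1) ^ 2 * ck μ U k ∧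
      ∫ x, K2 x ^ 2 ∂(piM V μ) ≤ (ε ^ n2) ^ 2 * ck μ U k ∧
      F.card = 2 * k + (n1 + n2 + (avoid (avoid F p.toFinset) q.toFinset).card) ∧
      (∀ u, u ≠ a → u ≠ b → (∀ v ∈ p, u ≠ v → s(v, u) ∉ F) → Ind u K1) ∧
      (∀ u, u ≠ a → u ≠ b → (∀ v ∈ q, u ≠ v → s(v, u) ∉ F) → Ind u K2) := by
  set F1 := avoid F p.toFinset with hF1
  set F2 := avoid F1 q.toFinset with hF2
  set D1 := dec U F a b p with hD1
  set D2 := dec U F1 b a q with hD2
  have hD1bm : ∀ v, BM (fun q : (V → Ω) × Ω => D1 v q.1 q.2) := fun v => bm_dec hU F a b p v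
  have hD2bm : ∀ v, BM (fun q : (V → Ω) × Ω => D2 v q.1 q.2) := fun v => bm_dec hU F1 b a q v
  have hc1 := card_decomp F h.p_ne h.nd1 h.sub1 h.outer1
  have hc2 := card_decomp F1 h.q_ne h.nd2 h.sub2 h.outer2
  set K1 : (V → Ω) → ℝ := fun x => kern μ (two U) (p.map (fun v => D1 v x)) (x a) (x b) with hK1
  set K2 : (V → Ω) → ℝ := fun x => kern μ (two U) (q.map (fun v => D2 v x)) (x b) (x a) with hK2
  have hK1bm : BM K1 := (bm_kern μ hU hD1bm p).comp
    (g := fun x : V → Ω => (x, (x a, x b))) (by fun_prop)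
  have hK2bm : BM K2 := (bm_kern μ hU hD2bm q).comp
    (g := fun x : V → Ω => (x, (x b, x a))) (by fun_prop)
  have hind1 : ∀ v ∈ p, ∀ u ∈ a :: p ++ b :: q, Ind u (D1 v) := by
    intro v hv u hu
    apply dec_ind
    by_cases huv : u = v
    · exact Or.inl huv
    · right
      intro e he hue
      exact huv (h.gam1 hv he hue hu)
  have hind2 : ∀ v ∈ q, ∀ u ∈ a :: p ++ b :: q, Ind u (D2 v) := by
    intro v hv u hu
    apply dec_ind
    by_cases huv : u = v
    · exact Or.inl huv
    · right
      intro e he hue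
      exact huv (h.gam2 hv he hue hu)
  have hwt : ∀ x, wt U F x = pathProd U D1 a p b x * (pathProd U D2 b q a x * wt U F2 x) := by
    intro x
    rw [wt_decomp F h.p_ne h.nd1 h.sub1 h.outer1, ← hF1,
      wt_decomp F1 h.q_ne h.nd2 h.sub2 h.outer2]
  have hF2sub : F2 ⊆ F1 := filter_subset _ _
  have hw : w μ U F = ∫ x, K2 x * (K1 x * wt U F2 x) ∂(piM V μ) := by
    unfold w
    simp only [hwt]
    rw [path_elim μ hU hD1bm p a b (fun x => pathProd U D2 b q a x * wt U F2 x)
      ((bm_pathProd hU hD2bm q b a).mul (hU.bm_wt F2)) h.nd1]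
    · have : ∀ x, kern μ (two U) (p.map (fun v => D1 v x)) (x a) (x b) *
          (pathProd U D2 b q a x * wt U F2 x) =
          pathProd U D2 b q a x * (K1 x * wt U F2 x) := by
        intro x; simp only [hK1]; ring
      simp only [this]
      rw [path_elim μ hU hD2bm q b a (fun x => K1 x * wt U F2 x)
        (hK1bm.mul (hU.bm_wt F2)) h.nd2]
      · intro u hu x y
        have hua : a ≠ u := by
          intro hh; subst hh; exact h.a_notMem.2.2 hu
        have hub : b ≠ u := by
          intro hh; subst hh; exact h.b_notMem.2 hu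
        have e1 : p.map (fun v => D1 v (Function.update x u y)) = p.map (fun v => D1 v x) := by
          apply List.map_congr_left
          intro v hv
          exact hind1 v hv u (by simp [hu]) x y
        have e2 : wt U F2 (Function.update x u y) = wt U F2 x :=
          wt_update (supp_avoid (List.mem_toFinset.mpr hu)) x y
        simp only [hK1, e1, e2, Function.update_of_ne hua, Function.update_of_ne hub]
      · intro v hv u hu
        exact hind2 v hv u (by simp [hu])
    · intro u hu x y
      have e1 : pathProd U D2 b q a (Function.update x u y) = pathProd U D2 b q a x := by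
        apply pathProd_ind q b a (fun v hv => hind2 v hv u (by simp [hu]))
        intro hmem
        simp only [List.cons_append, List.mem_cons, List.mem_append, List.mem_singleton,
          List.not_mem_nil, or_false] at hmem
        rcases hmem with hh | hh | hh
        · subst hh; exact h.b_notMem.1 hu
        · exact h.pq_disj hu hh
        · subst hh; exact h.a_notMem.1 hu
      have e2 : wt U F2 (Function.update x u y) = wt U F2 x := by
        apply wt_update
        intro hh
        exact supp_avoid (List.mem_toFinset.mpr hu) (supp_mono hF2sub hh)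
      simp only [e1, e2]
    · intro v hv u hu
      exact hind1 v hv u (by simp [hu])
  set n1 := (p.map (fun v => (gam F a b p v).card)).sum with hn1
  set n2 := (q.map (fun v => (gam F1 b a q v).card)).sum with hn2
  have hpow : ∀ n : ℕ, 0 < ε ^ n := fun n => pow_pos hU.pos n
  refine ⟨K1, K2, n1, n2, hK1bm, hK2bm, ?_, ?_, ?_, ?_, ?_, ?_⟩
  · rw [hw]
    congr 1
    ext x
    ring
  · have := int_kern_sq_le μ hU hD1bm p h.a_notMem.2.1 (fun v hv => hind1 v hv a (by simp))
      (fun v hv => hind1 v hv b (by simp)) (fun v => ε ^ (gam F a b p v).card)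
      (fun v _ => hpow _) (fun v _ x y => abs_dec_le hU F a b p v x y)
    rw [prod_pow_map, h.hp] at this
    exact this
  · have := int_kern_sq_le μ hU hD2bm q (Ne.symm h.a_notMem.2.1)
      (fun v hv => hind2 v hv b (by simp))
      (fun v hv => hind2 v hv a (by simp)) (fun v => ε ^ (gam F1 b a q v).card)
      (fun v _ => hpow _) (fun v _ x y => abs_dec_le hU F1 b a q v x y)
    rw [prod_pow_map, h.hq] at this
    exact this
  · have e1 := h.hp
    have e2 := h.hq
    rw [← hF1] at hc1
    rw [← hF2] at hc2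
    omega
  · intro u hua hub hno x z
    have e1 : p.map (fun v => D1 v (Function.update x u z)) = p.map (fun v => D1 v x) := by
      apply List.map_congr_left
      intro v hv
      have : Ind u (D1 v) := by
        apply dec_ind
        by_cases huv : u = v
        · exact Or.inl huv
        · right
          intro e he hue
          simp only [gam, mem_filter] at he
          have h2 : e = s(v, u) := (Sym2.mem_and_mem_iff (Ne.symm huv)).mp ⟨he.2.1, hue⟩
          apply hno v hv huv
          rw [← h2]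
          exact he.1
      exact this x z
    simp only [hK1, e1, Function.update_of_ne (Ne.symm hua), Function.update_of_ne (Ne.symm hub)]
  · intro u hua hub hno x z
    have e1 : q.map (fun v => D2 v (Function.update x u z)) = q.map (fun v => D2 v x) := by
      apply List.map_congr_left
      intro v hv
      have : Ind u (D2 v) := by
        apply dec_ind
        by_cases huv : u = v
        · exact Or.inl huv
        · right
          intro e he hue
          simp only [gam, mem_filter] at he
          have h2 : e = s(v, u) := (Sym2.mem_and_mem_iff (Ne.symm huv)).mp ⟨he.2.1, hue⟩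
          apply hno v hv huv
          rw [← h2]
          exact (mem_avoid.mp he.1).1
      exact this x z
    simp only [hK2, e1, Function.update_of_ne (Ne.symm hua), Function.update_of_ne (Ne.symm hub)]

end Vale.Agent.P050.Loc
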