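import Vale.Agent.P050.Cut.Rep

set_option linter.all false

/-!
Shortest cycles.
-/

open Finset

namespace Vale.Agent.P050.Loc

open Vale.Agent.P050

variable {V : Type*} [Fintype V] [DecidableEq V]

/-- every edge set inside `γ` with a cycle has at least `2 k` edges -/
def Shortest (γ : Finset (Sym2 V)) (k : ℕ) : Prop :=
  ∀ D ⊆ γ, ¬ (gr D).IsAcyclic → 2 * k ≤ D.card

lemma length_cycle_ge {γ : Finset (Sym2 V)} {k : ℕ} (hs : Shortest γ k)
    (hloop : ∀ e ∈ γ, ¬ e.IsDiag) {D : Finset (Sym2 V)} (hD : D ⊆ γ) {a : V}
    {w : (gr D).Walk a a} (hw : w.IsCycle) : 2 * k ≤ w.length := by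
  set A := w.edges.toFinset with hA
  have hAD : A ⊆ D := fun e he => mem_of_mem_edges w (List.mem_toFinset.mp he)
  have hAc : A.card = w.length := by
    rw [hA, List.toFinset_card_of_nodup hw.isCircuit.isTrail.edges_nodup,
      SimpleGraph.Walk.length_edges]
  rw [← hAc]
  apply hs A (hAD.trans hD)
  apply not_acyclic_of_even
  · rw [← card_pos, hAc]
    have := hw.three_le_length
    omega
  · exact fun e he => hloop e (hD (hAD he))
  · exact even_dg_cycle hw

/-- two independent cycles need many edges -/
lemma excess {γ : Finset (Sym2 V)} {k : ℕ} (hs : Shortest γ k)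
    (hloop : ∀ e ∈ γ, ¬ e.IsDiag) {D : Finset (Sym2 V)} (hD : D ⊆ γ)
    (hcard : (supp D).card + 1 ≤ D.card) : 3 * k ≤ D.card := by
  have hloopD : ∀ e ∈ D, ¬ e.IsDiag := fun e he => hloop e (hD he)
  have hDne : D.Nonempty := card_pos.mp (by omega)
  have hnac : ¬ (gr D).IsAcyclic := not_acyclic hDne hloopD (by omega)
  obtain ⟨a, w, hw, hlen⟩ := SimpleGraph.exists_girth_eq_length.mpr hnac
  have h3 := hw.three_le_length
  have hfex : ∃ f, f ∈ w.edges := by
    rw [← List.length_pos_iff_exists_mem, SimpleGraph.Walk.length_edges]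
    omega
  obtain ⟨f, hf⟩ := hfex
  have hfD : f ∈ D := mem_of_mem_edges w hf
  have h2s : 2 ≤ (supp D).card := by
    obtain ⟨e, he⟩ := hDne
    rw [← card_sym2_vertices (hloopD e he)]
    apply card_le_card
    intro u hu
    rw [mem_filter] at hu
    exact mem_supp.mpr ⟨e, he, hu.2⟩
  have hnac' : ¬ (gr (D.erase f)).IsAcyclic := by
    apply not_acyclic
    · rw [← card_pos, card_erase_of_mem hfD]; omega
    · exact fun e he => hloopD e (mem_erase.mp he).2
    · have := card_le_card (supp_mono (erase_subset f D))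
      rw [card_erase_of_mem hfD]
      omega
  obtain ⟨a', w', hw', hlen'⟩ := SimpleGraph.exists_girth_eq_length.mpr hnac'
  have hle : gr (D.erase f) ≤ gr D := gr_mono (erase_subset f D)
  have h7 := two_cycles hloopD hw (hw'.mapLe hle) (by
    rw [SimpleGraph.Walk.edges_mapLe_eq_edges]
    intro h
    have h8 : f ∈ w'.edges.toFinset := by rw [← h]; exact List.mem_toFinset.mpr hf
    have h9 := mem_of_mem_edges w' (List.mem_toFinset.mp h8)
    simp at h9)
  have h8 := length_cycle_ge hs hloop hD hw
  omega

/-- a presentation of a shortest cycle -/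
theorem exists_short (F : Finset (Sym2 V)) (hF : Conn F) (hloop : ∀ e ∈ F, ¬ e.IsDiag)
    (c : V → Bool) (hc : ∀ u v, s(u, v) ∈ F → c u ≠ c v)
    (hleaf : ∀ u v, dg F u = 1 → dg F v = 1 → u = v) :
    ∃ k a b p q, CycPres F k a b p q ∧ Shortest F k ∧
      ((∀ v, dg F v ≠ 1) → F ≠ cycEdges a b p q → 3 * k ≤ F.card) := by
  have hsum := sum_dg_supp hloop
  -- there is a cycle
  have hnac : ¬ (gr F).IsAcyclic := by
    apply not_acyclic hF.1 hloop
    by_cases hl : ∃ l, dg F l = 1
    · obtain ⟨l, hl⟩ := hl
      have hls : l ∈ supp F := by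
        by_contra h; rw [dg_eq_zero h] at hl; omega
      have h2 : ∑ _v ∈ (supp F).erase l, 2 ≤ ∑ v ∈ (supp F).erase l, dg F v := by
        apply sum_le_sum
        intro v hv
        rw [mem_erase] at hv
        have h3 := dg_pos hv.2
        have h4 : dg F v ≠ 1 := fun h => hv.1 (hleaf v l h hl)
        omega
      rw [← add_sum_erase _ _ hls] at hsum
      simp only [sum_const, smul_eq_mul, card_erase_of_mem hls] at h2
      have h5 : 0 < (supp F).card := card_pos.mpr ⟨l, hls⟩
      omega
    · push Not at hl
      have h2 : ∑ _v ∈ supp F, 2 ≤ ∑ v ∈ supp F, dg F v := by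
        apply sum_le_sum
        intro v hv
        have h3 := dg_pos hv
        have h4 := hl v
        omega
      simp only [sum_const, smul_eq_mul] at h2
      omega
  obtain ⟨a, w, hw, hlen⟩ := SimpleGraph.exists_girth_eq_length.mpr hnac
  -- even length
  have hcol : Even w.length := by
    let C : (gr F).Coloring Bool := SimpleGraph.Coloring.mk c (by
      intro u v huv
      exact hc u v (gr_adj.mp huv).1)
    rw [C.even_length_iff_congr w]
  obtain ⟨k, hk⟩ := hcol
  have h3 := hw.three_le_length
  obtain ⟨m, hm1, hm2⟩ := walk_list w hw.not_nil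
  have hmlen : m.length + 1 = w.length := by
    have := congrArg List.length hm1
    rw [SimpleGraph.Walk.length_support] at this
    simp only [List.cons_append, List.length_cons, List.length_append,
      List.length_nil] at this
    omega
  -- split the list
  set p := m.take (k - 1) with hp
  have hpl : p.length = k - 1 := by rw [hp, List.length_take]; omega
  obtain ⟨b, q, hbq⟩ : ∃ b q, m.drop (k - 1) = b :: q := by
    cases hh : m.drop (k - 1) with
    | nil =>
      have := congrArg List.length hh
      rw [List.length_drop] at this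
      simp only [List.length_nil] at this
      omega
    | cons b q => exact ⟨b, q, rfl⟩
  have hql : q.length = k - 1 := by
    have := congrArg List.length hbq
    rw [List.length_drop, List.length_cons] at this
    omega
  have hm : m = p ++ b :: q := by rw [hp, ← hbq, List.take_append_drop]
  have hedges : w.edges = pathEdges a p b ++ pathEdges b q a := by
    rw [hm2, hm, pathEdges_append]
  have hnd : (a :: p ++ b :: q).Nodup := by
    have h1 := hw.nodup_dropLast_support
    have h2 : w.support.dropLast = a :: m := by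
      rw [hm1, List.dropLast_concat]
    rw [h2, hm] at h1
    exact h1
  have hsupp : ∀ u ∈ a :: p ++ b :: q, u ∈ w.support := by
    intro u hu
    rw [hm1, hm]
    exact List.mem_append_left _ hu
  refine ⟨k, a, b, p, q, ⟨by omega, by omega, by omega, hnd, ?_, ?_⟩, ?_, ?_⟩
  · intro e he
    rw [← hedges] at he
    exact mem_of_mem_edges w he
  · intro u hu v hv huv
    rw [← hedges]
    apply chordless_girth hw hlen.symm (hsupp u hu) (hsupp v hv) huv
    intro h
    exact hloop _ huv (by simp [h])
  · intro D hD hac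
    have := girth_le_card hD hac
    omega
  · intro hnoleaf hFne
    have hFC : F ≠ w.edges.toFinset := by
      rw [hedges]; exact hFne
    obtain ⟨u, hus, hu3⟩ := exists_deg_three hF hw hFC
    have h2 : ∑ _v ∈ (supp F).erase u, 2 ≤ ∑ v ∈ (supp F).erase u, dg F v := by
      apply sum_le_sum
      intro v hv
      rw [mem_erase] at hv
      have h3 := dg_pos hv.2
      have h4 := hnoleaf v
      omega
    rw [← add_sum_erase _ _ hus] at hsum
    simp only [sum_const, smul_eq_mul, card_erase_of_mem hus] at h2
    have h5 : 0 < (supp F).card := card_pos.mpr ⟨u, hus⟩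
    have h6 : (supp F).card + 1 ≤ F.card := by omega
    have hs : Shortest F k := by
      intro D hD hac
      have := girth_le_card hD hac
      omega
    exact excess hs hloop (subset_refl _) h6

section

variable {F : Finset (Sym2 V)} {k : ℕ} {a b : V} {p q : List V}

/-- the vertices of the cycle -/
def cv (a b : V) (p q : List V) : Finset V := (a :: p ++ b :: q).toFinset

lemma mem_cv {a b : V} {p q : List V} {u : V} : u ∈ cv a b p q ↔ u = a ∨ u ∈ p ∨ u = b ∨ u ∈ q := by
  unfold cv
  simp only [List.cons_append, List.mem_toFinset, List.mem_cons, List.mem_append]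

lemma card_cv (h : CycPres F k a b p q) : (cv a b p q).card = 2 * k := by
  unfold cv
  rw [List.toFinset_card_of_nodup h.nodup]
  have := h.hp
  have := h.hq
  simp only [List.cons_append, List.length_cons, List.length_append]
  omega

lemma supp_cyc_sub (h : CycPres F k a b p q) : supp (cycEdges a b p q) ⊆ cv a b p q := by
  intro v hv
  obtain ⟨e, he, hve⟩ := mem_supp.mp hv
  unfold cycEdges at he
  rw [List.mem_toFinset, List.mem_append] at he
  rw [mem_cv]
  rcases he with he | he
  · have := mem_pathEdges_vertices he v hve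
    simp only [List.cons_append, List.mem_cons, List.mem_append, List.not_mem_nil,
      or_false] at this
    (clear * - this; tauto)
  · have := mem_pathEdges_vertices he v hve
    simp only [List.cons_append, List.mem_cons, List.mem_append, List.not_mem_nil,
      or_false] at this
    (clear * - this; tauto)

lemma cv_mem {u : V} (hu : u ∈ cv a b p q) : u ∈ a :: p ++ b :: q := by
  unfold cv at hu
  exact List.mem_toFinset.mp hu

lemma notMem_cyc (h : CycPres F k a b p q) {u : V} (hu : u ∉ cv a b p q) {e : Sym2 V}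
    (hue : u ∈ e) : e ∉ cycEdges a b p q := fun he =>
  hu (supp_cyc_sub h (mem_supp.mpr ⟨e, he, hue⟩))

/-- a vertex outside of a shortest cycle of length at least six has at most one neighbour on it -/
lemma outside_one (h : CycPres F k a b p q) (hs : Shortest F k)
    (hloop : ∀ e ∈ F, ¬ e.IsDiag) (hk : 3 ≤ k) {u z z' : V} (hu : u ∉ cv a b p q)
    (hz : z ∈ cv a b p q) (hz' : z' ∈ cv a b p q) (h1 : s(u, z) ∈ F) (h2 : s(u, z') ∈ F) :
    z = z' := by
  by_contra hne
  set D := insert s(u, z) (insert s(u, z') (cycEdges a b p q)) with hD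
  have hDF : D ⊆ F := by
    intro e he
    rw [hD, mem_insert, mem_insert] at he
    rcases he with rfl | rfl | he
    · exact h1
    · exact h2
    · exact h.cycEdges_subset he
  have n1 : s(u, z') ∉ cycEdges a b p q := notMem_cyc h hu (by simp)
  have n2 : s(u, z) ∉ insert s(u, z') (cycEdges a b p q) := by
    rw [mem_insert, not_or]
    refine ⟨?_, notMem_cyc h hu (by simp)⟩
    intro hh
    rw [Sym2.eq_iff] at hh
    rcases hh with ⟨_, hh⟩ | ⟨hh, _⟩
    · exact hne hh
    · exact hu (hh ▸ hz')
  have hcard : D.card = 2 * k + 2 := by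
    rw [hD, card_insert_of_notMem n2, card_insert_of_notMem n1, h.card_cycEdges]
  have hsub : supp D ⊆ insert u (cv a b p q) := by
    intro v hv
    obtain ⟨e, he, hve⟩ := mem_supp.mp hv
    rw [hD, mem_insert, mem_insert] at he
    rw [mem_insert]
    rcases he with rfl | rfl | he
    · rw [Sym2.mem_iff] at hve
      rcases hve with rfl | rfl
      · exact Or.inl rfl
      · exact Or.inr hz
    · rw [Sym2.mem_iff] at hve
      rcases hve with rfl | rfl
      · exact Or.inl rfl
      · exact Or.inr hz'
    · exact Or.inr (supp_cyc_sub h (mem_supp.mpr ⟨e, he, hve⟩))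
  have h3 : (supp D).card ≤ 2 * k + 1 := by
    refine (card_le_card hsub).trans ((card_insert_le _ _).trans ?_)
    rw [card_cv h]
  have := excess hs hloop hDF (by omega)
  omega

/-- adjacent vertices outside of a shortest cycle with different neighbours on it -/
lemma outside_adj (h : CycPres F k a b p q) (hs : Shortest F k)
    (hloop : ∀ e ∈ F, ¬ e.IsDiag) {u u' z z' : V} (hu : u ∉ cv a b p q)
    (hu' : u' ∉ cv a b p q) (huu : u ≠ u')
    (hz : z ∈ cv a b p q) (hz' : z' ∈ cv a b p q) (hzz : z ≠ z') (h1 : s(u, z) ∈ F)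
    (h2 : s(u', z') ∈ F) (h3 : s(u, u') ∈ F) : k ≤ 3 := by
  set D := insert s(u, u') (insert s(u, z) (insert s(u', z') (cycEdges a b p q))) with hD
  have hDF : D ⊆ F := by
    intro e he
    rw [hD, mem_insert, mem_insert, mem_insert] at he
    rcases he with rfl | rfl | rfl | he
    · exact h3
    · exact h1
    · exact h2
    · exact h.cycEdges_subset he
  have n1 : s(u', z') ∉ cycEdges a b p q := notMem_cyc h hu' (by simp)
  have n2 : s(u, z) ∉ insert s(u', z') (cycEdges a b p q) := by
    rw [mem_insert, not_or]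
    refine ⟨?_, notMem_cyc h hu (by simp)⟩
    intro hh
    rw [Sym2.eq_iff] at hh
    rcases hh with ⟨hh, _⟩ | ⟨hh, _⟩
    · exact huu hh
    · exact hu (hh ▸ hz')
  have n3 : s(u, u') ∉ insert s(u, z) (insert s(u', z') (cycEdges a b p q)) := by
    rw [mem_insert, mem_insert, not_or, not_or]
    refine ⟨?_, ?_, notMem_cyc h hu (by simp)⟩
    · intro hh
      rw [Sym2.eq_iff] at hh
      rcases hh with ⟨_, hh⟩ | ⟨hh, _⟩
      · exact hu' (hh ▸ hz)
      · exact hu (hh ▸ hz)
    · intro hh
      rw [Sym2.eq_iff] at hh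
      rcases hh with ⟨hh, _⟩ | ⟨hh, _⟩
      · exact huu hh
      · exact hu (hh ▸ hz')
  have hcard : D.card = 2 * k + 3 := by
    rw [hD, card_insert_of_notMem n3, card_insert_of_notMem n2, card_insert_of_notMem n1,
      h.card_cycEdges]
  have hsub : supp D ⊆ insert u (insert u' (cv a b p q)) := by
    intro v hv
    obtain ⟨e, he, hve⟩ := mem_supp.mp hv
    rw [hD, mem_insert, mem_insert, mem_insert] at he
    rw [mem_insert, mem_insert]
    rcases he with rfl | rfl | rfl | he
    · rw [Sym2.mem_iff] at hve
      rcases hve with rfl | rfl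
      · exact Or.inl rfl
      · exact Or.inr (Or.inl rfl)
    · rw [Sym2.mem_iff] at hve
      rcases hve with rfl | rfl
      · exact Or.inl rfl
      · exact Or.inr (Or.inr hz)
    · rw [Sym2.mem_iff] at hve
      rcases hve with rfl | rfl
      · exact Or.inr (Or.inl rfl)
      · exact Or.inr (Or.inr hz')
    · exact Or.inr (Or.inr (supp_cyc_sub h (mem_supp.mpr ⟨e, he, hve⟩)))
  have h4 : (supp D).card ≤ 2 * k + 2 := by
    refine (card_le_card hsub).trans ((card_insert_le _ _).trans ?_)
    have := card_insert_le u' (cv a b p q)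
    rw [card_cv h] at this
    omega
  have := excess hs hloop hDF (by omega)
  omega

/-- no quadrangle when the shortest cycle has length at least six -/
lemma no_quad (hs : Shortest F k) (hloop : ∀ e ∈ F, ¬ e.IsDiag) (hk : 3 ≤ k) {u u' z z' : V}
    (huu : u ≠ u') (hzz : z ≠ z') (huz' : u ≠ z') (hu'z : u' ≠ z) (h1 : s(u, z) ∈ F)
    (h2 : s(u', z') ∈ F) (h3 : s(u, u') ∈ F) (h4 : s(z, z') ∈ F) : False := by
  have huz : u ≠ z := fun h => hloop _ h1 (by simp [h])
  have hu'z' : u' ≠ z' := fun h => hloop _ h2 (by simp [h])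
  set D : Finset (Sym2 V) := {s(u, z), s(u', z'), s(u, u'), s(z, z')} with hD
  have hDF : D ⊆ F := by
    intro e he
    simp only [hD, mem_insert, mem_singleton] at he
    rcases he with rfl | rfl | rfl | rfl <;> assumption
  have hcard : D.card = 4 := by
    rw [hD, card_insert_of_notMem, card_insert_of_notMem, card_pair]
    · intro hh
      rw [Sym2.eq_iff] at hh
      rcases hh with ⟨hh, _⟩ | ⟨hh, _⟩
      · exact huz hh
      · exact huz' hh
    · simp only [mem_insert, mem_singleton, Sym2.eq_iff, not_or, not_and]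
      refine ⟨⟨fun hh => absurd hh.symm huu, fun _ hh => absurd hh.symm huz'⟩,
        ⟨fun hh => absurd hh hu'z, fun hh => absurd hh hu'z'⟩⟩
    · simp only [mem_insert, mem_singleton, Sym2.eq_iff, not_or, not_and]
      refine ⟨⟨fun hh => absurd hh huu, fun hh => absurd hh huz'⟩,
        ⟨fun _ hh => absurd hh.symm hu'z, fun hh => absurd hh huu⟩,
        ⟨fun hh => absurd hh huz, fun hh => absurd hh huz'⟩⟩
  have hsub : supp D ⊆ {u, u', z, z'} := by
    intro v hv
    obtain ⟨e, he, hve⟩ := mem_supp.mp hv
    simp only [hD, mem_insert, mem_singleton] at he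
    simp only [mem_insert, mem_singleton]
    rcases he with rfl | rfl | rfl | rfl <;> (rw [Sym2.mem_iff] at hve; clear * - hve; tauto)
  have h5 : (supp D).card ≤ 4 := by
    refine (card_le_card hsub).trans ?_
    exact card_le_four
  have h6 : ¬ (gr D).IsAcyclic := by
    apply not_acyclic
    · rw [← card_pos]; omega
    · exact fun e he => hloop e (hDF he)
    · omega
  have := hs D hDF h6
  omega

/-- two adjacent vertices outside of the cycle are not both attached to the same half -/
lemma noNN (h : CycPres F k a b p q) (hs : Shortest F k) (hloop : ∀ e ∈ F, ¬ e.IsDiag)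
    (c : V → Bool) (hc : ∀ u v, s(u, v) ∈ F → c u ≠ c v) {u u' v v' : V}
    (hu : u ∉ cv a b p q) (hu' : u' ∉ cv a b p q) (hv : v ∈ p) (hv' : v' ∈ p)
    (h1 : s(v, u) ∈ F) (h2 : s(v', u') ∈ F) (h3 : s(u, u') ∈ F) : False := by
  have huu : u ≠ u' := fun hh => hloop _ h3 (by simp [hh])
  have hvv : v ≠ v' := by
    rintro rfl
    have c1 := hc _ _ h1
    have c2 := hc _ _ h2
    have c3 := hc _ _ h3
    revert c1 c2 c3
    cases c v <;> cases c u <;> cases c u' <;> simp
  have h1' : s(u, v) ∈ F := by rw [Sym2.eq_swap]; exact h1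
  have h2' : s(u', v') ∈ F := by rw [Sym2.eq_swap]; exact h2
  have hvc : v ∈ cv a b p q := mem_cv.mpr (Or.inr (Or.inl hv))
  have hvc' : v' ∈ cv a b p q := mem_cv.mpr (Or.inr (Or.inl hv'))
  have hk3 := outside_adj h hs hloop hu hu' huu hvc hvc' hvv h1' h2' h3
  have hpl := h.hp
  have hsub1 := h.sub1
  match p, hv, hv', hpl, hsub1, hk3 with
  | [x], hv, hv', _, _, _ =>
    rw [List.mem_singleton] at hv hv'
    exact hvv (hv.trans hv'.symm)
  | [x, y], hv, hv', hpl, hsub1, _ =>
    simp only [List.length_cons, List.length_nil] at hpl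
    have h4 : s(x, y) ∈ F := hsub1 _ (by simp [pathEdges])
    simp only [List.mem_cons, List.not_mem_nil, or_false] at hv hv'
    have h5 : s(v, v') ∈ F := by
      rcases hv with rfl | rfl <;> rcases hv' with rfl | rfl
      · exact absurd rfl hvv
      · exact h4
      · rw [Sym2.eq_swap]; exact h4
      · exact absurd rfl hvv
    exact no_quad hs hloop (by omega) huu hvv (fun hh => hu (hh ▸ hvc'))
      (fun hh => hu' (hh ▸ hvc)) h1' h2' h3 h5
  | x :: y :: z :: t, _, _, hpl, _, hk3 =>
    simp only [List.length_cons] at hpl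
    omega

/-- a vertex outside of the cycle attached to the half `p` is not attached to `a` -/
lemma noAN (h : CycPres F k a b p q) (hs : Shortest F k) (hloop : ∀ e ∈ F, ¬ e.IsDiag)
    (c : V → Bool) (hc : ∀ u v, s(u, v) ∈ F → c u ≠ c v) {u v x : V} (hx : x = a ∨ x = b)
    (hu : u ∉ cv a b p q) (hv : v ∈ p) (h1 : s(v, u) ∈ F) (h2 : s(x, u) ∈ F) : False := by
  have hvc : v ∈ cv a b p q := mem_cv.mpr (Or.inr (Or.inl hv))
  have hxc : x ∈ cv a b p q := by
    rw [mem_cv]
    rcases hx with hx | hx
    · exact Or.inl hx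
    · exact Or.inr (Or.inr (Or.inl hx))
  have hxv : x ≠ v := by
    rintro rfl
    rcases hx with rfl | rfl
    · exact h.a_notMem.1 hv
    · exact h.b_notMem.1 hv
  have h1' : s(u, v) ∈ F := by rw [Sym2.eq_swap]; exact h1
  have h2' : s(u, x) ∈ F := by rw [Sym2.eq_swap]; exact h2
  by_cases hk : 3 ≤ k
  · exact hxv (outside_one h hs hloop hk hu hxc hvc h2' h1')
  · have hk2 := h.hk
    have hpl := h.hp
    have hsub1 := h.sub1
    match p, hv, hpl, hsub1 with
    | [y], hv, _, hsub1 =>
      rw [List.mem_singleton] at hv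
      subst hv
      have e1 : s(a, v) ∈ F := hsub1 _ (by simp [pathEdges])
      have e2 : s(v, b) ∈ F := hsub1 _ (by simp [pathEdges])
      have c1 := hc _ _ h1
      have c2 := hc _ _ h2
      have c3 : c x ≠ c v := by
        rcases hx with rfl | rfl
        · exact hc _ _ e1
        · exact (hc _ _ e2).symm
      revert c1 c2 c3
      cases c v <;> cases c u <;> cases c x <;> simp
    | x :: y :: t, _, hpl, _ =>
      simp only [List.length_cons] at hpl
      omega

/-- opposite vertices are not adjacent -/
lemma noAB (h : CycPres F k a b p q) : s(a, b) ∉ F := by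
  intro hab
  have h1 := h.chordless a (by simp) b (by simp) hab
  rw [List.mem_append] at h1
  rcases h1 with h1 | h1
  · obtain ⟨v, hv, hve⟩ := exists_mem_pathEdges h.p_ne h1
    rw [Sym2.mem_iff] at hve
    rcases hve with rfl | rfl
    · exact h.a_notMem.1 hv
    · exact h.b_notMem.1 hv
  · obtain ⟨v, hv, hve⟩ := exists_mem_pathEdges h.q_ne h1
    rw [Sym2.mem_iff] at hve
    rcases hve with rfl | rfl
    · exact h.a_notMem.2.2 hv
    · exact h.b_notMem.2 hv

end

end Vale.Agent.P050.Loc
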