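import Vale.Agent.P050.Cut.Poly
import Mathlib.Algebra.Order.Chebyshev

set_option linter.all false

/-!
Complete bipartite edge sets inside a bipartite graph.
-/

open MeasureTheory Finset

namespace Vale.Agent.P050.Loc

open Vale.Agent.P050

variable {V : Type*} [Fintype V] [DecidableEq V]

/-- common neighbours -/
def CN (E : Finset (Sym2 V)) (S : Finset V) : Finset V :=
  univ.filter (fun t => ∀ s ∈ S, s(s, t) ∈ E)

lemma mem_CN {E : Finset (Sym2 V)} {S : Finset V} {t : V} : t ∈ CN E S ↔ ∀ s ∈ S, s(s, t) ∈ E := by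
  simp only [CN, mem_filter, mem_univ, true_and]

lemma CN_anti {E : Finset (Sym2 V)} {R S : Finset V} (h : R ⊆ S) : CN E S ⊆ CN E R := by
  intro t ht
  rw [mem_CN] at ht ⊢
  exact fun s hs => ht s (h hs)

/-- admissible centres -/
def SS (E : Finset (Sym2 V)) (c : V → Bool) : Finset (Finset V) :=
  univ.filter (fun S => 2 ≤ (CN E S).card ∧ (S.card = 1 ∨ (2 ≤ S.card ∧ ∀ s ∈ S, c s = true)))

/-- admissible second parts -/
def TT (E : Finset (Sym2 V)) (S : Finset V) : Finset (Finset V) :=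
  (CN E S).powerset.filter (fun T => 2 ≤ T.card)

lemma mem_SS {E : Finset (Sym2 V)} {c : V → Bool} {S : Finset V} : S ∈ SS E c ↔
    2 ≤ (CN E S).card ∧ (S.card = 1 ∨ (2 ≤ S.card ∧ ∀ s ∈ S, c s = true)) := by
  simp only [SS, mem_filter, mem_univ, true_and]

lemma mem_TT {E : Finset (Sym2 V)} {S T : Finset V} : T ∈ TT E S ↔ T ⊆ CN E S ∧ 2 ≤ T.card := by
  simp only [TT, mem_filter, mem_powerset]

section

variable {E : Finset (Sym2 V)} {c : V → Bool} {S T : Finset V}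

lemma SS_pos (hS : S ∈ SS E c) : 0 < S.card := by
  rw [mem_SS] at hS
  rcases hS.2 with h | ⟨h, _⟩ <;> omega

lemma disj_of_mem (hloop : ∀ e ∈ E, ¬ e.IsDiag) (hT : T ∈ TT E S) : Disjoint S T := by
  rw [disjoint_left]
  intro v hvS hvT
  have h1 := mem_CN.mp ((mem_TT.mp hT).1 hvT) v hvS
  exact hloop _ h1 (by simp)

lemma kst_sub (hT : T ∈ TT E S) : kst S T ⊆ E := by
  intro e he
  obtain ⟨s, hs, t, ht, rfl⟩ := mem_kst.mp he
  exact mem_CN.mp ((mem_TT.mp hT).1 ht) s hs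

lemma supp_kst (hS : 0 < S.card) (hT : 0 < T.card) : supp (kst S T) = S ∪ T := by
  obtain ⟨s0, hs0⟩ := card_pos.mp hS
  obtain ⟨t0, ht0⟩ := card_pos.mp hT
  ext v
  rw [mem_supp, mem_union]
  constructor
  · rintro ⟨e, he, hve⟩
    obtain ⟨s, hs, t, ht, rfl⟩ := mem_kst.mp he
    rw [Sym2.mem_iff] at hve
    rcases hve with rfl | rfl
    · exact Or.inl hs
    · exact Or.inr ht
  · rintro (h | h)
    · exact ⟨s(v, t0), mem_kst.mpr ⟨v, h, t0, ht0, rfl⟩, by simp⟩
    · exact ⟨s(s0, v), mem_kst.mpr ⟨s0, hs0, v, h, rfl⟩, by simp⟩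

lemma conn_kst (hd : Disjoint S T) (hS : 0 < S.card) (hT : 0 < T.card) : Conn (kst S T) := by
  obtain ⟨s0, hs0⟩ := card_pos.mp hS
  obtain ⟨t0, ht0⟩ := card_pos.mp hT
  refine ⟨⟨s(s0, t0), mem_kst.mpr ⟨s0, hs0, t0, ht0, rfl⟩⟩, ?_⟩
  have hadj : ∀ s ∈ S, ∀ t ∈ T, (gr (kst S T)).Reachable s t := by
    intro s hs t ht
    apply SimpleGraph.Adj.reachable
    rw [gr_adj]
    exact ⟨mem_kst.mpr ⟨s, hs, t, ht, rfl⟩, fun h => disjoint_left.mp hd hs (h ▸ ht)⟩
  have key : ∀ v ∈ supp (kst S T), (gr (kst S T)).Reachable s0 v := by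
    intro v hv
    rw [supp_kst hS hT, mem_union] at hv
    rcases hv with hv | hv
    · exact (hadj s0 hs0 t0 ht0).trans (hadj v hv t0 ht0).symm
    · exact hadj s0 hs0 v hv
  intro x hx y hy
  exact (key x hx).symm.trans (key y hy)

lemma nb_kst (hd : Disjoint S T) {s : V} (hs : s ∈ S) : nb (kst S T) s = T := by
  ext t
  rw [mem_nb, mem_kst]
  constructor
  · rintro ⟨s', hs', t', ht', h⟩
    rw [Sym2.eq_iff] at h
    rcases h with ⟨_, h⟩ | ⟨h, _⟩
    · rw [h]; exact ht'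
    · exfalso
      exact disjoint_left.mp hd hs (h ▸ ht')
  · intro ht
    exact ⟨s, hs, t, ht, rfl⟩

lemma star_ne_aux {S' T' : Finset V} {v : V} (hd' : Disjoint S' T') (hS' : 2 ≤ S'.card)
    (hT' : 2 ≤ T'.card) (hall : ∀ e ∈ kst S' T', v ∈ e) : False := by
  obtain ⟨s1, hs1, s2, hs2, hs⟩ := one_lt_card.mp (show 1 < S'.card by omega)
  obtain ⟨t1, ht1, t2, ht2, ht⟩ := one_lt_card.mp (show 1 < T'.card by omega)
  have h1 := hall _ (mem_kst.mpr ⟨s1, hs1, t1, ht1, rfl⟩)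
  have h2 := hall _ (mem_kst.mpr ⟨s2, hs2, t2, ht2, rfl⟩)
  rw [Sym2.mem_iff] at h1 h2
  rcases h1 with rfl | rfl
  · rcases h2 with h2 | h2
    · exact hs h2
    · exact disjoint_left.mp hd' hs1 (h2 ▸ ht2)
  · rcases h2 with h2 | h2
    · exact disjoint_left.mp hd' hs2 (h2 ▸ ht1)
    · exact ht h2

lemma kst_inj_S (hloop : ∀ e ∈ E, ¬ e.IsDiag) (hcol : ∀ u v, s(u, v) ∈ E → c u ≠ c v)
    {S' T' : Finset V} (hS : S ∈ SS E c) (hT : T ∈ TT E S) (hS' : S' ∈ SS E c)
    (hT' : T' ∈ TT E S') (h : kst S T = kst S' T') : S = S' := by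
  have hd := disj_of_mem hloop hT
  have hd' := disj_of_mem hloop hT'
  have hTc := (mem_TT.mp hT).2
  have hTc' := (mem_TT.mp hT').2
  have hSpos := SS_pos hS
  have hSpos' := SS_pos hS'
  have hall1 : ∀ v (S T : Finset V), S = {v} → ∀ e ∈ kst S T, v ∈ e := by
    rintro v S T rfl e he
    obtain ⟨s, hs, t, _, rfl⟩ := mem_kst.mp he
    rw [mem_singleton] at hs
    subst hs
    simp
  rcases (mem_SS.mp hS).2 with h1 | ⟨h1, hc1⟩
  · obtain ⟨v, hv⟩ := card_eq_one.mp h1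
    rcases (mem_SS.mp hS').2 with h1' | ⟨h1', hc1'⟩
    · obtain ⟨v', hv'⟩ := card_eq_one.mp h1'
      obtain ⟨t1, ht1, t2, ht2, ht⟩ := one_lt_card.mp (show 1 < T.card by omega)
      have e1 : s(v, t1) ∈ kst S' T' := by
        rw [← h]; exact mem_kst.mpr ⟨v, by rw [hv]; simp, t1, ht1, rfl⟩
      have e2 : s(v, t2) ∈ kst S' T' := by
        rw [← h]; exact mem_kst.mpr ⟨v, by rw [hv]; simp, t2, ht2, rfl⟩
      have f1 := hall1 v' S' T' hv' _ e1
      have f2 := hall1 v' S' T' hv' _ e2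
      rw [Sym2.mem_iff] at f1 f2
      rcases f1 with f1 | f1
      · rw [hv, hv', f1]
      · rcases f2 with f2 | f2
        · rw [hv, hv', f2]
        · exact absurd (f1.symm.trans f2) ht
    · exfalso
      apply star_ne_aux hd' h1' hTc' (v := v)
      rw [← h]
      exact hall1 v S T hv
  · rcases (mem_SS.mp hS').2 with h1' | ⟨h1', hc1'⟩
    · exfalso
      obtain ⟨v', hv'⟩ := card_eq_one.mp h1'
      apply star_ne_aux hd h1 hTc (v := v')
      rw [h]
      exact hall1 v' S' T' hv'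
    · have key : ∀ S T : Finset V, S ∈ SS E c → T ∈ TT E S → (∀ s ∈ S, c s = true) →
          S = (supp (kst S T)).filter (fun v => c v = true) := by
        intro S T hS hT hcS
        have hSp := SS_pos hS
        have hTp := (mem_TT.mp hT).2
        ext v
        rw [mem_filter, supp_kst hSp (by omega), mem_union]
        constructor
        · intro hv; exact ⟨Or.inl hv, hcS v hv⟩
        · rintro ⟨hv | hv, hcv⟩
          · exact hv
          · exfalso
            obtain ⟨s0, hs0⟩ := card_pos.mp hSp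
            have h3 := mem_CN.mp ((mem_TT.mp hT).1 hv) s0 hs0
            exact hcol _ _ h3 ((hcS s0 hs0).trans hcv.symm)
      rw [key S T hS hT hc1, key S' T' hS' hT' hc1', h]

/-- complete bipartite edge sets with an admissible centre -/
def IsStr (E : Finset (Sym2 V)) (c : V → Bool) (γ : Finset (Sym2 V)) : Prop :=
  ∃ S ∈ SS E c, ∃ T ∈ TT E S, γ = kst S T

open scoped Classical in
lemma sum_str (hloop : ∀ e ∈ E, ¬ e.IsDiag) (hcol : ∀ u v, s(u, v) ∈ E → c u ≠ c v)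
    (f : Finset (Sym2 V) → ℝ) :
    ∑ γ ∈ (E.powerset.filter Conn).filter (fun γ => IsStr E c γ), f γ =
      ∑ S ∈ SS E c, ∑ T ∈ TT E S, f (kst S T) := by
  rw [sum_sigma']
  symm
  apply sum_bij (fun p _ => kst p.1 p.2)
  · rintro ⟨S, T⟩ hp
    simp only [mem_sigma] at hp
    have hd := disj_of_mem hloop hp.2
    have hTc : 0 < T.card := lt_of_lt_of_le two_pos (mem_TT.mp hp.2).2
    rw [mem_filter, mem_filter, mem_powerset]
    exact ⟨⟨kst_sub hp.2, conn_kst hd (SS_pos hp.1) hTc⟩, S, hp.1, T, hp.2, rfl⟩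
  · rintro ⟨S, T⟩ hp ⟨S', T'⟩ hp' h
    simp only [mem_sigma] at hp hp' h
    have hS := kst_inj_S hloop hcol hp.1 hp.2 hp'.1 hp'.2 h
    subst hS
    obtain ⟨s0, hs0⟩ := card_pos.mp (SS_pos hp.1)
    have h1 := nb_kst (disj_of_mem hloop hp.2) hs0
    have h2 := nb_kst (disj_of_mem hloop hp'.2) hs0
    rw [h, h2] at h1
    rw [h1]
  · intro γ hγ
    rw [mem_filter] at hγ
    obtain ⟨_, S, hS, T, hT, rfl⟩ := hγ
    exact ⟨⟨S, T⟩, by simp only [mem_sigma]; exact ⟨hS, hT⟩, rfl⟩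
  · rintro ⟨S, T⟩ _
    rfl

variable {Δ : ℕ}

lemma card_S_le (hΔ : ∀ v, dg E v ≤ Δ) (hS : S ∈ SS E c) : S.card ≤ Δ := by
  have h2 := (mem_SS.mp hS).1
  obtain ⟨t, ht⟩ := card_pos.mp (show 0 < (CN E S).card by omega)
  have hsub : S ⊆ nb E t := by
    intro s hs
    rw [mem_nb, Sym2.eq_swap]
    exact mem_CN.mp ht s hs
  have h3 := card_le_card hsub
  rw [card_nb] at h3
  exact h3.trans (hΔ t)

lemma card_CN_le (hΔ : ∀ v, dg E v ≤ Δ) (hS : 0 < S.card) : (CN E S).card ≤ Δ := by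
  obtain ⟨s, hs⟩ := card_pos.mp hS
  have hsub : CN E S ⊆ nb E s := by
    intro t ht
    rw [mem_nb]
    exact mem_CN.mp ht s hs
  have h3 := card_le_card hsub
  rw [card_nb] at h3
  exact h3.trans (hΔ s)

/-- number of admissible centres containing a given one -/
lemma card_super (hΔ : ∀ v, dg E v ≤ Δ) {R : Finset V} (hR : 0 < R.card) :
    ((SS E c).filter (fun S => R ⊂ S)).card ≤ Δ * 2 ^ Δ := by
  obtain ⟨r, hr⟩ := card_pos.mp hR
  have hsub : (SS E c).filter (fun S => R ⊂ S) ⊆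
      (nb E r).biUnion (fun t => (nb E t).powerset) := by
    intro S hS
    rw [mem_filter] at hS
    have h2 := (mem_SS.mp hS.1).1
    obtain ⟨t, ht⟩ := card_pos.mp (show 0 < (CN E S).card by omega)
    rw [mem_biUnion]
    refine ⟨t, ?_, ?_⟩
    · rw [mem_nb]
      exact mem_CN.mp ht r (hS.2.subset hr)
    · rw [mem_powerset]
      intro s hs
      rw [mem_nb, Sym2.eq_swap]
      exact mem_CN.mp ht s hs
  refine (card_le_card hsub).trans (card_biUnion_le.trans ?_)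
  calc ∑ t ∈ nb E r, (nb E t).powerset.card ≤ ∑ _t ∈ nb E r, 2 ^ Δ := by
        apply sum_le_sum
        intro t _
        rw [card_powerset, card_nb]
        exact Nat.pow_le_pow_right (by norm_num) (hΔ t)
    _ = (nb E r).card * 2 ^ Δ := by simp
    _ ≤ Δ * 2 ^ Δ := by
        rw [card_nb]
        exact Nat.mul_le_mul_right _ (hΔ r)

end

variable {Ω : Type*} [MeasurableSpace Ω]
variable {U : Sym2 Ω → ℝ} {B σ : ℝ}
variable (μ : Measure Ω) [IsProbabilityMeasure μ]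

lemma uS_empty (x : V → Ω) : uS μ U ∅ x = 1 := by
  unfold uS; simp

/-- lower bound from positivity -/
lemma neg_part (hU : Fine μ U B σ) {S : Finset V} (hS : 0 < S.card) (x : V → Ω)
    (h : uS μ U S x < -1) :
    (-1 - uS μ U S x) ^ 2 ≤ (2:ℝ) ^ S.card *
      ∑ R ∈ S.powerset.filter (fun R => R ≠ ∅ ∧ R ≠ S), uS μ U R x ^ 2 := by
  have h0 := sum_uS_nonneg μ hU S x
  set P := S.powerset.filter (fun R => R ≠ ∅ ∧ R ≠ S) with hP
  have h1 := sum_filter_add_sum_filter_not S.powerset (fun R => R ≠ ∅ ∧ R ≠ S)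
    (fun R => uS μ U R x)
  have hSne : S ≠ ∅ := by
    intro hh; rw [hh] at hS; simp at hS
  have h2 : S.powerset.filter (fun R => ¬ (R ≠ ∅ ∧ R ≠ S)) = {∅, S} := by
    ext R
    rw [mem_filter, mem_powerset, mem_insert, mem_singleton]
    constructor
    · rintro ⟨_, h3⟩
      by_cases h4 : R = ∅
      · exact Or.inl h4
      · right
        by_contra h5
        exact h3 ⟨h4, h5⟩
    · rintro (h3 | h3)
      · subst h3
        exact ⟨empty_subset _, fun h4 => h4.1 rfl⟩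
      · subst h3
        exact ⟨subset_refl _, fun h4 => h4.2 rfl⟩
  rw [h2, sum_pair hSne.symm, uS_empty] at h1
  rw [← h1, ← hP] at h0
  have h3 : -1 - uS μ U S x ≤ ∑ R ∈ P, uS μ U R x := by linarith only [h0]
  have h4 : 0 ≤ -1 - uS μ U S x := by linarith only [h]
  have h5 : (-1 - uS μ U S x) ^ 2 ≤ (∑ R ∈ P, uS μ U R x) ^ 2 :=
    pow_le_pow_left₀ h4 h3 2
  refine h5.trans ((sq_sum_le_card_mul_sum_sq).trans ?_)
  apply mul_le_mul_of_nonneg_right _ (sum_nonneg fun _ _ => sq_nonneg _)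
  have h6 : P.card ≤ 2 ^ S.card := by
    rw [← card_powerset]
    exact card_le_card (filter_subset _ _)
  exact_mod_cast h6

/-- lower bound for the weighted sum of the densities with a given centre -/
lemma str_lower (hU : Fine μ U B σ) {E : Finset (Sym2 V)} (hloop : ∀ e ∈ E, ¬ e.IsDiag)
    {S : Finset V} (hS : 0 < S.card) (hc2 : 2 ≤ (CN E S).card) {L : ℝ} (hL : 1 ≤ L)
    (hBL : B ^ S.card ≤ L) :
    ((CN E S).card : ℝ) * (1 / 2 * qS μ U S - (L ^ ((CN E S).card - 1) + 2) * 2 ^ S.card *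
      (σ ^ 2 * L ^ 2 * ∑ R ∈ S.powerset.filter (fun R => R ≠ ∅ ∧ R ≠ S), qS μ U R)) ≤
      ∑ T ∈ TT E S, (T.card : ℝ) * w μ U (kst S T) := by
  have hu : BM (uS μ U S) := bm_uS μ hU.good S
  have huL : ∀ x, |uS μ U S x| ≤ L := fun x => (abs_uS_le μ hU.good S x).trans hBL
  set n := (CN E S).card - 1 with hn
  have h1 : ∑ T ∈ TT E S, (T.card : ℝ) * w μ U (kst S T) =
      ∫ x, ((CN E S).card : ℝ) * (uS μ U S x * ((1 + uS μ U S x) ^ n - 1)) ∂(piM V μ) := by
    have h2 : ∀ x, ((CN E S).card : ℝ) * (uS μ U S x * ((1 + uS μ U S x) ^ n - 1)) =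
        ∑ T ∈ TT E S, (T.card : ℝ) * uS μ U S x ^ T.card := by
      intro x
      exact (sum_ge_two (CN E S) (uS μ U S x)).symm
    simp only [h2]
    rw [integral_finsetSum _ (fun T _ => ((BM.const _).mul (hu.pow _)).integrable _)]
    refine sum_congr rfl fun T hT => ?_
    rw [integral_const_mul, w_kst μ hU.good (disj_of_mem hloop hT)]
  rw [h1, integral_const_mul]
  apply mul_le_mul_of_nonneg_left _ (Nat.cast_nonneg _)
  set P := S.powerset.filter (fun R => R ≠ ∅ ∧ R ≠ S) with hP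
  set K : ℝ := (L ^ n + 2) * 2 ^ S.card with hK
  have hK0 : 0 ≤ K := by
    rw [hK]
    have := one_le_pow₀ hL (n := n)
    positivity
  have hDbm : BM (fun x => ∑ R ∈ P, uS μ U R x ^ 2 * uS μ U S x ^ 2) :=
    BM.finsum P fun R _ => ((bm_uS μ hU.good R).pow 2).mul (hu.pow 2)
  have h3 : ∫ x, (1 / 2 * uS μ U S x ^ 2 - K * ∑ R ∈ P, uS μ U R x ^ 2 * uS μ U S x ^ 2)
      ∂(piM V μ) ≤ ∫ x, uS μ U S x * ((1 + uS μ U S x) ^ n - 1) ∂(piM V μ) := by
    apply integral_mono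
    · exact (((BM.const _).mul (hu.pow 2)).sub ((BM.const _).mul hDbm)).integrable _
    · exact (hu.mul ((((BM.const 1).add hu).pow n).sub (BM.const 1))).integrable _
    · intro x
      show 1 / 2 * uS μ U S x ^ 2 - K * ∑ R ∈ P, uS μ U R x ^ 2 * uS μ U S x ^ 2 ≤
        uS μ U S x * ((1 + uS μ U S x) ^ n - 1)
      have h4 := poly_bound (u := uS μ U S x) (L := L) (D := ∑ R ∈ P, uS μ U R x ^ 2)
        (m := 2 ^ S.card) (n := n) (by omega) hL (huL x)
        (mul_nonneg (by positivity) (sum_nonneg fun _ _ => sq_nonneg _))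
        (fun h => neg_part μ hU hS x h)
      refine le_trans (le_of_eq ?_) h4
      rw [← sum_mul, hK]
      ring
  refine le_trans ?_ h3
  rw [integral_sub (((BM.const _).mul (hu.pow 2)).integrable _)
    (((BM.const _).mul hDbm).integrable _), integral_const_mul, integral_const_mul,
    integral_finsetSum _ (fun R _ => (((bm_uS μ hU.good R).pow 2).mul (hu.pow 2)).integrable _)]
  have h5 : ∑ R ∈ P, ∫ x, uS μ U R x ^ 2 * uS μ U S x ^ 2 ∂(piM V μ) ≤
      σ ^ 2 * L ^ 2 * ∑ R ∈ P, qS μ U R := by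
    rw [mul_sum]
    apply sum_le_sum
    intro R hR
    rw [hP, mem_filter, mem_powerset] at hR
    obtain ⟨hRS, hRne, hRneS⟩ := hR
    obtain ⟨q, hq, hqR⟩ : ∃ q ∈ S, q ∉ R := by
      by_contra hcon
      push Not at hcon
      exact hRneS (subset_antisymm hRS hcon)
    refine (mixed_moment μ hU hq hqR).trans ?_
    apply mul_le_mul_of_nonneg_right _ (qS_nonneg μ R)
    apply mul_le_mul_of_nonneg_left _ (sq_nonneg _)
    have hB1 := hU.one_le
    apply pow_le_pow_left₀ (pow_nonneg (by linarith only [hB1]) _)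
    exact (pow_le_pow_right₀ hB1 (by omega)).trans hBL
  have h6 := mul_le_mul_of_nonneg_left h5 hK0
  have h7 : qS μ U S = ∫ x, uS μ U S x ^ 2 ∂(piM V μ) := rfl
  rw [← h7]
  linarith only [h6]

/-- upper bound for the absolute values -/
lemma str_abs (hU : Fine μ U B σ) {E : Finset (Sym2 V)} (hloop : ∀ e ∈ E, ¬ e.IsDiag)
    {S : Finset V} {Δ : ℕ} (hΔ : ∀ v, dg E v ≤ Δ) (hS : 0 < S.card)
    (hc2 : 2 ≤ (CN E S).card) {L : ℝ} (hL : 1 ≤ L)
    (hBL : B ^ S.card ≤ L) :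
    ∑ T ∈ TT E S, (T.card : ℝ) * |w μ U (kst S T)| ≤ Δ * (1 + L) ^ Δ * qS μ U S := by
  have hu : BM (uS μ U S) := bm_uS μ hU.good S
  have huL : ∀ x, |uS μ U S x| ≤ L := fun x => (abs_uS_le μ hU.good S x).trans hBL
  have hL0 : 0 ≤ L := by linarith only [hL]
  have h1 : ∀ T ∈ TT E S, (T.card : ℝ) * |w μ U (kst S T)| ≤
      ((T.card : ℝ) * L ^ T.card) * qS μ U S := by
    intro T hT
    have hT2 := (mem_TT.mp hT).2
    rw [w_kst μ hU.good (disj_of_mem hloop hT), mul_assoc]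
    apply mul_le_mul_of_nonneg_left _ (Nat.cast_nonneg _)
    have h2 : |∫ x, uS μ U S x ^ T.card ∂(piM V μ)| ≤ ∫ x, |uS μ U S x ^ T.card| ∂(piM V μ) :=
      abs_integral_le_integral_abs
    refine h2.trans ?_
    unfold qS
    rw [← integral_const_mul]
    apply integral_mono ((hu.pow _).abs.integrable _)
      (((BM.const _).mul (hu.pow 2)).integrable _)
    intro x
    show |uS μ U S x ^ T.card| ≤ L ^ T.card * uS μ U S x ^ 2
    obtain ⟨j, hj⟩ : ∃ j, T.card = j + 2 := ⟨T.card - 2, by omega⟩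
    rw [hj, abs_pow, pow_add, sq_abs]
    apply mul_le_mul_of_nonneg_right _ (sq_nonneg _)
    calc |uS μ U S x| ^ j ≤ L ^ j := pow_le_pow_left₀ (abs_nonneg _) (huL x) j
      _ ≤ L ^ (j + 2) := pow_le_pow_right₀ hL (by omega)
  refine (sum_le_sum h1).trans ?_
  rw [← sum_mul]
  apply mul_le_mul_of_nonneg_right _ (qS_nonneg μ S)
  have h2 : ∑ T ∈ TT E S, (T.card : ℝ) * L ^ T.card ≤
      ∑ T ∈ (CN E S).powerset, (T.card : ℝ) * L ^ T.card := by
    apply sum_le_sum_of_subset_of_nonneg (filter_subset _ _)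
    intro T _ _
    positivity
  refine h2.trans ?_
  rw [sum_powerset_card_pow]
  have hcn := card_CN_le hΔ hS
  have h3 : L * (1 + L) ^ ((CN E S).card - 1) ≤ (1 + L) ^ Δ := by
    calc L * (1 + L) ^ ((CN E S).card - 1) ≤ (1 + L) * (1 + L) ^ ((CN E S).card - 1) := by
          apply mul_le_mul_of_nonneg_right _ (by positivity)
          linarith only []
      _ = (1 + L) ^ ((CN E S).card - 1 + 1) := by rw [pow_succ]; ring
      _ ≤ (1 + L) ^ Δ := pow_le_pow_right₀ (by linarith only [hL0]) (by omega)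
  have h4 : ((CN E S).card : ℝ) ≤ Δ := by exact_mod_cast hcn
  apply mul_le_mul h4 h3 (by positivity) (by positivity)

end Vale.Agent.P050.Loc
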