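import Vale.Agent.P050.Cut.Group

set_option linter.all false

/-!
The contribution of the other connected edge sets.
-/

open MeasureTheory Finset

namespace Vale.Agent.P050.Loc

open Vale.Agent.P050

variable {V : Type*} [Fintype V] [DecidableEq V]

/-- `t` is a shortest cycle in `γ` with the extra size information -/
def CycInS (γ t : Finset (Sym2 V)) : Prop :=
  ∃ k a b p q, t = cycEdges a b p q ∧ CycPres γ k a b p q ∧ Shortest γ k ∧
    ((∀ v, dg γ v ≠ 1) → 3 * k ≤ γ.card)

open scoped Classical in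
/-- a chosen shortest cycle -/
noncomputable def gS (γ : Finset (Sym2 V)) : Finset (Sym2 V) :=
  if h : ∃ t, CycInS γ t then h.choose else ∅

lemma gS_spec {γ : Finset (Sym2 V)} (h : ∃ t, CycInS γ t) : CycInS γ (gS γ) := by
  unfold gS; rw [dif_pos h]; exact h.choose_spec

variable {Ω : Type*} [MeasurableSpace Ω]
variable {U : Sym2 Ω → ℝ} {B σ e η : ℝ}
variable (μ : Measure Ω) [IsProbabilityMeasure μ]

open scoped Classical in
/-- cost charged to cycles -/
noncomputable def fS (U : Sym2 Ω → ℝ) (x : ℝ) (γ : Finset (Sym2 V)) : ℝ :=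
  if ∃ t, CycInS γ t then bC μ U (gS γ) * x ^ (γ \ gS γ).card else 0

lemma fS_nonneg {x : ℝ} (hx : 0 ≤ x) (γ : Finset (Sym2 V)) : 0 ≤ fS μ U x γ := by
  unfold fS
  have := bC_nonneg (U := U) μ (gS γ)
  split_ifs <;> positivity

/-- costs of cherries are paid by the cherries -/
lemma sum_f2_le {E : Finset (Sym2 V)} (hloop : ∀ e ∈ E, ¬ e.IsDiag) {Δ : ℕ}
    (hΔ : ∀ v, dg E v ≤ Δ) {x y : ℝ} (hx : 0 ≤ x) (hy : 0 ≤ y) (hxy : x * (1 + y) ^ Δ ≤ y)
    (hyh : (1 + y) ^ Δ ≤ hc) {S : Finset (Finset (Sym2 V))}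
    (hS : ∀ γ, γ ∈ S ↔ γ ⊆ E ∧ Conn γ) :
    ∑ γ ∈ S, f2 μ U x γ ≤ ∑ γ ∈ S, f1 μ U γ := by
  have hSmem : ∀ γ ∈ S, γ ⊆ E ∧ Conn γ := fun γ h => (hS γ).mp h
  have hA := one_le_Ac
  have hh := one_le_hc
  unfold f1 f2
  rw [← sum_filter, ← sum_filter]
  have hch : ∀ γ ∈ S.filter (fun γ => 3 ≤ γ.card), ∃ t, ChIn γ t := by
    intro γ hγ
    rw [mem_filter] at hγ
    obtain ⟨h3, h4⟩ := hSmem γ hγ.1
    obtain ⟨a, b, u, hau, hbu, hab, hsub⟩ := exists_cherry h4 (fun e he => hloop e (h3 he))
      (by omega)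
    exact ⟨_, a, b, u, hau, hbu, hab, rfl, hsub⟩
  have key := charge hloop hΔ hx hy hxy hyh (S.filter (fun γ => 3 ≤ γ.card))
    (S.filter (fun γ => γ.card = 2)) (fun γ hγ => hSmem γ (mem_filter.mp hγ).1) g1
    (by
      intro γ hγ
      obtain ⟨a, b, u, hau, hbu, hab, ht, hsub⟩ := g1_spec (hch γ hγ)
      rw [mem_filter, hS]
      refine ⟨⟨hsub.trans (hSmem γ (mem_filter.mp hγ).1).1, ?_⟩, ?_⟩
      · rw [ht]; exact conn_cherry hau hbu
      · rw [ht]; exact card_cherry hbu hab)
    (by
      intro γ hγ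
      obtain ⟨a, b, u, hau, hbu, hab, ht, hsub⟩ := g1_spec (hch γ hγ)
      refine ⟨hsub, ?_⟩
      rw [ht]; simp)
    (fun γ => Kc * dd μ U * x ^ (γ.card - 2)) (fun _ => Kc * dd μ U)
    (by
      intro γ hγ
      obtain ⟨a, b, u, hau, hbu, hab, ht, hsub⟩ := g1_spec (hch γ hγ)
      rw [card_sdiff_of_subset hsub]
      have : (g1 γ).card = 2 := by rw [ht]; exact card_cherry hbu hab
      rw [this])
    (fun _ _ => mul_nonneg Kc_pos.le (dd_nonneg μ))
  refine key.trans ?_
  apply sum_le_sum
  intro t ht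
  rw [mem_filter] at ht
  obtain ⟨h3, h4⟩ := hSmem t ht.1
  obtain ⟨a, b, u, hau, hbu, hab, hsub⟩ := exists_cherry h4 (fun e he => hloop e (h3 he))
      (by omega)
  have ht' : t = {s(a, u), s(b, u)} := by
    symm
    apply eq_of_subset_of_card_le hsub
    rw [card_cherry hbu hab, ht.2]
  have hsupp : (supp t).card ≤ 3 := by
    rw [ht', supp_cherry]; exact card_le_three
  have hD := dd_nonneg (U := U) μ
  calc Kc * dd μ U * hc ^ (supp t).card ≤ Kc * dd μ U * hc ^ 3 := by
        apply mul_le_mul_of_nonneg_left _ (mul_nonneg Kc_pos.le hD)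
        exact pow_le_pow_right₀ hh hsupp
    _ = 2 / Ac ^ 3 * dd μ U := by
        unfold Kc
        have : hc ≠ 0 := by positivity
        (clear * - this hA; field_simp)

open scoped Classical in
/-- costs of cycles are paid by the cycles -/
lemma sum_fS_le {E : Finset (Sym2 V)} (hloop : ∀ e ∈ E, ¬ e.IsDiag) {Δ : ℕ}
    (hΔ : ∀ v, dg E v ≤ Δ) {x y : ℝ} (hx : 0 ≤ x) (hy : 0 ≤ y) (hxy : x * (1 + y) ^ Δ ≤ y)
    (hyh : (1 + y) ^ Δ ≤ hc) {S : Finset (Finset (Sym2 V))}
    (hS : ∀ γ, γ ∈ S ↔ γ ⊆ E ∧ Conn γ) :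
    ∑ γ ∈ S, fS μ U x γ ≤ ∑ γ ∈ S, f3 μ U γ := by
  have hSmem : ∀ γ ∈ S, γ ⊆ E ∧ Conn γ := fun γ h => (hS γ).mp h
  have hA := one_le_Ac
  have hh := one_le_hc
  unfold f3 fS
  rw [← sum_filter, ← sum_filter]
  have key := charge hloop hΔ hx hy hxy hyh (S.filter (fun γ => ∃ t, CycInS γ t))
    (S.filter (fun γ => IsCyc γ)) (fun γ hγ => hSmem γ (mem_filter.mp hγ).1) gS
    (by
      intro γ hγ
      rw [mem_filter] at hγ
      obtain ⟨k, a, b, p, q, ht, hpres, _⟩ := gS_spec hγ.2
      rw [mem_filter, hS]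
      refine ⟨⟨?_, ?_⟩, ?_⟩
      · rw [ht]; exact hpres.cycEdges_subset.trans (hSmem γ hγ.1).1
      · rw [ht]; exact hpres.conn_cycEdges
      · exact ⟨k, a, b, p, q, by rw [ht]; exact hpres.self, ht⟩)
    (by
      intro γ hγ
      rw [mem_filter] at hγ
      obtain ⟨k, a, b, p, q, ht, hpres, _⟩ := gS_spec hγ.2
      rw [ht]
      exact ⟨hpres.cycEdges_subset, hpres.conn_cycEdges.1⟩)
    (fun γ => bC μ U (gS γ) * x ^ (γ \ gS γ).card) (fun t => bC μ U t)
    (fun γ _ => le_rfl)
    (fun t _ => bC_nonneg μ t)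
  refine key.trans ?_
  apply sum_le_sum
  intro t ht
  rw [mem_filter] at ht
  obtain ⟨k, a, b, p, q, hpres, ht'⟩ := ht.2
  have hcard : t.card = 2 * k := by rw [ht']; exact hpres.card_cycEdges
  have hk2 : t.card / 2 = k := by omega
  have hsupp : (supp t).card ≤ 2 * k := by rw [ht']; exact hpres.supp_cycEdges
  unfold bC
  rw [hk2, hcard]
  have hck := ck_nonneg (U := U) μ k
  calc Bc k * ck μ U k * hc ^ (supp t).card ≤ Bc k * ck μ U k * hc ^ (2 * k) := by
        apply mul_le_mul_of_nonneg_left _ (mul_nonneg (Bc_nonneg k) hck)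
        exact pow_le_pow_right₀ hh hsupp
    _ = ((2 * k : ℕ) : ℝ) / Ac ^ (2 * k) * ck μ U k := by
        unfold Bc
        rw [mul_pow]
        have : hc ≠ 0 := by positivity
        push_cast
        (clear * - hh hA; field_simp)

/-- a connected star is complete bipartite -/
lemma isStr_of_star {E : Finset (Sym2 V)} {c : V → Bool} {γ : Finset (Sym2 V)} (hγE : γ ⊆ E)
    (h2 : 2 ≤ γ.card) {v : V} (hv : ∀ e ∈ γ, v ∈ e) : IsStr E c γ := by
  have h1 : γ = kst {v} (nb γ v) := by
    ext e
    rw [mem_kst]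
    constructor
    · intro he
      obtain ⟨u, rfl⟩ := Sym2.mem_iff_exists.mp (hv e he)
      exact ⟨v, mem_singleton_self v, u, mem_nb.mpr he, rfl⟩
    · rintro ⟨s, hs, t, ht, rfl⟩
      rw [mem_singleton] at hs
      subst hs
      exact mem_nb.mp ht
  have h3 : γ.card = (nb γ v).card := by
    rw [card_nb]
    unfold dg
    congr 1
    ext e
    rw [mem_filter]
    exact ⟨fun he => ⟨he, hv e he⟩, fun he => he.1⟩
  have h4 : nb γ v ⊆ CN E {v} := by
    intro t ht
    rw [mem_CN]
    intro s hs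
    rw [mem_singleton] at hs
    subst hs
    exact hγE (mem_nb.mp ht)
  refine ⟨{v}, ?_, nb γ v, ?_, h1⟩
  · rw [mem_SS]
    refine ⟨?_, Or.inl (card_singleton v)⟩
    have := card_le_card h4
    omega
  · rw [mem_TT]
    exact ⟨h4, by omega⟩

/-- lower bound for the contribution of a connected set that is not complete bipartite -/
lemma term_bound' {Δ : ℕ} (hp : Par Δ B σ e η) (hU : Fine μ U B σ)
    (hzero : ∫ s, degf μ U s ∂μ = 0)
    {E : Finset (Sym2 V)} (hloop : ∀ e ∈ E, ¬ e.IsDiag) (hΔ : ∀ v, dg E v ≤ Δ)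
    (c : V → Bool) (hcol : ∀ u v, s(u, v) ∈ E → c u ≠ c v)
    (hZ : 0 < Zs μ U E)
    (hratio : ∀ T : Finset V, 0 < Zs μ U (avoid E T) ∧
      Zs μ U (avoid E T) ≤ Ac ^ T.card * Zs μ U E ∧
      Zs μ U E ≤ Ac ^ T.card * Zs μ U (avoid E T))
    {x : ℝ} (hx : 0 ≤ x) (hex : e ≤ x * (hc / 6))
    {γ : Finset (Sym2 V)} (hγE : γ ⊆ E) (hconn : Conn γ) (hstr : ¬ IsStr E c γ) :
    Zs μ U E * (f3 μ U γ - η * (f2 μ U x γ + fS μ U x γ)) ≤
      (γ.card : ℝ) * (w μ U γ * Zs μ U (avoid E (supp γ))) := by
  classical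
  obtain ⟨hr, hr1, hr2⟩ := hratio (supp γ)
  have hf2 := f2_nonneg (U := U) μ hx γ
  have hf3 := f3_nonneg (U := U) μ γ
  have hf4 := fS_nonneg (U := U) μ hx γ
  have hη := hp.η0
  have hA := one_le_Ac
  have hloopγ : ∀ e ∈ γ, ¬ e.IsDiag := fun e he => hloop e (hγE he)
  have hΔγ : ∀ v, dg γ v ≤ Δ := fun v => (dg_mono hγE v).trans (hΔ v)
  have hcolγ : ∀ u v, s(u, v) ∈ γ → c u ≠ c v := fun u v h => hcol u v (hγE h)
  have hD := dd_nonneg (U := U) μ
  have hcardpos : 0 < γ.card := card_pos.mpr hconn.1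
  have hrup : Zs μ U (avoid E (supp γ)) ≤ Ac ^ (2 * γ.card) * Zs μ U E := by
    refine hr1.trans ?_
    apply mul_le_mul_of_nonneg_right _ hZ.le
    exact pow_le_pow_right₀ hA (card_supp_le γ)
  have hcost0 : 0 ≤ η * (f2 μ U x γ + fS μ U x γ) :=
    mul_nonneg hη.le (add_nonneg hf2 hf4)
  by_cases hcyc : IsCyc γ
  · -- cycles
    obtain ⟨k, a, b, p, q, hpres, hγ⟩ := id hcyc
    have hk := hpres.hk
    have hcard : γ.card = 2 * k := by
      conv_lhs => rw [hγ]
      exact hpres.card_cycEdges
    have hk2 : γ.card / 2 = k := by omega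
    have hw : w μ U γ = ck μ U k := by
      conv_lhs => rw [hγ]
      exact w_cyc μ hU.good hpres
    have hck := ck_nonneg (U := U) μ k
    have hf3' : f3 μ U γ = γ.card / Ac ^ γ.card * ck μ U k := by
      unfold f3; rw [if_pos hcyc, hk2]
    have hsupp : (supp γ).card ≤ γ.card := by
      rw [hcard]
      conv_lhs => rw [hγ]
      exact hpres.supp_cycEdges
    have hrlo : Zs μ U E ≤ Ac ^ γ.card * Zs μ U (avoid E (supp γ)) := by
      refine hr2.trans ?_
      apply mul_le_mul_of_nonneg_right _ hr.le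
      exact pow_le_pow_right₀ hA hsupp
    have hApos : 0 < Ac ^ γ.card := pow_pos (by linarith only [hA]) _
    have h7 : Zs μ U E * (f3 μ U γ - η * (f2 μ U x γ + fS μ U x γ)) ≤
        Zs μ U E * f3 μ U γ := by
      apply mul_le_mul_of_nonneg_left _ hZ.le
      linarith only [hcost0]
    refine h7.trans ?_
    rw [hf3', hw]
    exact calc_gain hApos hrlo (Nat.cast_nonneg _) hck
  have hf3' : f3 μ U γ = 0 := by unfold f3; rw [if_neg hcyc]
  by_cases hc1 : γ.card ≤ 1
  · -- single edges
    have h1 : γ.card = 1 := by omega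
    obtain ⟨e, he⟩ := card_eq_one.mp h1
    have hw : w μ U γ = 0 := by
      have h2 := hloopγ e (by rw [he]; simp)
      rw [he]
      induction e with
      | h a b =>
        rw [Sym2.mk_isDiag_iff] at h2
        exact w_single μ hU.good hzero h2
    rw [hw, zero_mul, mul_zero]
    have : f3 μ U γ - η * (f2 μ U x γ + fS μ U x γ) ≤ 0 := by
      rw [hf3']; linarith only [hcost0]
    exact mul_nonpos_of_nonneg_of_nonpos hZ.le this
  have hstar : ∀ v, ∃ e ∈ γ, v ∉ e := by
    intro v
    by_contra hcon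
    push Not at hcon
    exact hstr (isStr_of_star hγE (by omega) hcon)
  have hc3 : 3 ≤ γ.card := by
    by_contra hlt
    have hc2 : γ.card = 2 := by omega
    obtain ⟨a, b, u, hau, hbu, hab, hsub⟩ := exists_cherry hconn hloopγ (by omega)
    have hγ : γ = {s(a, u), s(b, u)} := by
      symm
      apply eq_of_subset_of_card_le hsub
      rw [card_cherry hbu hab, hc2]
    obtain ⟨e, he, hue⟩ := hstar u
    rw [hγ, mem_insert, mem_singleton] at he
    rcases he with rfl | rfl <;> exact hue (by simp)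
  have hsuff : (∃ X, |w μ U γ| ≤ X ∧
      (γ.card : ℝ) * Ac ^ (2 * γ.card) * X ≤ η * f2 μ U x γ + η * fS μ U x γ) →
      Zs μ U E * (f3 μ U γ - η * (f2 μ U x γ + fS μ U x γ)) ≤
      (γ.card : ℝ) * (w μ U γ * Zs μ U (avoid E (supp γ))) := by
    rintro ⟨X, hX, hX2⟩
    have h8 := calc_suff hZ hr (Nat.cast_nonneg _) hrup hX hX2
    rw [hf3']
    refine le_trans (le_of_eq ?_) h8
    ring
  apply hsuff
  have hf2' : f2 μ U x γ = Kc * dd μ U * x ^ (γ.card - 2) := by unfold f2; rw [if_pos hc3]
  by_cases hleaves : ∃ l₁ l₂, l₁ ≠ l₂ ∧ dg γ l₁ = 1 ∧ dg γ l₂ = 1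
  · -- two leaves
    obtain ⟨l₁, l₂, hne, hl₁, hl₂⟩ := hleaves
    obtain ⟨y₁, hy₁, hu₁⟩ := exists_of_dg_one hl₁
    obtain ⟨y₂, hy₂, hu₂⟩ := exists_of_dg_one hl₂
    have hly₁ : l₁ ≠ y₁ := by
      intro h; exact hloopγ _ hy₁ (by simp [h])
    have hly₂ : l₂ ≠ y₂ := by
      intro h; exact hloopγ _ hy₂ (by simp [h])
    have hnee : s(l₁, y₁) ≠ s(l₂, y₂) := by
      intro h
      obtain ⟨e, he, hne', u, hu, hue⟩ := exists_touch hconn (singleton_subset_iff.mpr hy₁)
        (singleton_nonempty _) (by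
          intro h; rw [← h, card_singleton] at hc3; omega)
      rw [mem_singleton] at hne'
      obtain ⟨e', he', hue'⟩ := mem_supp.mp hu
      rw [mem_singleton] at he'
      subst he'
      have hl2mem : l₂ ∈ s(l₁, y₁) := by rw [h]; simp
      have hy₁l₂ : y₁ = l₂ := by
        rw [Sym2.mem_iff] at hl2mem
        rcases hl2mem with h1 | h1
        · exact absurd h1.symm hne
        · exact h1.symm
      rw [Sym2.mem_iff] at hue'
      rcases hue' with h1 | h1
      · subst h1; exact hne' (hu₁ e he hue)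
      · rw [h1, hy₁l₂] at hue
        apply hne'
        rw [hu₂ e he hue, h]
    have hw := two_leaf μ hp hU hloopγ hΔγ hc3 hly₁ hly₂ hy₁ hy₂ hu₁ hu₂ hnee hstar
    refine ⟨_, hw, ?_⟩
    have hnum := num_L2 hx hp.e0.le hex hc3
    rw [hf2']
    have h5 := mul_le_mul_of_nonneg_right hnum (mul_nonneg hη.le hD)
    have h6 := mul_nonneg hη.le hf4
    linarith only [hf4, h5, h6]
  -- at most one leaf
  push Not at hleaves
  have hleaf : ∀ u v, dg γ u = 1 → dg γ v = 1 → u = v := by
    intro u v hu hv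
    by_contra hne
    exact hleaves u v hne hu hv
  obtain ⟨k₀, a₀, b₀, p₀, q₀, hpres₀, hs₀, h3k₀⟩ := exists_short γ hconn hloopγ c hcolγ hleaf
  have hex' : ∃ t, CycInS γ t := by
    refine ⟨cycEdges a₀ b₀ p₀ q₀, k₀, a₀, b₀, p₀, q₀, rfl, hpres₀, hs₀, ?_⟩
    intro hnl
    apply h3k₀ hnl
    intro heq
    exact hcyc ⟨k₀, a₀, b₀, p₀, q₀, hpres₀, heq⟩
  obtain ⟨k, a, b, p, q, hg2, hpres, hs, h3k⟩ := gS_spec hex'
  have hf4' : fS μ U x γ = bC μ U (gS γ) * x ^ (γ \ gS γ).card := by
    unfold fS; rw [if_pos hex']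
  have hk := hpres.hk
  have hg2card : (gS γ).card = 2 * k := by rw [hg2]; exact hpres.card_cycEdges
  have hg2sub : gS γ ⊆ γ := by rw [hg2]; exact hpres.cycEdges_subset
  have hsd : (γ \ gS γ).card = γ.card - 2 * k := by
    rw [card_sdiff_of_subset hg2sub, hg2card]
  have hbC : bC μ U (gS γ) = Bc k * ck μ U k := by
    unfold bC; rw [hg2card]; congr 2 <;> omega
  rw [hbC, hsd] at hf4'
  rw [hf2', hf4']
  have hck := ck_nonneg (U := U) μ k
  by_cases hl : ∃ l, dg γ l = 1
  · -- one leaf
    obtain ⟨l, hl⟩ := hl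
    obtain ⟨y, hy, hu⟩ := exists_of_dg_one hl
    have hly : l ≠ y := by
      intro h; exact hloopγ _ hy (by simp [h])
    have hlnot : l ∉ a :: p ++ b :: q := by
      intro h
      have := hpres.two_le_dg h
      omega
    have hcycnot : s(l, y) ∉ pathEdges a p b ++ pathEdges b q a := by
      intro h
      apply hlnot
      rw [List.mem_append] at h
      simp only [List.cons_append, List.mem_cons, List.mem_append]
      rcases h with h | h
      · have h1 := mem_pathEdges_vertices h l (by simp)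
        simp only [List.cons_append, List.mem_cons, List.mem_append, List.not_mem_nil,
          or_false] at h1
        rcases h1 with h1 | h1 | h1
        · exact Or.inl h1
        · exact Or.inr (Or.inl h1)
        · exact Or.inr (Or.inr (Or.inl h1))
      · have h1 := mem_pathEdges_vertices h l (by simp)
        simp only [List.cons_append, List.mem_cons, List.mem_append, List.not_mem_nil,
          or_false] at h1
        rcases h1 with h1 | h1 | h1
        · exact Or.inr (Or.inr (Or.inl h1))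
        · exact Or.inr (Or.inr (Or.inr h1))
        · exact Or.inl h1
    have hn : 2 * k + 1 ≤ γ.card := by
      have h1 : cycEdges a b p q ⊂ γ := by
        rw [ssubset_iff_of_subset hpres.cycEdges_subset]
        refine ⟨s(l, y), hy, ?_⟩
        intro h
        exact hcycnot (List.mem_toFinset.mp h)
      have h2 := card_lt_card h1
      rw [hpres.card_cycEdges] at h2
      omega
    have h1h := one_le_hc
    have hs0 : 0 < Ac ^ 3 * hc := by (clear * - hA h1h; positivity)
    have hlam : 0 < e ^ (k - 1) * (Ac ^ 3 * hc) ^ (2 * k) :=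
      mul_pos (pow_pos hp.e0 _) (pow_pos hs0 _)
    have hw := one_leaf μ hp hU hloopγ hΔγ c hcolγ hpres hs hly hy hu hcycnot hlam
    refine ⟨_, hw, ?_⟩
    have hnumD := num_L1D hx hp.e0 hex hk hn
    have hnumC := num_L1C hx hp.e0 hex hk hn
    generalize e ^ (k - 1) * (Ac ^ 3 * hc) ^ (2 * k) = lam at hnumD hnumC
    have h5 := mul_le_mul_of_nonneg_right hnumD (mul_nonneg hη.le hD)
    have h6 := mul_le_mul_of_nonneg_right hnumC (mul_nonneg hη.le hck)
    linarith only [h5, h6]
  · -- no leaf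
    push Not at hl
    have h3k' := h3k hl
    have hw : |w μ U γ| ≤ η * e ^ (γ.card - 2 * k) * ck μ U k := by
      by_cases hk3 : 3 ≤ k
      · exact no_leaf_big μ hp hU hloopγ hΔγ c hcolγ hpres hs hk3 hl h3k'
      · have hk2 : k = 2 := by omega
        -- a nonadjacent pair
        have hpair : ∃ u ∈ supp γ, ∃ v ∈ supp γ, c u ≠ c v ∧ s(u, v) ∉ γ := by
          by_contra hcon
          push Not at hcon
          apply hstr
          set S := (supp γ).filter (fun v => c v = true) with hSdef
          set T := (supp γ).filter (fun v => c v = false) with hTdef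
          have hγ : γ = kst S T := by
            ext e
            rw [mem_kst]
            constructor
            · intro he
              induction e with
              | h u v =>
                have hu : u ∈ supp γ := mem_supp.mpr ⟨_, he, by simp⟩
                have hv : v ∈ supp γ := mem_supp.mpr ⟨_, he, by simp⟩
                have hcc := hcolγ u v he
                by_cases hcu : c u = true
                · have hcv : c v = false := by
                    rw [hcu] at hcc
                    cases hh : c v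
                    · rfl
                    · exact absurd hh.symm hcc
                  exact ⟨u, mem_filter.mpr ⟨hu, hcu⟩, v, mem_filter.mpr ⟨hv, hcv⟩, rfl⟩
                · have hcu' : c u = false := by simpa using hcu
                  have hcv : c v = true := by
                    rw [hcu'] at hcc
                    cases hh : c v
                    · exact absurd hh.symm hcc
                    · rfl
                  exact ⟨v, mem_filter.mpr ⟨hv, hcv⟩, u, mem_filter.mpr ⟨hu, hcu'⟩, Sym2.eq_swap⟩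
            · rintro ⟨s, hs', t, ht', rfl⟩
              rw [hSdef, mem_filter] at hs'
              rw [hTdef, mem_filter] at ht'
              apply hcon s hs'.1 t ht'.1
              rw [hs'.2, ht'.2]
              simp
          -- sizes
          have hdisj : Disjoint S T := by
            rw [disjoint_left]
            intro v hv hv'
            rw [hSdef, mem_filter] at hv
            rw [hTdef, mem_filter] at hv'
            rw [hv.2] at hv'
            simp at hv'
          obtain ⟨e0, he0⟩ := hconn.1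
          rw [hγ, mem_kst] at he0
          obtain ⟨s0, hs0, t0, ht0, _⟩ := he0
          have hT2 : 2 ≤ T.card := by
            have h1 : (nb γ s0).card = T.card := by
              conv_lhs => rw [hγ]
              rw [nb_kst hdisj hs0]
            rw [card_nb] at h1
            have h2 := hl s0
            have h3 := dg_pos (mem_filter.mp hs0).1
            omega
          have hS2 : 2 ≤ S.card := by
            have h1 : (nb γ t0).card = S.card := by
              conv_lhs => rw [hγ]
              rw [nb_kst' hdisj ht0]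
            rw [card_nb] at h1
            have h2 := hl t0
            have h3 := dg_pos (mem_filter.mp ht0).1
            omega
          have hTCN : T ⊆ CN E S := by
            intro t ht
            rw [mem_CN]
            intro s hs'
            apply hγE
            rw [hγ]
            exact mem_kst.mpr ⟨s, hs', t, ht, rfl⟩
          refine ⟨S, ?_, T, mem_TT.mpr ⟨hTCN, hT2⟩, hγ⟩
          rw [mem_SS]
          refine ⟨hT2.trans (card_le_card hTCN), Or.inr ⟨hS2, ?_⟩⟩
          intro s hs'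
          exact (mem_filter.mp hs').2
        obtain ⟨u, hu, v, hv, huv, hnadj⟩ := hpair
        subst hk2
        exact no_leaf_small μ hp hU hloopγ hΔγ hconn c hcolγ hl hu hv huv hnadj
    refine ⟨_, hw, ?_⟩
    have hnum := num_L0 hx hp.e0 hex hk h3k'
    have h5 := mul_le_mul_of_nonneg_right hnum (mul_nonneg hη.le hck)
    have h6 : 0 ≤ η * (Kc * dd μ U * x ^ (γ.card - 2)) :=
      mul_nonneg hη.le (mul_nonneg (mul_nonneg Kc_pos.le hD) (pow_nonneg hx _))
    linarith only [h5, h6]

end Vale.Agent.P050.Loc
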