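import Vale.Agent.P050.Cut.KP

set_option linter.all false

/-!
Codegree functions and complete bipartite edge sets.
-/

open MeasureTheory Finset

namespace Vale.Agent.P050.Loc

open Vale.Agent.P050

variable {V : Type*} [Fintype V] [DecidableEq V] {Ω : Type*} [MeasurableSpace Ω]
variable {U : Sym2 Ω → ℝ} {B σ ε : ℝ}
variable (μ : Measure Ω) [IsProbabilityMeasure μ]

/-- the codegree function of a set of vertices -/
noncomputable def uS (U : Sym2 Ω → ℝ) (S : Finset V) (x : V → Ω) : ℝ :=
  ∫ y, ∏ s ∈ S, U s(x s, y) ∂μ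

lemma bm_uS_aux (hU : Good U ε) (S : Finset V) :
    BM (fun r : (V → Ω) × Ω => ∏ s ∈ S, U s(r.1 s, r.2)) := by
  apply BM.finprod
  intro s _
  exact hU.bm_two.comp (g := fun r : (V → Ω) × Ω => (r.1 s, r.2))
    (((measurable_pi_apply s).comp measurable_fst).prodMk measurable_snd)

lemma bm_uS (hU : Good U ε) (S : Finset V) : BM (uS μ U S) :=
  (bm_uS_aux hU S).integral_right μ

lemma uS_ind {S : Finset V} {v : V} (hv : v ∉ S) : Ind v (uS μ U S) := by
  intro x z
  unfold uS
  congr 1
  ext y
  refine prod_congr rfl fun s hs => ?_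
  rw [Function.update_of_ne (ne_of_mem_of_not_mem hs hv)]

lemma abs_prod_le (hU : Good U ε) (S : Finset V) (x : V → Ω) (y : Ω) :
    |∏ s ∈ S, U s(x s, y)| ≤ ε ^ S.card := by
  rw [abs_prod]
  calc ∏ s ∈ S, |U s(x s, y)| ≤ ∏ _s ∈ S, ε :=
        prod_le_prod (fun _ _ => abs_nonneg _) fun e _ => hU.bdd _
    _ = ε ^ S.card := by simp

lemma abs_uS_le (hU : Good U ε) (S : Finset V) (x : V → Ω) : |uS μ U S x| ≤ ε ^ S.card := by
  unfold uS
  have h := norm_integral_le_of_norm_le_const (μ := μ) (f := fun y => ∏ s ∈ S, U s(x s, y))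
    (C := ε ^ S.card) (Filter.Eventually.of_forall fun y => abs_prod_le hU S x y)
  simpa only [ge_iff_le, Real.norm_eq_abs, probReal_univ, mul_one] using h

lemma uS_singleton (v : V) (x : V → Ω) : uS μ U {v} x = degf μ U (x v) := by
  unfold uS degf two
  simp

/-- second moment of the codegree function -/
noncomputable def qS (U : Sym2 Ω → ℝ) (S : Finset V) : ℝ := ∫ x, uS μ U S x ^ 2 ∂(piM V μ)

lemma qS_nonneg (S : Finset V) : 0 ≤ qS μ U S := integral_nonneg fun _ => sq_nonneg _

lemma qS_singleton (hU : Good U ε) (v : V) : qS μ U {v} = dd μ U := by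
  unfold qS dd
  simp only [uS_singleton]
  exact integral_eval μ v (g := fun s => degf μ U s ^ 2) ((hU.bm_degf μ).pow 2)

lemma uS_pair {a b : V} (hab : a ≠ b) (x : V → Ω) (S : Finset V) (ha : a ∉ S) (hb : b ∉ S) :
    uS μ U (insert a (insert b S)) x =
      kern μ (two U) ([a].map (fun _ y => ∏ s ∈ S, U s(x s, y))) (x a) (x b) := by
  unfold uS
  simp only [List.map_cons, List.map_nil, kern, two]
  congr 1
  ext y
  rw [prod_insert (by simp [hab, ha]), prod_insert hb, Sym2.eq_swap (a := y)]
  ring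

lemma qS_pair (hU : Good U ε) {a b : V} (hab : a ≠ b) : qS μ U {a, b} = ck μ U 2 := by
  unfold qS ck
  have h1 : ∀ x : V → Ω, uS μ U {a, b} x ^ 2 =
      (kern μ (two U) (List.replicate (2 - 1) (fun _ => (1:ℝ))) (x a) (x b)) ^ 2 := by
    intro x
    have h2 : ({a, b} : Finset V) = insert a (insert b ∅) := by simp
    rw [h2, uS_pair μ hab x ∅ (by simp) (by simp)]
    simp
  simp only [h1]
  exact integral_eval2 μ hab (g := fun s t =>
    (kern μ (two U) (List.replicate (2 - 1) (fun _ => (1:ℝ))) s t) ^ 2)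
    ((bm_kern_replicate μ hU 1).pow 2)

lemma qS_le (hU : Good U ε) {S : Finset V} (hS : 2 ≤ S.card) :
    qS μ U S ≤ (ε ^ (S.card - 2)) ^ 2 * ck μ U 2 := by
  obtain ⟨a, ha, b, hb, hab⟩ := one_lt_card.mp (show 1 < S.card by omega)
  set S' := (S.erase a).erase b with hS'
  have haS' : a ∉ S' := by simp [hS']
  have hbS' : b ∉ S' := by simp [hS']
  have hSeq : S = insert a (insert b S') := by
    rw [hS', insert_erase (mem_erase.mpr ⟨hab.symm, hb⟩), insert_erase ha]
  have hcard : S'.card = S.card - 2 := by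
    rw [hS', card_erase_of_mem (mem_erase.mpr ⟨hab.symm, hb⟩), card_erase_of_mem ha]
    omega
  have h1 := int_kern_sq_le μ hU (D := fun _ x y => ∏ s ∈ S', U s(x s, y))
    (fun _ => bm_uS_aux hU S') [a] hab
    (by
      intro v _ x z
      ext y
      refine prod_congr rfl fun s hs => ?_
      rw [Function.update_of_ne (ne_of_mem_of_not_mem hs haS')])
    (by
      intro v _ x z
      ext y
      refine prod_congr rfl fun s hs => ?_
      rw [Function.update_of_ne (ne_of_mem_of_not_mem hs hbS')])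
    (fun _ => ε ^ S'.card) (fun _ _ => pow_pos hU.pos _)
    (fun _ _ x y => abs_prod_le hU S' x y)
  unfold qS
  have h2 : ∀ x : V → Ω, uS μ U S x = kern μ (two U)
      ([a].map (fun _ y => ∏ s ∈ S', U s(x s, y))) (x a) (x b) := by
    intro x
    rw [← uS_pair μ hab x S' haS' hbS', ← hSeq]
  simp only [h2]
  rw [← hcard]
  simpa using h1

/-- mixed moments of codegree functions -/
lemma mixed_moment (hU : Fine μ U B σ) {R S : Finset V} {q : V} (hqS : q ∈ S) (hqR : q ∉ R) :
    ∫ x, uS μ U R x ^ 2 * uS μ U S x ^ 2 ∂(piM V μ) ≤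
      σ ^ 2 * (B ^ (S.card - 1)) ^ 2 * qS μ U R := by
  have hR := bm_uS μ hU.good R
  have hS := bm_uS μ hU.good S
  rw [integral_update μ q ((hR.pow 2).mul (hS.pow 2))]
  unfold qS
  rw [← integral_const_mul]
  have hb1 : BM (fun r : (V → Ω) × Ω =>
      uS μ U R (Function.update r.1 q r.2) ^ 2 * uS μ U S (Function.update r.1 q r.2) ^ 2) :=
    bm_upd q ((hR.pow 2).mul (hS.pow 2))
  apply integral_mono ((hb1.integral_right μ).integrable _)
    (((BM.const _).mul (hR.pow 2)).integrable _)
  intro x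
  show ∫ z, uS μ U R (Function.update x q z) ^ 2 * uS μ U S (Function.update x q z) ^ 2 ∂μ ≤
    σ ^ 2 * (B ^ (S.card - 1)) ^ 2 * uS μ U R x ^ 2
  have h1 : ∀ z, uS μ U R (Function.update x q z) = uS μ U R x := fun z => uS_ind μ hqR x z
  simp only [h1]
  rw [integral_const_mul]
  set h : Ω → ℝ := fun y => ∏ s ∈ S.erase q, U s(x s, y) with hh
  have hbm : BM h := (bm_uS_aux hU.good (S.erase q)).comp (g := fun y : Ω => (x, y))
    measurable_prodMk_left
  have h2 : ∀ z, uS μ U S (Function.update x q z) = ∫ y, two U z y * h y ∂μ := by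
    intro z
    unfold uS
    congr 1
    ext y
    rw [← mul_prod_erase S _ hqS, Function.update_self]
    unfold two
    congr 1
    refine prod_congr rfl fun s hs => ?_
    rw [Function.update_of_ne (ne_of_mem_erase hs)]
  simp only [h2]
  have h3 := hU.op h hbm
  have h4 : ∫ t, h t ^ 2 ∂μ ≤ (B ^ (S.card - 1)) ^ 2 := by
    calc ∫ t, h t ^ 2 ∂μ ≤ ∫ _t, (B ^ (S.card - 1)) ^ 2 ∂μ := by
          apply integral_mono ((hbm.pow 2).integrable _) (integrable_const _)
          intro t
          show h t ^ 2 ≤ (B ^ (S.card - 1)) ^ 2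
          rw [← sq_abs]
          apply pow_le_pow_left₀ (abs_nonneg _)
          rw [← card_erase_of_mem hqS]
          exact abs_prod_le hU.good _ _ _
      _ = _ := by simp
  have h5 : σ ^ 2 * ∫ t, h t ^ 2 ∂μ ≤ σ ^ 2 * (B ^ (S.card - 1)) ^ 2 :=
    mul_le_mul_of_nonneg_left h4 (sq_nonneg _)
  have h6 := mul_le_mul_of_nonneg_left (h3.trans h5) (sq_nonneg (uS μ U R x))
  refine h6.trans (le_of_eq ?_)
  ring

/-- positivity of the kernel, in terms of codegrees -/
lemma sum_uS_nonneg (hU : Fine μ U B σ) (S : Finset V) (x : V → Ω) :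
    0 ≤ ∑ R ∈ S.powerset, uS μ U R x := by
  unfold uS
  rw [← integral_finsetSum]
  · apply integral_nonneg
    intro y
    show 0 ≤ ∑ R ∈ S.powerset, ∏ s ∈ R, U s(x s, y)
    rw [← prod_one_add]
    apply prod_nonneg
    intro s _
    have := hU.lo s(x s, y)
    linarith only [this]
  · intro R _
    exact ((bm_uS_aux hU.good R).comp (g := fun y : Ω => (x, y))
      measurable_prodMk_left).integrable _

/-- the complete bipartite edge set between `S` and `T` -/
def kst (S T : Finset V) : Finset (Sym2 V) := (S ×ˢ T).image (fun p => s(p.1, p.2))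

lemma mem_kst {S T : Finset V} {e : Sym2 V} : e ∈ kst S T ↔ ∃ s ∈ S, ∃ t ∈ T, e = s(s, t) := by
  unfold kst
  simp only [mem_image, mem_product, Prod.exists]
  constructor
  · rintro ⟨a, b, ⟨ha, hb⟩, rfl⟩
    exact ⟨a, ha, b, hb, rfl⟩
  · rintro ⟨a, ha, b, hb, rfl⟩
    exact ⟨a, b, ⟨ha, hb⟩, rfl⟩

lemma kst_injOn {S T : Finset V} (hd : Disjoint S T) :
    Set.InjOn (fun p : V × V => s(p.1, p.2)) (S ×ˢ T : Finset (V × V)) := by
  rintro ⟨a, b⟩ h1 ⟨a', b'⟩ h2 h
  simp only [coe_product, Set.mem_prod, mem_coe] at h1 h2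
  simp only [Sym2.eq_iff] at h
  rcases h with ⟨h3, h4⟩ | ⟨h3, h4⟩
  · rw [h3, h4]
  · exfalso
    rw [h3] at h1
    exact disjoint_left.mp hd h1.1 h2.2

lemma card_kst {S T : Finset V} (hd : Disjoint S T) : (kst S T).card = S.card * T.card := by
  unfold kst
  rw [card_image_of_injOn (kst_injOn hd), card_product]

lemma wt_kst {S T : Finset V} (hd : Disjoint S T) (x : V → Ω) :
    wt U (kst S T) x = ∏ t ∈ T, ∏ s ∈ S, U s(x s, x t) := by
  unfold wt kst
  rw [prod_image (kst_injOn hd), prod_product_right]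
  simp

/-- densities of complete bipartite edge sets -/
lemma int_kst (hU : Good U ε) (S : Finset V) : ∀ (T : Finset V), Disjoint S T → ∀ j : ℕ,
    ∫ x, wt U (kst S T) x * uS μ U S x ^ j ∂(piM V μ) =
      ∫ x, uS μ U S x ^ (j + T.card) ∂(piM V μ) := by
  intro T
  induction T using Finset.induction_on with
  | empty =>
    intro _ j
    have : kst S (∅ : Finset V) = ∅ := by
      unfold kst; simp
    rw [this]
    simp [wt]
  | insert t T ht ih =>
    intro hd j
    rw [disjoint_insert_right] at hd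
    have htS : t ∉ S := hd.1
    have hd' : Disjoint S (insert t T) := by
      rw [disjoint_insert_right]; exact hd
    have hbmU := bm_uS μ hU S
    have h1 : ∀ x : V → Ω, wt U (kst S (insert t T)) x * uS μ U S x ^ j =
        (∏ s ∈ S, U s(x s, x t)) * (wt U (kst S T) x * uS μ U S x ^ j) := by
      intro x
      rw [wt_kst hd', wt_kst hd.2, prod_insert ht]
      ring
    simp only [h1]
    have hbm1 : BM (fun x : V → Ω => ∏ s ∈ S, U s(x s, x t)) := by
      apply BM.finprod
      intro s _
      have := hU.bm_edge (V := V) s(s, t)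
      simpa using this
    rw [integral_update μ t (hbm1.mul ((hU.bm_wt _).mul (hbmU.pow j)))]
    have h2 : ∀ x : V → Ω, ∫ y, (∏ s ∈ S, U s(Function.update x t y s, Function.update x t y t)) *
        (wt U (kst S T) (Function.update x t y) * uS μ U S (Function.update x t y) ^ j) ∂μ =
        wt U (kst S T) x * uS μ U S x ^ (j + 1) := by
      intro x
      have h3 : ∀ y, wt U (kst S T) (Function.update x t y) = wt U (kst S T) x := by
        intro y
        apply wt_update
        rw [mem_supp]
        rintro ⟨e, he, hte⟩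
        obtain ⟨a, ha, b, hb, rfl⟩ := mem_kst.mp he
        rw [Sym2.mem_iff] at hte
        rcases hte with rfl | rfl
        · exact htS ha
        · exact ht hb
      have h4 : ∀ y, uS μ U S (Function.update x t y) = uS μ U S x := fun y => uS_ind μ htS x y
      simp only [h3, h4, Function.update_self]
      rw [integral_mul_const]
      have h5 : ∫ y, (∏ s ∈ S, U s(Function.update x t y s, y)) ∂μ = uS μ U S x := by
        unfold uS
        congr 1
        ext y
        refine prod_congr rfl fun s hs => ?_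
        rw [Function.update_of_ne (ne_of_mem_of_not_mem hs htS)]
      rw [h5]
      ring
    simp only [h2]
    rw [ih hd.2 (j + 1), card_insert_of_notMem ht]
    congr 2
    ext x
    congr 1
    omega

lemma w_kst (hU : Good U ε) {S T : Finset V} (hd : Disjoint S T) :
    w μ U (kst S T) = ∫ x, uS μ U S x ^ T.card ∂(piM V μ) := by
  have := int_kst μ hU S T hd 0
  unfold w
  simpa using this

end Vale.Agent.P050.Loc
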